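import Vale.Agent.P182.H62.BVers

/-!
# Special configurations (two half-integral arms)

A special configuration has two columns `c0` (first arm) and `c1` (second arm) which are
Lagrangian and which have the same entries of `Ω` against all other columns (normal form of 588;
only the entries against the third arm are visible in both rows).
-/

namespace Vale.Agent.P182.H338

open Module Matrix TensorProduct Vale.Agent.P182.H533 Vale.Agent.P182.B1 Vale.Agent.P182.H62

universe u v w

variable {L : Type u} {V : Type v} {J : Type w} [Field L] [AddCommGroup V] [Module L V]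

/-- special configurations -/
structure SpinC (D : Cfg L V J) (c0 c1 : J) : Prop where
  arm0 : D.arm c0 = 0
  arm1 : D.arm c1 = 1
  lag0 : perp D.q (D.C c0) = D.C c0
  lag1 : perp D.q (D.C c1) = D.C c1
  sp : ∀ l, l ≠ c0 → l ≠ c1 → D.Ω c0 l = D.Ω c1 l
  ne : D.Ω c0 c1 ≠ 0

/-- versality within the special configurations -/
def SVersal (D : Cfg L V J) (c0 c1 : J) : Prop :=
  ∀ Y : Fin 3 → End L V, (∀ s, IsSk D.q (Y s)) → ∀ η : Matrix J J L, ηᵀ = -η →
    (∀ l, η c0 l = η c1 l) →
    ∃ n : Conn D.q, (∀ s i, ∀ v ∈ D.F s i, n.δ v - Y s v ∈ D.F s i) ∧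
      ∀ l k, n.d (D.Ω l k) = η l k

/-- the coefficients `u₀` -/
def uz (D : Cfg L V J) (c0 c1 l : J) : L := if D.arm l = 0 then D.Ω c1 l else D.Ω c0 l

variable [Fintype J]

/-- the numerical function: the two Lagrangian columns are counted by one half -/
noncomputable def thetaS (D : Cfg L V J) (c0 c1 : J) (S : Submodule L V) : ℤ :=
  D.theta S - (finrank L (S ⊓ D.C c0 : Submodule L V) +
    finrank L (S ⊓ D.C c1 : Submodule L V) - finrank L S)

/-- the map `t ↦ ∑ u₀ t` -/
def uzM (D : Cfg L V J) (c0 c1 : J) : (J → V) →ₗ[L] V where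
  toFun t := ∑ l, uz D c0 c1 l • t l
  map_add' t t' := by
    rw [← Finset.sum_add_distrib]
    exact Finset.sum_congr rfl fun l _ => by rw [Pi.add_apply, smul_add]
  map_smul' a t := by
    rw [RingHom.id_apply, Finset.smul_sum]
    exact Finset.sum_congr rfl fun l _ => by rw [Pi.smul_apply, smul_comm]

/-- the special part of the kernel -/
def Ks (D : Cfg L V J) (c0 c1 : J) : Submodule L (J → V) := D.K ⊓ LinearMap.ker (uzM D c0 c1)

/-- semistability over every extension field -/
def USemiS (D : Cfg L V J) (c0 c1 : J) : Prop := ∀ (L' : Type u) [Field L'] [Algebra L L']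
  (S : Submodule L' (L' ⊗[L] V)), (bcC D L').Iso S → thetaS (bcC D L') c0 c1 S ≤ 0

/-- **The statement `T` for special configurations.** -/
def TSpin (J : Type w) [Fintype J] : Prop := ∀ (L V : Type u) [Field L] [CharZero L]
  [AddCommGroup V] [Module L V] [FiniteDimensional L V] (D : Cfg L V J) (c0 c1 : J),
  SpinC D c0 c1 → D.Good → SVersal D c0 c1 → USemiS D c0 c1 → finrank L (Ks D c0 c1) ≤ 1

section

variable {D : Cfg L V J} {c0 c1 : J}

omit [Fintype J] in
/-- a column of the same arm lies in the Lagrangian one -/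
theorem le_lag (g : D.Good) {c l : J} (ha : D.arm l = D.arm c) (hc : perp D.q (D.C c) = D.C c) :
    D.C l ≤ D.C c := by
  rcases le_total (D.c l) (D.c c) with h | h
  · rw [Cfg.C, Cfg.C, ha]
    exact g.mono _ h
  · have h1 : D.C c ≤ D.C l := by
      rw [Cfg.C, Cfg.C, ha]
      exact g.mono _ h
    refine le_trans (g.iso _ _) ?_
    show perp D.q (D.C l) ≤ D.C c
    rw [← hc]
    exact fun v hv w hw => hv w (h1 hw)

/-- **The special part of the kernel has codimension at most `dim (C c0 ⊓ C c1)`.** -/
theorem finrank_K_le [FiniteDimensional L V] (hs : SpinC D c0 c1) (g : D.Good) :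
    finrank L D.K ≤ finrank L (Ks D c0 c1) +
      finrank L (D.C c0 ⊓ D.C c1 : Submodule L V) := by
  classical
  let φ : D.K →ₗ[L] V := (uzM D c0 c1).comp D.K.subtype
  have h1 := LinearMap.finrank_range_add_finrank_ker φ
  have h2 : finrank L (LinearMap.ker φ) = finrank L (Ks D c0 c1) := by
    have h3 : (LinearMap.ker φ).map D.K.subtype = Ks D c0 c1 := by
      ext t
      constructor
      · rintro ⟨t, ht, rfl⟩
        exact ⟨t.2, ht⟩
      · rintro ⟨ht, ht'⟩
        exact ⟨⟨t, ht⟩, ht', rfl⟩
    rw [← h3, Submodule.finrank_map_subtype_eq]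
  have h4 : LinearMap.range φ ≤ D.C c0 ⊓ D.C c1 := by
    rintro _ ⟨⟨t, ht⟩, rfl⟩
    show ∑ l, uz D c0 c1 l • t l ∈ D.C c0 ⊓ D.C c1
    have e0 : D.om t c0 ∈ D.C c0 := by
      have := ht.2 c0
      rwa [hs.lag0] at this
    have e1 : D.om t c1 ∈ D.C c1 := by
      have := ht.2 c1
      rwa [hs.lag1] at this
    constructor
    · have h5 : ∑ l, uz D c0 c1 l • t l - D.om t c0 ∈ D.C c0 := by
        rw [Cfg.om, ← Finset.sum_sub_distrib]
        refine Submodule.sum_mem _ fun l _ => ?_
        rw [← sub_smul, uz]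
        split_ifs with h
        · exact Submodule.smul_mem _ _ (le_lag g (h.trans hs.arm0.symm) hs.lag0 (ht.1 l))
        · rw [sub_self, zero_smul]
          exact Submodule.zero_mem _
      have h6 := add_mem h5 e0
      rwa [sub_add_cancel] at h6
    · have h5 : ∑ l, uz D c0 c1 l • t l - D.om t c1 ∈ D.C c1 := by
        rw [Cfg.om, ← Finset.sum_sub_distrib]
        refine Submodule.sum_mem _ fun l _ => ?_
        rw [← sub_smul, uz]
        split_ifs with h
        · rw [sub_self, zero_smul]
          exact Submodule.zero_mem _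
        · by_cases ha : D.arm l = 2
          · rw [hs.sp l (by rintro rfl; rw [hs.arm0] at ha; exact absurd ha (by decide))
              (by rintro rfl; rw [hs.arm1] at ha; exact absurd ha (by decide)), sub_self,
              zero_smul]
            exact Submodule.zero_mem _
          · have h3 : D.arm l = 1 := by
              have : ∀ s : Fin 3, s ≠ 0 → s ≠ 2 → s = 1 := by decide
              exact this _ h ha
            exact Submodule.smul_mem _ _ (le_lag g (h3.trans hs.arm1.symm) hs.lag1 (ht.1 l))
      have h6 := add_mem h5 e1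
      rwa [sub_add_cancel] at h6
  have h5 := Submodule.finrank_mono h4
  omega

omit [Fintype J] in
/-- **The two Lagrangian columns meet in a line, at most.** -/
theorem finrank_inf_le_one [FiniteDimensional L V] (hs : SpinC D c0 c1) (g : D.Good)
    (hV : SVersal D c0 c1) : finrank L (D.C c0 ⊓ D.C c1 : Submodule L V) ≤ 1 := by
  -- the first order relation
  have key : ∀ r ∈ D.C c0 ⊓ D.C c1, ∀ r' ∈ D.C c0 ⊓ D.C c1, ∀ u w : V,
      D.q (wdg D.q u w r) r' = 0 := by
    intro r hr r' hr' u w
    obtain ⟨n, hn, -⟩ := hV (Pi.single 0 (wdg D.q u w)) (fun s => by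
      by_cases h : s = 0
      · subst h; rw [Pi.single_eq_same]; exact wdg_skew g.form u w
      · rw [Pi.single_eq_of_ne h]; intro u v; simp) 0 (by simp) (fun l => rfl)
    have i0 : D.q r r' = 0 := by
      have := hr.1
      rw [← hs.lag0] at this
      exact this _ hr'.1
    have h1 := n.metric r r'
    rw [i0, map_zero] at h1
    have h2 : n.δ r - wdg D.q u w r ∈ D.C c0 := by
      have := hn 0 (D.c c0) r (by have := hr.1; rwa [Cfg.C, hs.arm0] at this)
      rw [Pi.single_eq_same] at this
      rw [Cfg.C, hs.arm0]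
      exact this
    have h3 : ∀ x ∈ D.C c0 ⊓ D.C c1, n.δ x ∈ D.C c1 := by
      intro x hx
      have := hn 1 (D.c c1) x (by have := hx.2; rwa [Cfg.C, hs.arm1] at this)
      rw [Pi.single_eq_of_ne (by decide), LinearMap.zero_apply, sub_zero] at this
      rw [Cfg.C, hs.arm1]
      exact this
    have h4 : D.q (n.δ r) r' = 0 := by
      have := h3 r hr
      rw [← hs.lag1] at this
      exact this _ hr'.2
    have h6 : D.q (n.δ r - wdg D.q u w r) r' = 0 := by
      rw [← hs.lag0] at h2
      exact h2 _ hr'.1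
    rw [map_sub, LinearMap.sub_apply, h4, zero_sub, neg_eq_zero] at h6
    exact h6
  by_cases h0 : D.C c0 ⊓ D.C c1 = ⊥
  · rw [h0, finrank_bot]
    exact Nat.zero_le _
  obtain ⟨r, hr, hr0⟩ := (Submodule.ne_bot_iff _).mp h0
  obtain ⟨u, hu⟩ : ∃ u, D.q u r ≠ 0 := by
    by_contra hcon
    push Not at hcon
    exact hr0 (g.form.nondeg r fun v => by rw [g.form.symm]; exact hcon v)
  refine finrank_le_one (⟨r, hr⟩ : (D.C c0 ⊓ D.C c1 : Submodule L V)) fun r' => ?_
  refine ⟨D.q u r' / D.q u r, Subtype.ext ?_⟩
  show (D.q u r' / D.q u r) • r = (r' : V)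
  apply g.form.ext
  intro w
  have h1 := key r hr r' r'.2 u w
  rw [wdg_apply, map_sub, map_smul, map_smul, LinearMap.sub_apply, LinearMap.smul_apply,
    LinearMap.smul_apply, smul_eq_mul, smul_eq_mul] at h1
  rw [map_smul, LinearMap.smul_apply, smul_eq_mul, g.form.symm r w, g.form.symm r' w,
    div_mul_eq_mul_div, div_eq_iff hu]
  linear_combination -h1

end

end Vale.Agent.P182.H338
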