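import Vale.Agent.P182.H62.NullGlue
import Vale.Agent.P182.H55.NullU
import Vale.Agent.P182.H588.Int
import Vale.Agent.P182.H96.LemTwo
import Vale.Agent.P182.H664.TAll
import Vale.Agent.P182.H163.Factor2b

/-!
# `TSemi` and `TAll` from the glued null case
-/

namespace Vale.Agent.P182.H338

open Module Matrix TensorProduct Vale.Agent.P182.H533 Vale.Agent.P182.B1 Vale.Agent.P182.H62

universe u w

/-- `T` from the null case -/
theorem hypT_of_nullU (J : Type u) [Fintype J]
    (h4 : ∀ (L : Type u) [Field L] [CharZero L] [IsAlgClosed L] [DecidableEq J],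
      H588.HypNullU.{u, u, u} L J) : HypT.{u, u} J :=
  hypT_of_null (fun L _ _ _ _ => H588.hypNull4_of_U L J (h4 L))
    fun L _ _ _ _ => H588.hypGenT_of_U L J (H588.hypGenU L J)

/-- the glued null case does not occur -/
def GlueAll : Prop := ∀ (J : Type) [Fintype J] (L : Type) [Field L] [CharZero L] [IsAlgClosed L]
  [DecidableEq J], H55.HypGlueU.{0, 0, 0} L J

theorem nullU_of_glueAll (h : GlueAll) (J : Type) [Fintype J] (L : Type) [Field L] [CharZero L]
    [IsAlgClosed L] [DecidableEq J] : H588.HypNullU.{0, 0, 0} L J :=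
  H55.hypNullU_of_glue L J (h J L)

/-- `T` for integral weights -/
theorem tSemi_of_glueAll (h : GlueAll) : H588.TSemi :=
  H588.tSemi_of_hypT fun J _ => hypT_of_nullU J fun L _ _ _ _ => nullU_of_glueAll h J L

/-- `T` on the class `E'` -/
theorem tAll_of_glueAll (h : GlueAll) : TAll := by
  intro L _ _ _ J _ _ V _ _ _ D hg hv hr hp
  refine T_all_of_crit two_ne_zero (fun V _ _ _ D σ => ?_) D hg hv hr hp
  exact H922.critN_two (H588.hypNull4_of_U L J (nullU_of_glueAll h J L))
    (H588.hypGenT_of_U L J (H588.hypGenU L J)) (H96.hypTwo L J) D σ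

end Vale.Agent.P182.H338
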