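import Vale.Agent.P182.H338.SStr
import Vale.Agent.P182.H62.TFrame

/-!
# The frame of the proof of `T` for special configurations

`STRS` holds for all good, special, versal configurations in characteristic zero, if there is no
critical special configuration (and if the maximal rank theorem `MT'_s` holds).
-/

namespace Vale.Agent.P182.H338

open Module Matrix TensorProduct Vale.Agent.P182.H533 Vale.Agent.P182.B1 Vale.Agent.P182.H62

universe u w

/-- the maximal rank theorem for generic subspaces of special configurations -/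
def MTS (J : Type w) [Fintype J] : Prop :=
  ∀ (L V : Type u) [Field L] [CharZero L] [AddCommGroup V] [Module L V] [FiniteDimensional L V]
    (D : Cfg L V J) (c0 c1 : J) (S : Submodule L V), D.Good → SpinC1 D c0 c1 →
    SVersal D c0 c1 → D.Iso S → H62.Gen D S →
    (∀ T ≤ S, thetaS D c0 c1 T ≤ thetaS D c0 c1 S) → ExtZeroS D c0 c1 S

/-- the induction hypothesis: `STRS` in dimensions `< n` -/
def IHSs (J : Type w) [Fintype J] (c0 c1 : J) (n : ℕ) : Prop :=
  ∀ (L V : Type u) [Field L] [CharZero L] [AddCommGroup V] [Module L V] [FiniteDimensional L V]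
    (D : Cfg L V J) (g : D.Good), finrank L V < n → SpinC1 D c0 c1 → SVersal D c0 c1 →
    STRS D g c0 c1

/-- the induction hypothesis for shorter columns -/
def IHCs (J : Type w) [Fintype J] (c0 c1 : J) (n m : ℕ) : Prop :=
  ∀ (L V : Type u) [Field L] [CharZero L] [AddCommGroup V] [Module L V] [FiniteDimensional L V]
    (D : Cfg L V J) (g : D.Good), finrank L V = n → ∑ l, D.c l < m → SpinC1 D c0 c1 →
    SVersal D c0 c1 → STRS D g c0 c1

/-- **Critical special configurations.** -/
structure CritS {L V : Type u} {J : Type w} [Field L] [AddCommGroup V] [Module L V] [Fintype J]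
    (D : Cfg L V J) (c0 c1 : J) : Prop where
  good : D.Good
  spin : SpinC1 D c0 c1
  versal : SVersal D c0 c1
  strict : UStrictS D c0 c1
  ih : IHSs.{u, w} J c0 c1 (finrank L V)
  ihc : IHCs.{u, w} J c0 c1 (finrank L V) (∑ l, D.c l)
  finrank_Ks : finrank L (Ks D c0 c1) = 2
  corner : ∀ l, l ≠ c0 → l ≠ c1 → 1 ≤ D.c l →
    ∃ t ∈ Ks D c0 c1, t l ∉ D.F (D.arm l) (D.c l - 1)

/-- there is no critical special configuration -/
def HypTS (J : Type w) [Fintype J] : Prop :=
  ∀ (L V : Type u) [Field L] [CharZero L] [AddCommGroup V] [Module L V] [FiniteDimensional L V]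
    (D : Cfg L V J) (c0 c1 : J), ¬ CritS.{u, w} D c0 c1

section basic

variable {J : Type w} [Fintype J] {L V : Type u} [Field L] [AddCommGroup V] [Module L V]
  {D : Cfg L V J} {c0 c1 : J}

theorem thetaS_bot : thetaS D c0 c1 ⊥ = 0 := by
  rw [thetaS, H887.theta_bot', bot_inf_eq, bot_inf_eq, finrank_bot]
  norm_num

theorem thetaS_le [FiniteDimensional L V] (S : Submodule L V) :
    thetaS D c0 c1 S ≤ ∑ _l : J, (finrank L V : ℤ) + finrank L V := by
  have h1 := H887.theta_le (𝒟 := D) S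
  have h2 : finrank L S ≤ finrank L V := Submodule.finrank_le S
  rw [thetaS]
  have h3 : (finrank L S : ℤ) ≤ finrank L V := by exact_mod_cast h2
  have h4 : (0 : ℤ) ≤ finrank L (S ⊓ D.C c0 : Submodule L V) := by positivity
  have h5 : (0 : ℤ) ≤ finrank L (S ⊓ D.C c1 : Submodule L V) := by positivity
  linarith

theorem SamePos.thetaS {L' : Type u} {V' : Type u} [Field L'] [AddCommGroup V'] [Module L' V']
    {D' : Cfg L' V' J} {S : Submodule L V} {S' : Submodule L' V'} (h : SamePos D S D' S')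
    (ha : D'.arm = D.arm) (hc : D'.c = D.c) :
    H338.thetaS D' c0 c1 S' = H338.thetaS D c0 c1 S := by
  rw [H338.thetaS, H338.thetaS, h.theta ha hc, h.dim]
  have h1 : ∀ l, finrank L' ↥(S' ⊓ D'.C l) = finrank L ↥(S ⊓ D.C l) := by
    intro l
    rw [Cfg.C, Cfg.C, h.F, ha, hc]
  rw [h1, h1]

theorem uSemiS_of_uStrictS (h : UStrictS D c0 c1) : USemiS D c0 c1 := by
  intro L' _ _ S hS
  by_cases h0 : S = ⊥
  · rw [h0, thetaS_bot]
  · have := h L' S hS h0
    linarith

end basic

section shorten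

variable {J : Type w} [DecidableEq J] {L V : Type u} [Field L]
  [AddCommGroup V] [Module L V] {D : Cfg L V J} {c0 c1 : J}

theorem spin_shc (hs : SpinC1 D c0 c1) {l : J} (h0 : l ≠ c0) (h1 : l ≠ c1) :
    SpinC1 (shc D l) c0 c1 where
  arm0 := hs.arm0
  arm1 := hs.arm1
  lag0 := by rw [shc_C_ne D h0.symm]; exact hs.lag0
  lag1 := by rw [shc_C_ne D h1.symm]; exact hs.lag1
  sp := hs.sp
  ne := hs.ne
  one := hs.one

variable [Fintype J]

theorem mem_Ks_shc (g : D.Good) {l : J} {t : J → V} (ht : t ∈ Ks D c0 c1)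
    (htl : t l ∈ D.F (D.arm l) (D.c l - 1)) : t ∈ Ks (shc D l) c0 c1 :=
  ⟨mem_K_shc g ht.1 htl, ht.2⟩

/-- the corner condition -/
theorem cornerS_of (g : D.Good) [FiniteDimensional L V] {l : J}
    (h : finrank L (Ks (shc D l) c0 c1) < finrank L (Ks D c0 c1)) :
    ∃ t ∈ Ks D c0 c1, t l ∉ D.F (D.arm l) (D.c l - 1) := by
  by_contra hc
  push Not at hc
  have h1 : Ks D c0 c1 ≤ Ks (shc D l) c0 c1 := fun t ht => mem_Ks_shc g ht (hc t ht)
  have h2 := Submodule.finrank_mono h1
  omega

/-- shortening a column lowers the dimension of `K_s` by at most one -/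
theorem finrank_Ks_le_shc [FiniteDimensional L V] (g : D.Good) {l : J} (hl : 1 ≤ D.c l) :
    finrank L (Ks D c0 c1) ≤ finrank L (Ks (shc D l) c0 c1) + 1 := by
  let A := D.F (D.arm l) (D.c l - 1)
  let f : Ks D c0 c1 →ₗ[L] V ⧸ A := A.mkQ ∘ₗ LinearMap.proj l ∘ₗ (Ks D c0 c1).subtype
  have h1 := LinearMap.finrank_range_add_finrank_ker f
  have h2 : finrank L (LinearMap.range f) ≤ 1 := by
    have h3 : LinearMap.range f ≤ (D.C l).map A.mkQ := by
      rintro _ ⟨t, rfl⟩
      exact ⟨t.1 l, t.2.1.1 l, rfl⟩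
    refine (Submodule.finrank_mono h3).trans (finrank_quo_le (g.mono _ (Nat.sub_le _ _)) ?_)
    have h4 := g.step (D.arm l) (D.c l - 1)
    rw [Nat.sub_add_cancel hl] at h4
    exact h4
  have h3 : finrank L (LinearMap.ker f) ≤ finrank L (Ks (shc D l) c0 c1) := by
    let i : LinearMap.ker f →ₗ[L] Ks (shc D l) c0 c1 :=
      ((Ks D c0 c1).subtype ∘ₗ (LinearMap.ker f).subtype).codRestrict _ fun t =>
        mem_Ks_shc g t.1.2 ((Submodule.Quotient.mk_eq_zero A).mp (LinearMap.mem_ker.mp t.2))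
    refine LinearMap.finrank_le_finrank_of_injective (f := i) ?_
    intro a b hab
    apply Subtype.ext
    apply Subtype.ext
    exact congrArg (fun z : Ks (shc D l) c0 c1 => (z : J → V)) hab
  omega

/-- the numerical function of the shortened configuration -/
theorem thetaS_shc [FiniteDimensional L V] (g : D.Good) {l : J} (h0 : l ≠ c0) (h1 : l ≠ c1)
    (hl : 1 ≤ D.c l) (W : Submodule L V) :
    thetaS (shc D l) c0 c1 W ≤ thetaS D c0 c1 W + 1 := by
  rw [thetaS, thetaS, shc_C_ne D h0.symm, shc_C_ne D h1.symm]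
  have := theta_shc g hl W
  linarith

end shorten

section frame

variable {J : Type w} [Fintype J] {L V : Type u} [Field L] [CharZero L]
  [AddCommGroup V] [Module L V] [FiniteDimensional L V] {c0 c1 : J}

/-- a strict configuration with small special kernel -/
theorem STRS_of_strict {D : Cfg L V J} (g : D.Good) (hs : SpinC1 D c0 c1)
    (hV : SVersal D c0 c1) (hU : UStrictS D c0 c1)
    (hK : finrank L (Ks D c0 c1) ≤ 1) : STRS D g c0 c1 := by
  have hb : D.Iso ⊥ := bot_le
  have hgb : (sq D g ⊥).Good := good_sq g hb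
  refine STRS_of_ResS hs ⟨⊥, hb, ?_, ?_, ?_, ?_⟩
  · intro y _ _
    funext l
    ext v
    have hv : v = 0 := Subtype.ext ((Submodule.mem_bot L).mp v.2)
    rw [hv, map_zero, map_zero]
  · exact sversal_ciso (cIsoSymm (cIsoBot g)) hgb two_ne_zero hs hV
  · exact cIso_uStrictS (cIsoSymm (cIsoBot g)) hU
  · exact (ciso_finrank_Ks (cIsoSymm (cIsoBot g))).trans_le hK

/-- the reduction in the presence of an isotropic subspace with `thetaS ≥ 0` -/
theorem STRS_of_not_strict (mt : MTS.{u, w} J) {D : Cfg L V J} (g : D.Good)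
    (hs : SpinC1 D c0 c1) (hV : SVersal D c0 c1)
    (ih : IHSs.{u, w} J c0 c1 (finrank L V)) (hn : ¬ UStrictS D c0 c1) : STRS D g c0 c1 := by
  classical
  rw [UStrictS] at hn
  push Not at hn
  obtain ⟨L0, _, _, S0, hS0, hne0, hθ0⟩ := hn
  -- a maximal value
  let P : ℤ → Prop := fun m => ∃ (L' : Type u) (_ : Field L') (_ : Algebra L L')
    (S : Submodule L' (L' ⊗[L] V)), (bcC D L').Iso S ∧ S ≠ ⊥ ∧ thetaS (bcC D L') c0 c1 S = m
  have hbd : ∀ m, P m → m ≤ ∑ _l : J, (finrank L V : ℤ) + finrank L V := by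
    rintro m ⟨L', _, _, S, _, _, rfl⟩
    have h1 := thetaS_le (D := bcC D L') (c0 := c0) (c1 := c1) S
    rwa [finrank_baseChange] at h1
  obtain ⟨m, hm, hmax⟩ := Int.exists_greatest_of_bdd (P := P) ⟨_, hbd⟩
    ⟨_, L0, inferInstance, inferInstance, S0, hS0, hne0, rfl⟩
  have hm0 : 0 ≤ m := by
    have h1 := hmax _ ⟨L0, inferInstance, inferInstance, S0, hS0, hne0, rfl⟩
    linarith
  obtain ⟨L1, _, _, S, hS, hne, hθ⟩ := hm
  have : CharZero L1 := charZero_ext L L1
  have g1 := good_bcC (L' := L1) g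
  have hs1 := spin1_bcC (L' := L1) hs
  have hV1 := sversal_bcC (L' := L1) g hs hV
  obtain ⟨L2, _, _, T, hT, hpos, hG⟩ := gen_existsS g1 hs1 hV1 hS
  have : CharZero L2 := charZero_ext L1 L2
  have g2 := good_bcC (L' := L2) g1
  have hs2 := spin1_bcC (L' := L2) hs1
  have hV2 := sversal_bcC (L' := L2) g1 hs1 hV1
  let _ : Algebra L L2 := ((algebraMap L1 L2).comp (algebraMap L L1)).toAlgebra
  have _ : IsScalarTower L L1 L2 := IsScalarTower.of_algebraMap_eq' rfl
  have i := H716.cIsoTower (L' := L1) (L'' := L2) D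
  have hθT : thetaS (bcC (bcC D L1) L2) c0 c1 T = m := by
    rw [SamePos.thetaS hpos rfl rfl, hθ]
  have hE : ExtZeroS (bcC (bcC D L1) L2) c0 c1 T := by
    refine mt L2 _ _ c0 c1 T g2 hs2 hV2 hT hG fun W hW => ?_
    rw [hθT]
    by_cases hW0 : W = ⊥
    · rw [hW0, thetaS_bot]
      exact hm0
    · have h1 : (bcC (bcC D L1) L2).Iso W := H887.iso_mono hW hT
      have h2 := hmax _ ⟨L2, inferInstance, inferInstance, W.map i.e.toLinearMap,
        (H716.cIso_iso i).mpr h1, H716.map_ne_bot i hW0, rfl⟩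
      rwa [thetaS_ciso] at h2
  have hne2 : T ≠ ⊥ := by
    rintro rfl
    have h1 := hpos.dim
    rw [finrank_bot] at h1
    exact hne (Submodule.finrank_eq_zero.mp h1.symm)
  have h3 : STRS (sq (bcC (bcC D L1) L2) g2 T) (good_sq g2 hT) c0 c1 := by
    refine ih L2 _ _ _ ?_ (spin1_sq g2 hT hs2) (Gen.sversal_sq hG g2 two_ne_zero hs2 hV2 hT)
    refine lt_of_lt_of_eq (finrank_SQ_lt T g2.form hT hne2) ?_
    rw [finrank_baseChange, finrank_baseChange]
  exact STRS_of_bc hs (STRS_of_bc hs1 (STRS_of_sq hs2 hT hE h3))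

/-- the induction on the heights of the columns -/
theorem STRS_step (mt : MTS.{u, w} J) (hyp : HypTS.{u, w} J) (c0 c1 : J) (n : ℕ)
    (ih : IHSs.{u, w} J c0 c1 n) (m : ℕ) :
    ∀ (L V : Type u) [Field L] [CharZero L] [AddCommGroup V] [Module L V]
      [FiniteDimensional L V] (D : Cfg L V J) (g : D.Good), finrank L V = n →
      ∑ l, D.c l = m → SpinC1 D c0 c1 → SVersal D c0 c1 → STRS D g c0 c1 := by
  classical
  induction m using Nat.strong_induction_on with
  | _ m ihm =>
  intro L V _ _ _ _ _ D g hn hm hs hV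
  by_cases hst : UStrictS D c0 c1
  · by_cases hK : finrank L (Ks D c0 c1) ≤ 1
    · exact STRS_of_strict g hs hV hst hK
    · exfalso
      -- the shortened configurations
      have hsh : ∀ l, l ≠ c0 → l ≠ c1 → 1 ≤ D.c l → finrank L (Ks (shc D l) c0 c1) ≤ 1 := by
        intro l h0 h1' hl
        have gl : (shc D l).Good := g.setc _
        have hsl := spin_shc hs h0 h1'
        have hVl : SVersal (shc D l) c0 c1 := hV
        have h1 := ihm _ (by rw [← hm]; exact sum_shc_lt D hl) L V (shc D l) gl hn rfl hsl hVl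
        obtain ⟨L', _, _, S, hS, h2⟩ := T1uS_of_STRS gl hsl.toSpinC h1
        have h3 : thetaS (bcC (shc D l) L') c0 c1 S ≤ 0 := by
          by_cases hS0 : S = ⊥
          · rw [hS0, thetaS_bot]
          · have h4 := thetaS_shc (D := bcC D L') (good_bcC g) h0 h1' (l := l) hl S
            have h5 := hst L' S hS hS0
            have h6 : thetaS (bcC (shc D l) L') c0 c1 S = thetaS (shc (bcC D L') l) c0 c1 S := rfl
            rw [h6]
            linarith
        have h7 : (finrank L (Ks (shc D l) c0 c1) : ℤ) ≤ 1 := by linarith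
        exact_mod_cast h7
      have hcor : ∀ l, l ≠ c0 → l ≠ c1 → 1 ≤ D.c l →
          ∃ t ∈ Ks D c0 c1, t l ∉ D.F (D.arm l) (D.c l - 1) := by
        intro l h0 h1 hl
        have := hsh l h0 h1 hl
        exact cornerS_of g (by omega)
      -- there is a column
      have hcol : ∃ l, l ≠ c0 ∧ l ≠ c1 ∧ 1 ≤ D.c l := by
        by_contra hc
        push Not at hc
        have h1 : ∀ t ∈ Ks D c0 c1, ∀ l, l ≠ c0 → l ≠ c1 → t l = 0 := by
          intro t ht l h0 h1
          have h2 := ht.1.1 l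
          have h3 : D.c l = 0 := by have := hc l h0 h1; omega
          rw [Cfg.C, h3, g.zero, Submodule.mem_bot] at h2
          exact h2
        have h2 : ∀ t ∈ Ks D c0 c1, t c1 = t c0 := by
          intro t ht
          have h3 := (mem_Ks.mp ht).2
          rw [← Finset.add_sum_erase _ _ (Finset.mem_univ c1),
            ← Finset.add_sum_erase _ _ (Finset.mem_erase.mpr ⟨hs.c_ne, Finset.mem_univ c0⟩),
            Finset.sum_eq_zero, add_zero] at h3
          · have e0 : uz D c0 c1 c0 = -1 := by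
              rw [uz, if_pos hs.arm0, skewΩ g, hs.one]
            have e1 : uz D c0 c1 c1 = 1 := by
              rw [uz, if_neg (by rw [hs.arm1]; decide), hs.one]
            rw [e0, e1, one_smul, neg_one_smul, add_neg_eq_zero] at h3
            exact h3
          · intro l hl
            rw [h1 t ht l (Finset.ne_of_mem_erase hl)
              (Finset.ne_of_mem_erase (Finset.mem_of_mem_erase hl)), smul_zero]
        have h3 : finrank L (Ks D c0 c1) ≤ finrank L (D.C c0 ⊓ D.C c1 : Submodule L V) := by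
          let f : Ks D c0 c1 →ₗ[L] (D.C c0 ⊓ D.C c1 : Submodule L V) :=
            (LinearMap.proj c0 ∘ₗ (Ks D c0 c1).subtype).codRestrict _ fun t =>
              ⟨t.2.1.1 c0, by
                have := t.2.1.1 c1
                rw [h2 t.1 t.2] at this
                exact this⟩
          refine LinearMap.finrank_le_finrank_of_injective (f := f) ?_
          intro a b hab
          have hab' : a.1 c0 = b.1 c0 := congrArg Subtype.val hab
          apply Subtype.ext
          funext l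
          by_cases h0 : l = c0
          · subst h0; exact hab'
          · by_cases h1' : l = c1
            · subst h1'; rw [h2 a.1 a.2, h2 b.1 b.2]; exact hab'
            · rw [h1 a.1 a.2 l h0 h1', h1 b.1 b.2 l h0 h1']
        have h4 := finrank_inf_le_one hs.toSpinC g hV
        omega
      obtain ⟨l, h0, h1, hl⟩ := hcol
      have h3 := finrank_Ks_le_shc (c0 := c0) (c1 := c1) g hl
      have h2 := hsh l h0 h1 hl
      refine hyp L V D c0 c1 ⟨g, hs, hV, hst, by rw [hn]; exact ih, ?_, by omega, hcor⟩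
      intro L2 V2 _ _ _ _ _ D2 g2 h3 h4 hs2 hV2
      exact ihm _ (by rw [← hm]; exact h4) L2 V2 D2 g2 (h3.trans hn) rfl hs2 hV2
  · exact STRS_of_not_strict mt g hs hV (by rw [hn]; exact ih) hst

theorem IHSs_all (mt : MTS.{u, w} J) (hyp : HypTS.{u, w} J) (c0 c1 : J) (n : ℕ) :
    IHSs.{u, w} J c0 c1 n := by
  induction n with
  | zero => intro L V _ _ _ _ _ D g h; exact absurd h (Nat.not_lt_zero _)
  | succ n ih =>
    intro L V _ _ _ _ _ D g h hs hV
    refine STRS_step mt hyp c0 c1 (finrank L V) ?_ _ L V D g rfl rfl hs hV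
    intro L' V' _ _ _ _ _ D' g' h' hs' hV'
    exact ih L' V' D' g' (by omega) hs' hV'

/-- **The frame**: `STRS` for all good, versal special configurations. -/
theorem STRS_all (mt : MTS.{u, w} J) (hyp : HypTS.{u, w} J) (D : Cfg L V J) (g : D.Good)
    (hs : SpinC1 D c0 c1) (hV : SVersal D c0 c1) : STRS D g c0 c1 :=
  IHSs_all mt hyp c0 c1 (finrank L V + 1) L V D g (Nat.lt_succ_self _) hs hV

/-- **`T`** for special configurations -/
theorem T1uS_all (mt : MTS.{u, w} J) (hyp : HypTS.{u, w} J) (D : Cfg L V J) (g : D.Good)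
    (hs : SpinC1 D c0 c1) (hV : SVersal D c0 c1) : T1uS D c0 c1 :=
  T1uS_of_STRS g hs.toSpinC (STRS_all mt hyp D g hs hV)

/-- **`T` for semistable special configurations**, `Ω c0 c1 = 1` -/
theorem finrank_Ks_le_one (mt : MTS.{u, w} J) (hyp : HypTS.{u, w} J) (D : Cfg L V J)
    (g : D.Good) (hs : SpinC1 D c0 c1) (hV : SVersal D c0 c1) (hU : USemiS D c0 c1) :
    finrank L (Ks D c0 c1) ≤ 1 := by
  obtain ⟨L', _, _, S, hS, h⟩ := T1uS_all mt hyp D g hs hV
  have h1 := hU L' S hS
  have h2 : (finrank L (Ks D c0 c1) : ℤ) ≤ 1 := by linarith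
  exact_mod_cast h2

end frame

section rescale

variable {J : Type w} [Fintype J] {L V : Type u} [Field L]
  [AddCommGroup V] [Module L V] {D : Cfg L V J} {c0 c1 : J}

/-- rescaling of `Ω` -/
def rsc (D : Cfg L V J) (a : L) : Cfg L V J := { D with Ω := a • D.Ω }

omit [Fintype J] in
theorem rsc_good (g : D.Good) (a : L) : (rsc D a).Good where
  form := g.form
  zero := g.zero
  mono := g.mono
  iso := g.iso
  step := g.step
  skew := by
    show (a • D.Ω)ᵀ = -(a • D.Ω)
    rw [Matrix.transpose_smul, g.skew, smul_neg]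

omit [Fintype J] in
theorem rsc_spin (hs : SpinC D c0 c1) : SpinC1 (rsc D (D.Ω c0 c1)⁻¹) c0 c1 where
  arm0 := hs.arm0
  arm1 := hs.arm1
  lag0 := hs.lag0
  lag1 := hs.lag1
  sp := fun l h0 h1 => by
    show _ * D.Ω c0 l = _ * D.Ω c1 l
    rw [hs.sp l h0 h1]
  ne := mul_ne_zero (inv_ne_zero hs.ne) hs.ne
  one := inv_mul_cancel₀ hs.ne

omit [Fintype J] in
theorem rsc_sversal (h2 : (2 : L) ≠ 0) (hs : SpinC D c0 c1) (hV : SVersal D c0 c1) :
    SVersal (rsc D (D.Ω c0 c1)⁻¹) c0 c1 := by
  intro Y hY η hη hηs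
  obtain ⟨n, hn, hnΩ⟩ := hV Y hY (D.Ω c0 c1 • η)
    (by rw [Matrix.transpose_smul, hη, smul_neg]) (fun l => by
      show D.Ω c0 c1 * η c0 l = D.Ω c0 c1 * η c1 l
      rw [hηs])
  refine ⟨n, hn, fun l k => ?_⟩
  have d1 : n.d 1 = 0 := by
    have h1 := n.leib 1 1
    rw [mul_one, one_mul, mul_one] at h1
    have h3 : n.d 1 + 0 = n.d 1 + n.d 1 := by rw [add_zero]; exact h1
    exact (add_left_cancel h3).symm
  have e1 : n.d (D.Ω c0 c1) = 0 := by
    rw [hnΩ]
    show D.Ω c0 c1 * η c0 c1 = 0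
    rw [hηs, diag_zero h2 hη, mul_zero]
  have e2 : n.d (D.Ω c0 c1)⁻¹ = 0 := by
    have h1 := n.leib (D.Ω c0 c1)⁻¹ (D.Ω c0 c1)
    rw [inv_mul_cancel₀ hs.ne, d1, e1, mul_zero, add_zero] at h1
    exact (mul_eq_zero.mp h1.symm).resolve_right hs.ne
  show n.d ((D.Ω c0 c1)⁻¹ * D.Ω l k) = η l k
  rw [n.leib, e2, zero_mul, zero_add, hnΩ]
  show (D.Ω c0 c1)⁻¹ * (D.Ω c0 c1 * η l k) = η l k
  rw [← mul_assoc, inv_mul_cancel₀ hs.ne, one_mul]

theorem rsc_om (a : L) (t : J → V) (l : J) : (rsc D a).om t l = a • D.om t l := by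
  rw [Cfg.om, Cfg.om, Finset.smul_sum]
  refine Finset.sum_congr rfl fun k _ => ?_
  show (a * D.Ω l k) • t k = _
  rw [mul_smul]

theorem rsc_Ks {a : L} (ha : a ≠ 0) : Ks (rsc D a) c0 c1 = Ks D c0 c1 := by
  ext t
  rw [mem_Ks, mem_Ks, Cfg.mem_K, Cfg.mem_K]
  have e1 : ∀ l, uz (rsc D a) c0 c1 l = a * uz D c0 c1 l := by
    intro l
    rw [uz, uz]
    show (if D.arm l = 0 then a * D.Ω c1 l else a * D.Ω c0 l) = _
    split_ifs <;> rfl
  have e2 : ∑ l, uz (rsc D a) c0 c1 l • t l = a • ∑ l, uz D c0 c1 l • t l := by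
    rw [Finset.smul_sum]
    exact Finset.sum_congr rfl fun l _ => by rw [e1, mul_smul]
  rw [e2, smul_eq_zero_iff_right ha]
  refine and_congr (and_congr Iff.rfl ?_) Iff.rfl
  refine forall_congr' fun l => ?_
  rw [rsc_om]
  exact Submodule.smul_mem_iff _ ha

end rescale

/-- **`TSpin` from the frame.** -/
theorem tSpin_of_hypTS {J : Type w} [Fintype J] (mt : MTS.{u, w} J) (hyp : HypTS.{u, w} J) :
    TSpin.{u, w} J := by
  intro L V _ _ _ _ _ D c0 c1 hs g hV hU
  have h1 := finrank_Ks_le_one mt hyp (rsc D (D.Ω c0 c1)⁻¹) (rsc_good g _) (rsc_spin hs)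
    (rsc_sversal two_ne_zero hs hV) (fun L' _ _ S hS => hU L' S hS)
  rwa [rsc_Ks (inv_ne_zero hs.ne)] at h1

end Vale.Agent.P182.H338
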