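import Vale.Agent.P182.H338.SDefs
import Vale.Agent.P182.H62.GenThm
import Vale.Agent.P182.H716.CIso1

/-!
# Special configurations and ordinary ones

If `Ω c0 c1 = 1` then a special configuration is versal (within the special ones) if and only if
the configuration without the column `c1` is versal.
-/

namespace Vale.Agent.P182.H338

open Module Matrix TensorProduct Vale.Agent.P182.H533 Vale.Agent.P182.B1 Vale.Agent.P182.H62

universe u v w

section star

variable {L : Type u} {V : Type v} {J : Type w} [Field L] [AddCommGroup V] [Module L V]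

/-- special configurations with `Ω c0 c1 = 1` -/
structure SpinC1 (D : Cfg L V J) (c0 c1 : J) : Prop extends SpinC D c0 c1 where
  one : D.Ω c0 c1 = 1

/-- the configuration without the column `c1` -/
def st (D : Cfg L V J) (c1 : J) : Cfg L V {l : J // l ≠ c1} where
  q := D.q
  F := D.F
  arm := fun l => D.arm l
  c := fun l => D.c l
  Ω := D.Ω.submatrix Subtype.val Subtype.val

variable {D : Cfg L V J} {c0 c1 : J}

theorem SpinC.c_ne (hs : SpinC D c0 c1) : c0 ≠ c1 := by
  rintro rfl
  exact absurd (hs.arm0.symm.trans hs.arm1) (by decide)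

theorem st_good (g : D.Good) (c1 : J) : (st D c1).Good where
  form := g.form
  zero := g.zero
  mono := g.mono
  iso := g.iso
  step := g.step
  skew := by
    ext l k
    have := congrFun (congrFun g.skew l) k
    exact this

theorem skewΩ (g : D.Good) (l k : J) : D.Ω l k = - D.Ω k l := by
  have := congrFun (congrFun g.skew k) l
  rwa [Matrix.transpose_apply, Matrix.neg_apply] at this

theorem diag_zero {η : Matrix J J L} (h2 : (2 : L) ≠ 0) (hη : ηᵀ = -η) (l : J) : η l l = 0 := by
  have h1 := congrFun (congrFun hη l) l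
  rw [Matrix.transpose_apply, Matrix.neg_apply] at h1
  have h3 : 2 * η l l = 0 := by linear_combination h1
  exact (mul_eq_zero.mp h3).resolve_left h2

open Classical in
/-- the identification of `c1` with `c0` -/
noncomputable def piC (hne : c0 ≠ c1) (l : J) : {l : J // l ≠ c1} :=
  if h : l = c1 then ⟨c0, hne⟩ else ⟨l, h⟩

theorem piC_c1 (hne : c0 ≠ c1) : piC hne c1 = ⟨c0, hne⟩ := dif_pos rfl

theorem piC_ne (hne : c0 ≠ c1) {l : J} (h : l ≠ c1) : piC hne l = ⟨l, h⟩ := dif_neg h

theorem piC_val (hne : c0 ≠ c1) (l : {l : J // l ≠ c1}) : piC hne (l : J) = l := piC_ne hne l.2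

/-- the variations which are equal on the columns different from `c1` are equal -/
theorem dΩ_ext (g : D.Good) (h2 : (2 : L) ≠ 0) (hs : SpinC1 D c0 c1) {d : L →+ L}
    (hd : ∀ a b, d (a * b) = d a * b + a * d b) {η : Matrix J J L} (hη : ηᵀ = -η)
    (hηs : ∀ l, η c0 l = η c1 l) (h : ∀ l k : {l : J // l ≠ c1}, d (D.Ω l k) = η l k) :
    ∀ l k, d (D.Ω l k) = η l k := by
  have hη' : ∀ a b, η a b = - η b a := fun a b => by
    have := congrFun (congrFun hη b) a
    rwa [Matrix.transpose_apply, Matrix.neg_apply] at this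
  have d1 : d 1 = 0 := by
    have h1 := hd 1 1
    rw [mul_one, one_mul, mul_one] at h1
    have h3 : d 1 + 0 = d 1 + d 1 := by rw [add_zero]; exact h1
    exact (add_left_cancel h3).symm
  -- the row of `c1`
  have row : ∀ k, d (D.Ω c1 k) = η c1 k := by
    intro k
    by_cases hk : k = c1
    · subst hk
      rw [diag_zero h2 g.skew, map_zero, diag_zero h2 hη]
    · by_cases hk0 : k = c0
      · subst hk0
        rw [skewΩ g, hs.one, map_neg, d1, neg_zero, ← hηs, diag_zero h2 hη]
      · rw [← hs.sp k hk0 hk, ← hηs]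
        exact h ⟨c0, hs.c_ne⟩ ⟨k, hk⟩
  intro l k
  by_cases hl : l = c1
  · subst hl
    exact row k
  · by_cases hk : k = c1
    · subst hk
      rw [skewΩ g, map_neg, row, ← hη']
    · exact h ⟨l, hl⟩ ⟨k, hk⟩

/-- **versality of a special configuration implies versality without the column `c1`** -/
theorem SVersal.st (hne : c0 ≠ c1) (hV : SVersal D c0 c1) : (st D c1).Versal := by
  intro Y hY η hη
  have hη' : ∀ a b, η a b = - η b a := fun a b => by
    have := congrFun (congrFun hη b) a
    rwa [Matrix.transpose_apply, Matrix.neg_apply] at this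
  obtain ⟨n, hn, hnΩ⟩ := hV Y hY (Matrix.of fun l k => η (piC hne l) (piC hne k)) (by
    ext l k
    rw [Matrix.transpose_apply, Matrix.neg_apply, Matrix.of_apply, Matrix.of_apply]
    exact hη' _ _) (fun l => by
      rw [Matrix.of_apply, Matrix.of_apply, piC_c1, piC_ne hne hne])
  refine ⟨n, hn, fun l k => ?_⟩
  have h1 := hnΩ l k
  rw [Matrix.of_apply, piC_val, piC_val] at h1
  exact h1

/-- and conversely -/
theorem sversal_of_st (g : D.Good) (h2 : (2 : L) ≠ 0) (hs : SpinC1 D c0 c1)
    (hV : (st D c1).Versal) : SVersal D c0 c1 := by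
  intro Y hY η hη hηs
  obtain ⟨n, hn, hnΩ⟩ := hV Y hY (η.submatrix Subtype.val Subtype.val) (by
    ext l k
    exact congrFun (congrFun hη l) k)
  exact ⟨n, hn, dΩ_ext g h2 hs n.leib hη hηs hnΩ⟩

theorem real0_st (g : D.Good) (h2 : (2 : L) ≠ 0) (hs : SpinC1 D c0 c1) (S : Submodule L V) :
    real0 (st D c1) S = real0 D S := by
  ext A
  constructor
  · rintro ⟨n, h1, h3, h4⟩
    exact ⟨n, h1, dΩ_ext (η := 0) g h2 hs n.leib (by simp) (fun l => rfl) h3, h4⟩
  · rintro ⟨n, h1, h3, h4⟩
    exact ⟨n, h1, fun l k => h3 l k, h4⟩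

theorem gen_st (g : D.Good) (h2 : (2 : L) ≠ 0) (hs : SpinC1 D c0 c1) (S : Submodule L V) :
    Gen (st D c1) S ↔ Gen D S := by
  have h1 : ∀ A, Tan (st D c1) S A ↔ Tan D S A := fun A => Iff.rfl
  constructor
  · intro h A hA
    rw [← real0_st g h2 hs]
    exact h A hA
  · intro h A hA
    rw [real0_st g h2 hs]
    exact h A hA

end star

section bc

variable {L : Type u} {V : Type v} {J : Type w} [Field L] [AddCommGroup V] [Module L V]
  {D : Cfg L V J} {c0 c1 : J} {L' : Type u} [Field L'] [Algebra L L']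

theorem spin_bcC (hs : SpinC D c0 c1) : SpinC (bcC D L') c0 c1 where
  arm0 := hs.arm0
  arm1 := hs.arm1
  lag0 := by rw [perp_bcC_C, hs.lag0, bcC_C]
  lag1 := by rw [perp_bcC_C, hs.lag1, bcC_C]
  sp := fun l h0 h1 => congrArg (algebraMap L L') (hs.sp l h0 h1)
  ne := fun h => hs.ne ((map_eq_zero (algebraMap L L')).mp h)

theorem spin1_bcC (hs : SpinC1 D c0 c1) : SpinC1 (bcC D L') c0 c1 where
  toSpinC := spin_bcC hs.toSpinC
  one := (congrArg (algebraMap L L') hs.one).trans (map_one _)

theorem st_bcC : st (bcC D L') c1 = bcC (st D c1) L' := rfl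

theorem sversal_bcC [FiniteDimensional L V] [Fintype J] [CharZero L] (g : D.Good)
    (hs : SpinC1 D c0 c1) (hV : SVersal D c0 c1) : SVersal (bcC D L') c0 c1 := by
  classical
  have : CharZero L' := charZero_ext L L'
  refine sversal_of_st (good_bcC g) two_ne_zero (spin1_bcC hs) ?_
  have h := versal_bcC (L' := L') (st_good g c1) two_ne_zero (hV.st hs.c_ne) (H388.dExt L L')
  rw [st_bcC]
  exact h

end bc

section sq

variable {L : Type u} {V : Type v} {J : Type w} [Field L] [AddCommGroup V] [Module L V]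
  [FiniteDimensional L V] {D : Cfg L V J} {c0 c1 : J} {S : Submodule L V}

theorem spin_sq (g : D.Good) (hS : D.Iso S) (hs : SpinC D c0 c1) :
    SpinC (sq D g S) c0 c1 where
  arm0 := hs.arm0
  arm1 := hs.arm1
  lag0 := by rw [perp_sq_C g hS, hs.lag0, sq_C]
  lag1 := by rw [perp_sq_C g hS, hs.lag1, sq_C]
  sp := hs.sp
  ne := hs.ne

theorem spin1_sq (g : D.Good) (hS : D.Iso S) (hs : SpinC1 D c0 c1) :
    SpinC1 (sq D g S) c0 c1 where
  toSpinC := spin_sq g hS hs.toSpinC
  one := hs.one

theorem Gen.sversal_sq (hG : Gen D S) (g : D.Good) (h2 : (2 : L) ≠ 0) (hs : SpinC1 D c0 c1)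
    (hV : SVersal D c0 c1) (hS : D.Iso S) : SVersal (sq D g S) c0 c1 := by
  refine sversal_of_st (good_sq g hS) h2 (spin1_sq g hS hs) ?_
  exact Gen.versal_sq ((gen_st g h2 hs S).mpr hG) (st_good g c1) h2 (hV.st hs.c_ne) hS

end sq

section gen

variable {J : Type w} [Fintype J]

/-- **GEN** for special configurations -/
theorem gen_existsS {L V : Type u} [Field L] [CharZero L] [AddCommGroup V]
    [Module L V] [FiniteDimensional L V] {D : Cfg L V J} {c0 c1 : J} {S : Submodule L V}
    (g : D.Good) (hs : SpinC1 D c0 c1) (hV : SVersal D c0 c1) (hS : D.Iso S) :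
      ∃ (L' : Type u) (_ : Field L') (_ : Algebra L L') (S' : Submodule L' (L' ⊗[L] V)),
        (bcC D L').Iso S' ∧ SamePos D S (bcC D L') S' ∧ Gen (bcC D L') S' := by
  classical
  obtain ⟨L', _, _, S', h1, h3, h4⟩ := gen_exists (st_good g c1) (hV.st hs.c_ne) hS
  have : CharZero L' := charZero_ext L L'
  refine ⟨L', _, _, S', h1, ⟨h3.dim, h3.F, h3.perp⟩, ?_⟩
  exact (gen_st (good_bcC g) two_ne_zero (spin1_bcC hs) S').mp h4

end gen

section iso

variable {L : Type u} {V V' : Type v} {J : Type w} [Field L] [AddCommGroup V] [Module L V]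
  [AddCommGroup V'] [Module L V'] {D : Cfg L V J} {D' : Cfg L V' J} {c0 c1 : J}

theorem spin_ciso (i : CIso D D') (hs : SpinC D c0 c1) : SpinC D' c0 c1 where
  arm0 := by rw [i.arm]; exact hs.arm0
  arm1 := by rw [i.arm]; exact hs.arm1
  lag0 := by rw [H716.ciso_C' i, ciso_perp, hs.lag0]
  lag1 := by rw [H716.ciso_C' i, ciso_perp, hs.lag1]
  sp := fun l h0 h1 => by rw [i.Ω]; exact hs.sp l h0 h1
  ne := by rw [i.Ω]; exact hs.ne

theorem spin1_ciso (i : CIso D D') (hs : SpinC1 D c0 c1) : SpinC1 D' c0 c1 where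
  toSpinC := spin_ciso i hs.toSpinC
  one := by rw [i.Ω]; exact hs.one

/-- restriction of an isomorphism -/
def stIso (i : CIso D D') (c1 : J) : CIso (st D c1) (st D' c1) where
  e := i.e
  q := i.q
  F := i.F
  arm := by
    funext l
    exact congrFun i.arm l
  c := by
    funext l
    exact congrFun i.c l
  Ω := by
    show D'.Ω.submatrix _ _ = D.Ω.submatrix _ _
    rw [i.Ω]

theorem sversal_ciso (i : CIso D D') (g' : D'.Good) (h2 : (2 : L) ≠ 0) (hs : SpinC1 D c0 c1)
    (hV : SVersal D c0 c1) : SVersal D' c0 c1 :=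
  sversal_of_st g' h2 (spin1_ciso i hs) (H258.ciso_versal (stIso i c1) (hV.st hs.c_ne))

end iso

end Vale.Agent.P182.H338
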