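import Mathlib.GroupTheory.Perm.Fin
import Mathlib.GroupTheory.Perm.Sign
import Mathlib.Data.Complex.Basic
import Mathlib.LinearAlgebra.Span.Basic
import Mathlib.Tactic.LinearCombination
import Mathlib.Tactic.Module
import Mathlib.Tactic.NoncommRing
import Mathlib.Algebra.Algebra.Basic

/-!
# Antisymmetrisation of functions of words and a Wick formula
-/

namespace Vale.Agent.P182.H338

open Equiv

section alt

variable {J : Type*}

/-- The sign of a permutation as a complex number. -/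
noncomputable def sgn {α : Type*} [Fintype α] [DecidableEq α] (σ : Perm α) : ℂ :=
  ((Perm.sign σ : ℤ) : ℂ)

theorem sgn_mul {α : Type*} [Fintype α] [DecidableEq α] (σ τ : Perm α) :
    sgn (σ * τ) = sgn σ * sgn τ := by
  rw [sgn, sgn, sgn, Perm.sign_mul]; push_cast; rfl

theorem sgn_sq {α : Type*} [Fintype α] [DecidableEq α] (σ : Perm α) : sgn σ * sgn σ = 1 := by
  rw [sgn]
  rcases Int.units_eq_one_or (Perm.sign σ) with e | e <;> rw [e] <;> simp

/-- Antisymmetrisation. -/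
noncomputable def alt {m : ℕ} (f : (Fin m → J) → ℂ) (x : Fin m → J) : ℂ :=
  ∑ σ : Perm (Fin m), sgn σ * f (x ∘ σ)

theorem alt_add {m : ℕ} (f g : (Fin m → J) → ℂ) (x : Fin m → J) :
    alt (fun x => f x + g x) x = alt f x + alt g x := by
  simp only [alt, mul_add, Finset.sum_add_distrib]

theorem alt_smul {m : ℕ} (c : ℂ) (f : (Fin m → J) → ℂ) (x : Fin m → J) :
    alt (fun x => c * f x) x = c * alt f x := by
  simp only [alt, Finset.mul_sum]
  exact Finset.sum_congr rfl fun σ _ => by ring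

theorem alt_sum {m : ℕ} {ι : Type*} (s : Finset ι) (f : ι → (Fin m → J) → ℂ) (x : Fin m → J) :
    alt (fun x => ∑ i ∈ s, f i x) x = ∑ i ∈ s, alt (f i) x := by
  simp only [alt, Finset.mul_sum]
  rw [Finset.sum_comm]

theorem alt_perm {m : ℕ} (τ : Perm (Fin m)) (f : (Fin m → J) → ℂ) (x : Fin m → J) :
    alt (fun x => f (x ∘ τ)) x = sgn τ * alt f x := by
  rw [alt, alt, Finset.mul_sum]
  refine Fintype.sum_equiv (Equiv.mulRight τ) _ _ fun σ => ?_
  rw [Equiv.coe_mulRight, sgn_mul]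
  have : x ∘ ⇑(σ * τ) = (x ∘ σ) ∘ τ := rfl
  rw [this]
  linear_combination (-(sgn σ * f ((x ∘ ⇑σ) ∘ ⇑τ))) * sgn_sq τ

/-- the permutation fixing `0` -/
def ext0 {m : ℕ} (τ : Perm (Fin m)) : Perm (Fin (m + 1)) := Perm.decomposeFin.symm (0, τ)

theorem ext0_zero {m : ℕ} (τ : Perm (Fin m)) : ext0 τ 0 = 0 := by
  rw [ext0, Perm.decomposeFin_symm_apply_zero]

theorem ext0_succ {m : ℕ} (τ : Perm (Fin m)) (i : Fin m) : ext0 τ i.succ = (τ i).succ := by
  rw [ext0, Perm.decomposeFin_symm_apply_succ]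
  simp

theorem sgn_ext0 {m : ℕ} (τ : Perm (Fin m)) : sgn (ext0 τ) = sgn τ := by
  rw [sgn, sgn, ext0, Perm.decomposeFin.symm_sign]
  simp

/-- the tail of a word -/
def tl1 {m : ℕ} (x : Fin (m + 1) → J) : Fin m → J := fun i => x i.succ

theorem tl1_ext0 {m : ℕ} (x : Fin (m + 1) → J) (τ : Perm (Fin m)) :
    tl1 (x ∘ ext0 τ) = tl1 x ∘ τ := by
  funext i
  rw [tl1, Function.comp_apply, ext0_succ]
  rfl

/-- If `g j` has vanishing antisymmetrisation for all `j`, then so has `x ↦ g (x 0) (tail x)`. -/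
theorem alt_cons_eq_zero {m : ℕ} (g : J → (Fin m → J) → ℂ) (hg : ∀ j y, alt (g j) y = 0)
    (x : Fin (m + 1) → J) : alt (fun x => g (x 0) (tl1 x)) x = 0 := by
  have h1 : ∀ τ : Perm (Fin m), alt (fun x : Fin (m + 1) → J => g (x 0) (tl1 x)) x =
      ∑ σ : Perm (Fin (m + 1)), sgn σ * (sgn τ * g (x (σ 0)) (tl1 (x ∘ σ) ∘ τ)) := by
    intro τ
    rw [alt]
    refine Fintype.sum_equiv (Equiv.mulRight (ext0 τ)).symm _ _ fun σ => ?_
    rw [show (Equiv.mulRight (ext0 τ)).symm σ = σ * (ext0 τ)⁻¹ from rfl]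
    set ρ := σ * (ext0 τ)⁻¹ with hρ
    have hσ : σ = ρ * ext0 τ := by rw [hρ, inv_mul_cancel_right]
    rw [hσ, sgn_mul, sgn_ext0]
    have e1 : (x ∘ ⇑(ρ * ext0 τ)) 0 = x (ρ 0) := by
      show x (ρ (ext0 τ 0)) = _
      rw [ext0_zero]
    have e2 : tl1 (x ∘ ⇑(ρ * ext0 τ)) = tl1 (x ∘ ρ) ∘ τ := tl1_ext0 (x ∘ ρ) τ
    rw [e1, e2]
    ring
  have h2 : (Fintype.card (Perm (Fin m)) : ℂ) *
      alt (fun x : Fin (m + 1) → J => g (x 0) (tl1 x)) x = 0 := by
    have : (Fintype.card (Perm (Fin m)) : ℂ) *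
        alt (fun x : Fin (m + 1) → J => g (x 0) (tl1 x)) x =
        ∑ τ : Perm (Fin m), alt (fun x : Fin (m + 1) → J => g (x 0) (tl1 x)) x := by
      rw [Finset.sum_const, nsmul_eq_mul, Finset.card_univ]
    rw [this, Finset.sum_congr rfl fun τ _ => h1 τ, Finset.sum_comm]
    refine Finset.sum_eq_zero fun σ _ => ?_
    rw [← Finset.mul_sum]
    have := hg (x (σ 0)) (tl1 (x ∘ σ))
    rw [alt] at this
    rw [this, mul_zero]
  exact (mul_eq_zero.mp h2).resolve_left (Nat.cast_ne_zero.mpr Fintype.card_ne_zero)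

/-- Two functions of words are equivalent if they have the same antisymmetrisation. -/
def Eqv {m : ℕ} (f g : (Fin m → J) → ℂ) : Prop := ∀ x, alt f x = alt g x

theorem Eqv.refl {m : ℕ} (f : (Fin m → J) → ℂ) : Eqv f f := fun _ => rfl

theorem Eqv.symm {m : ℕ} {f g : (Fin m → J) → ℂ} (h : Eqv f g) : Eqv g f := fun x => (h x).symm

theorem Eqv.trans {m : ℕ} {f g k : (Fin m → J) → ℂ} (h : Eqv f g) (h' : Eqv g k) : Eqv f k :=
  fun x => (h x).trans (h' x)

theorem Eqv.smul {m : ℕ} {f g : (Fin m → J) → ℂ} (h : Eqv f g) (c : ℂ) :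
    Eqv (fun x => c * f x) fun x => c * g x := fun x => by
  rw [alt_smul, alt_smul, h x]

theorem Eqv.add {m : ℕ} {f g f' g' : (Fin m → J) → ℂ} (h : Eqv f g) (h' : Eqv f' g') :
    Eqv (fun x => f x + f' x) fun x => g x + g' x := fun x => by
  rw [alt_add, alt_add, h x, h' x]

theorem Eqv.sum {m : ℕ} {ι : Type*} (s : Finset ι) {f g : ι → (Fin m → J) → ℂ}
    (h : ∀ i ∈ s, Eqv (f i) (g i)) :
    Eqv (fun x => ∑ i ∈ s, f i x) fun x => ∑ i ∈ s, g i x := fun x => by
  rw [alt_sum, alt_sum]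
  exact Finset.sum_congr rfl fun i hi => h i hi x

theorem Eqv.perm {m : ℕ} (τ : Perm (Fin m)) (f : (Fin m → J) → ℂ) :
    Eqv (fun x => f (x ∘ τ)) fun x => sgn τ * f x := fun x => by
  rw [alt_perm, alt_smul]

theorem Eqv.cons {m : ℕ} {f g : J → (Fin m → J) → ℂ} (h : ∀ j, Eqv (f j) (g j)) :
    Eqv (fun x : Fin (m + 1) → J => f (x 0) (tl1 x)) fun x => g (x 0) (tl1 x) := fun x => by
  have h1 := alt_cons_eq_zero (fun j y => f j y + (-1) * g j y) (fun j y => by
    rw [alt_add, alt_smul, h j y]; ring) x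
  have h2 := alt_add (fun x : Fin (m + 1) → J => f (x 0) (tl1 x))
    (fun x => (-1) * g (x 0) (tl1 x)) x
  rw [alt_smul] at h2
  rw [h2] at h1
  linear_combination h1

/-- the tail of a word, two letters removed -/
def tl2 {m : ℕ} (x : Fin (m + 2) → J) : Fin m → J := tl1 (tl1 x)

theorem tl2_apply {m : ℕ} (x : Fin (m + 2) → J) (i : Fin m) : tl2 x i = x i.succ.succ := rfl

/-- prefixing a pair -/
def pre (P : J → J → ℂ) {m : ℕ} (f : (Fin m → J) → ℂ) (x : Fin (m + 2) → J) : ℂ :=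
  P (x 0) (x 1) * f (tl2 x)

theorem Eqv.pre (P : J → J → ℂ) {m : ℕ} {f g : (Fin m → J) → ℂ} (h : Eqv f g) :
    Eqv (pre P f) (H338.pre P g) := by
  have h1 := Eqv.cons (J := J) (m := m + 1) (f := fun a y => P a (y 0) * f (tl1 y))
    (g := fun a y => P a (y 0) * g (tl1 y)) fun a =>
      Eqv.cons (J := J) (m := m) (f := fun b y => P a b * f y) (g := fun b y => P a b * g y)
        fun b => h.smul (P a b)
  exact h1

theorem pre_add_left (P Q : J → J → ℂ) {m : ℕ} (f : (Fin m → J) → ℂ) :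
    pre (fun a b => P a b + Q a b) f = fun x => pre P f x + pre Q f x := by
  funext x
  simp only [pre, add_mul]

theorem pre_smul_left (c : ℂ) (P : J → J → ℂ) {m : ℕ} (f : (Fin m → J) → ℂ) :
    pre (fun a b => c * P a b) f = fun x => c * pre P f x := by
  funext x
  simp only [pre, mul_assoc]

/-- The symmetric part of a prefixed pair does not matter. -/
theorem pre_symm_eqv (P : J → J → ℂ) (hP : ∀ a b, P a b = P b a) {m : ℕ}
    (f : (Fin m → J) → ℂ) : Eqv (pre P f) fun _ => 0 := by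
  intro x
  have h1 := Eqv.perm (Equiv.swap (0 : Fin (m + 2)) 1) (pre P f) x
  have h2 : (fun x : Fin (m + 2) → J => pre P f (x ∘ Equiv.swap (0 : Fin (m + 2)) 1)) =
      pre P f := by
    funext x
    have e0 : tl2 (x ∘ Equiv.swap (0 : Fin (m + 2)) 1) = tl2 x := by
      funext i
      rw [tl2_apply, tl2_apply, Function.comp_apply, Equiv.swap_apply_of_ne_of_ne]
      · exact Fin.succ_ne_zero _
      · intro h
        have := congrArg Fin.val h
        simp at this
    rw [pre, pre, e0]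
    simp only [Function.comp_apply, Equiv.swap_apply_left, Equiv.swap_apply_right]
    rw [hP]
  rw [h2] at h1
  have h3 : sgn (Equiv.swap (0 : Fin (m + 2)) 1) = -1 := by
    rw [sgn, Perm.sign_swap (by simp)]; simp
  rw [h3, alt_smul] at h1
  have h4 : alt (fun _ : Fin (m + 2) → J => (0 : ℂ)) x = 0 := by simp [alt]
  rw [h4]
  linear_combination (1 / 2 : ℂ) * h1

/-- Prefixed pairs commute. -/
theorem pre_pre_eqv (P Q : J → J → ℂ) {m : ℕ} (f : (Fin m → J) → ℂ) :
    Eqv (pre P (pre Q f)) (pre Q (pre P f)) := by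
  intro x
  let a0 : Fin (m + 2 + 2) := ⟨0, by omega⟩
  let a1 : Fin (m + 2 + 2) := ⟨1, by omega⟩
  let a2 : Fin (m + 2 + 2) := ⟨2, by omega⟩
  let a3 : Fin (m + 2 + 2) := ⟨3, by omega⟩
  have n01 : a0 ≠ a1 := fun h => by simpa [a0, a1] using congrArg Fin.val h
  have n02 : a0 ≠ a2 := fun h => by simpa [a0, a2] using congrArg Fin.val h
  have n03 : a0 ≠ a3 := fun h => by simpa [a0, a3] using congrArg Fin.val h
  have n12 : a1 ≠ a2 := fun h => by simpa [a1, a2] using congrArg Fin.val h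
  have n13 : a1 ≠ a3 := fun h => by simpa [a1, a3] using congrArg Fin.val h
  have n23 : a2 ≠ a3 := fun h => by simpa [a2, a3] using congrArg Fin.val h
  let τ : Perm (Fin (m + 2 + 2)) := Equiv.swap a0 a2 * Equiv.swap a1 a3
  have t0 : τ a0 = a2 := by
    show Equiv.swap a0 a2 (Equiv.swap a1 a3 a0) = a2
    rw [Equiv.swap_apply_of_ne_of_ne n01 n03, Equiv.swap_apply_left]
  have t1 : τ a1 = a3 := by
    show Equiv.swap a0 a2 (Equiv.swap a1 a3 a1) = a3
    rw [Equiv.swap_apply_left, Equiv.swap_apply_of_ne_of_ne n03.symm n23.symm]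
  have t2 : τ a2 = a0 := by
    show Equiv.swap a0 a2 (Equiv.swap a1 a3 a2) = a0
    rw [Equiv.swap_apply_of_ne_of_ne n12.symm n23, Equiv.swap_apply_right]
  have t3 : τ a3 = a1 := by
    show Equiv.swap a0 a2 (Equiv.swap a1 a3 a3) = a1
    rw [Equiv.swap_apply_right, Equiv.swap_apply_of_ne_of_ne n01.symm n12]
  have t4 : ∀ i : Fin m, τ i.succ.succ.succ.succ = i.succ.succ.succ.succ := by
    intro i
    have hv : (i.succ.succ.succ.succ : Fin (m + 2 + 2)).val = i.val + 4 := rfl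
    have k0 : (i.succ.succ.succ.succ : Fin (m + 2 + 2)) ≠ a0 := fun h => by
      have := congrArg Fin.val h; rw [hv] at this; simp [a0] at this
    have k1 : (i.succ.succ.succ.succ : Fin (m + 2 + 2)) ≠ a1 := fun h => by
      have := congrArg Fin.val h; rw [hv] at this; simp [a1] at this
    have k2 : (i.succ.succ.succ.succ : Fin (m + 2 + 2)) ≠ a2 := fun h => by
      have := congrArg Fin.val h; rw [hv] at this; simp [a2] at this
    have k3 : (i.succ.succ.succ.succ : Fin (m + 2 + 2)) ≠ a3 := fun h => by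
      have := congrArg Fin.val h; rw [hv] at this; simp [a3] at this
    rw [Perm.mul_apply, Equiv.swap_apply_of_ne_of_ne k1 k3, Equiv.swap_apply_of_ne_of_ne k0 k2]
  have hs : sgn τ = 1 := by
    rw [sgn_mul, sgn, sgn, Perm.sign_swap n02, Perm.sign_swap n13]
    simp
  have h1 := Eqv.perm τ (pre Q (pre P f)) x
  rw [hs] at h1
  simp only [one_mul] at h1
  rw [← h1]
  congr 1
  funext y
  have e4 : tl2 (tl2 (y ∘ τ)) = tl2 (tl2 y) := by
    funext i
    simp only [tl2_apply, Function.comp_apply]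
    rw [t4]
  have q0 : tl2 (y ∘ τ) 0 = y a0 := congrArg y t2
  have q1 : tl2 (y ∘ τ) 1 = y a1 := congrArg y t3
  have q2 : (y ∘ τ) 0 = y a2 := congrArg y t0
  have q3 : (y ∘ τ) 1 = y a3 := congrArg y t1
  have r0 : tl2 y 0 = y a2 := rfl
  have r1 : tl2 y 1 = y a3 := rfl
  have r2 : y 0 = y a0 := rfl
  have r3 : y 1 = y a1 := rfl
  simp only [pre]
  rw [e4, q0, q1, q2, q3, r0, r1, r2, r3]
  ring

end alt

end Vale.Agent.P182.H338
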