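import Vale.Agent.P182.H338.Conc
import Vale.Agent.P182.H163.Assembly
import Vale.Agent.P182.H163.Double

/-!
# Saturation for two half-integral weights from the core statement
-/

namespace Vale.Agent.P182.H338

open scoped InnerProductSpace ComplexConjugate TensorProduct
open LieAlgebra.Orthogonal

attribute [local instance 100] LieRing.ofAssociativeRing

variable {n : ℕ}

/-- The isotropic inequalities at the generic point, from invariants of multiples. -/
theorem theta_of_invariants (hn : 2 ≤ n) (C : Type) {mu : Fin 3 → Fin n → ℤ}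
    (hl : ∀ s, DomZ (mu s)) {N : ℕ} (hN : 0 < N)
    {W₀ W₁ W₂ : Type*} [AddCommGroup W₀] [Module ℂ W₀]
    [LieRingModule (so n) W₀] [LieModule ℂ (so n) W₀] [AddCommGroup W₁] [Module ℂ W₁]
    [LieRingModule (so n) W₁] [LieModule ℂ (so n) W₁] [AddCommGroup W₂] [Module ℂ W₂]
    [LieRingModule (so n) W₂] [LieModule ℂ (so n) W₂]
    [LieModule.IsIrreducible ℂ (so n) W₀] [LieModule.IsIrreducible ℂ (so n) W₁]
    [LieModule.IsIrreducible ℂ (so n) W₂]
    (w₀ : HasHighestWeight (fun i => ((N : ℤ) * mu 0 i : ℤ)) W₀)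
    (w₁ : HasHighestWeight (fun i => ((N : ℤ) * mu 1 i : ℤ)) W₁)
    (w₂ : HasHighestWeight (fun i => ((N : ℤ) * mu 2 i : ℤ)) W₂)
    (h : HasInvariants (n := n) W₀ W₁ W₂) :
    ∃ l : List (so n), (∀ x ∈ l, x ∈ rootSet n) ∧
      ∀ S : Submodule (GF C) (Fin n ⊕ Fin n → GF C),
        (∀ u ∈ S, ∀ v ∈ S, qf u v = 0) → theta mu (gF C (gword l)) S ≤ 0 := by
  have hlN : ∀ s, DomZ (fun i => (N : ℤ) * mu s i) := by
    intro s i j hij
    have := hl s i j hij
    rw [abs_mul, abs_of_nonneg (by positivity : (0 : ℤ) ≤ N)]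
    exact mul_le_mul_of_nonneg_left this (by positivity)
  rw [hasInvariants_iff_form hn (lam := fun s i => (N : ℤ) * mu s i) hlN w₀ w₁ w₂] at h
  obtain ⟨f, hf, g', hg', hne⟩ := h
  obtain ⟨l, hlr, ev, hev⟩ := exists_gword C hg'
  have hne' : ∑ β, algebraMap ℂ (GF C) (f β) *
      asymT (fun s i => (N : ℤ) * mu s i) (gF C (gword l)) β ≠ 0 := by
    have h1 : ∑ β, algebraMap ℂ (GF C) (f β) *
        asymT (fun s i => (N : ℤ) * mu s i) (gF C (gword l)) β =
        toGF C (∑ β, algebraMap ℂ (GR C) (f β) *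
          asymT (fun s i => (N : ℤ) * mu s i) (genG C (gword l)) β) := by
      rw [map_sum]
      refine Finset.sum_congr rfl fun β _ => ?_
      rw [map_mul, AlgHom.commutes]
      congr 1
      exact (asymT_map (toGF C).toRingHom _ _ β).symm
    have h2 : ev (∑ β, algebraMap ℂ (GR C) (f β) *
          asymT (fun s i => (N : ℤ) * mu s i) (genG C (gword l)) β) =
        ∑ β, f β * asymT (fun s i => (N : ℤ) * mu s i) g' β := by
      rw [map_sum]
      refine Finset.sum_congr rfl fun β _ => ?_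
      rw [map_mul, AlgHom.commutes]
      congr 1
      refine (asymT_map ev.toRingHom _ _ β).trans ?_
      congr 1
      funext s
      exact hev s
    rw [h1]
    intro h0
    have h3 := toGF_injective (h0.trans (map_zero _).symm)
    rw [h3, map_zero] at h2
    exact hne h2.symm
  refine ⟨l, hlr, fun S hS => ?_⟩
  have h1 := theta_nonpos hf hne' hS
  rw [theta_smul hN] at h1
  have hN' : (0 : ℤ) < N := by exact_mod_cast hN
  by_contra h2
  push Not at h2
  have := mul_pos hN' h2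
  omega

section special

variable {lam : Fin 3 → Fin n → ℤ} (h0 : ∀ i, lam 0 i ≠ 0) (h1 : ∀ i, lam 1 i ≠ 0) (hn : 0 < n)

open Classical in
/-- replacement of the second full column by the first, against the third arm -/
noncomputable def rC (k l : ColT lam) : ColT lam := if l = C1 h1 hn ∧ k.1 = 2 then C0 h0 hn else l

/-- The special skew matrix: the two full columns have the same entries against the columns of the
third arm. -/
noncomputable def spΩ (l l' : ColT lam) : GR (ColT lam) :=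
  genΩ (rC h0 h1 hn l' l) (rC h0 h1 hn l l')

theorem spΩ_skew (l l' : ColT lam) : spΩ h0 h1 hn l l' = - spΩ h0 h1 hn l' l := genΩ_skew _ _

theorem rC_of_ne {k l : ColT lam} (h : l ≠ C1 h1 hn) : rC h0 h1 hn k l = l :=
  if_neg fun h' => h h'.1

theorem C0_ne_C1 : C0 h0 hn ≠ C1 h1 hn := by
  intro h
  have : (0 : Fin 3) = 1 := congrArg (fun l : ColT lam => l.1) h
  exact absurd this (by decide)

theorem spΩ_sp (l : ColT lam) (hl : l.1 = 2) :
    spΩ h0 h1 hn (C0 h0 hn) l = spΩ h0 h1 hn (C1 h1 hn) l := by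
  have hl1 : l ≠ C1 h1 hn := by
    rintro rfl
    have : (1 : Fin 3) = 2 := hl
    exact absurd this (by decide)
  rw [spΩ, spΩ, rC_of_ne h0 h1 hn hl1, rC_of_ne h0 h1 hn hl1, rC_of_ne h0 h1 hn (C0_ne_C1 h0 h1 hn),
    rC, if_pos ⟨rfl, hl⟩]

theorem spΩ_ne : spΩ h0 h1 hn (C0 h0 hn) (C1 h1 hn) ≠ 0 := by
  rw [spΩ, rC_of_ne h0 h1 hn (C0_ne_C1 h0 h1 hn), rC, if_neg, genΩ]
  · intro h
    have h2 := congrArg (MvPolynomial.aeval (fun p : (Fin 3 × ℕ) ⊕ (ColT lam × ColT lam) =>
      (if p = Sum.inr (C0 h0 hn, C1 h1 hn) then (1 : ℂ) else 0))) h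
    rw [map_sub, MvPolynomial.aeval_X, MvPolynomial.aeval_X, if_pos rfl, if_neg, map_zero] at h2
    · norm_num at h2
    · intro e
      have e1 := Sum.inr.inj e
      exact C0_ne_C1 h0 h1 hn (congrArg Prod.fst e1).symm
  · rintro ⟨-, h2⟩
    exact absurd h2 (by decide : ¬ ((0 : Fin 3) = 2))

/-- over the field of fractions -/
noncomputable def spF (l l' : ColT lam) : GF (ColT lam) := toGF (ColT lam) (spΩ h0 h1 hn l l')

end special

theorem adjugate_map {K A A' : Type*} [Fintype K] [DecidableEq K] [CommRing A] [CommRing A']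
    (φ : A →+* A') (M : Matrix K K A) : (M.map φ).adjugate = M.adjugate.map φ := by
  have := RingHom.map_adjugate φ M
  rw [RingHom.mapMatrix_apply, RingHom.mapMatrix_apply] at this
  exact this.symm

/-- Invariants from the nonvanishing of the adjugate at the generic point. -/
theorem spin_of_adj (hn : 2 ≤ n) {lam : Fin 3 → Fin n → ℤ} (hl : ∀ s, DomZ (lam s))
    (h0 : ∀ i, lam 0 i ≠ 0) (h1 : ∀ i, lam 1 i ≠ 0)
    (hroot : InRootLattice fun i => hw (lam 0) i + hw (lam 1) i + lam 2 i)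
    {l : List (so n)} (hlr : ∀ x ∈ l, x ∈ rootSet n)
    (hadj : (gramT lam (gF (ColT lam) (gword l)) (spF h0 h1 (by omega))).adjugate ≠ 0)
    {V₀ V₁ V₂ : Type*} [AddCommGroup V₀] [Module ℂ V₀]
    [LieRingModule (so n) V₀] [LieModule ℂ (so n) V₀] [AddCommGroup V₁] [Module ℂ V₁]
    [LieRingModule (so n) V₁] [LieModule ℂ (so n) V₁] [AddCommGroup V₂] [Module ℂ V₂]
    [LieRingModule (so n) V₂] [LieModule ℂ (so n) V₂]
    [LieModule.IsIrreducible ℂ (so n) V₀] [LieModule.IsIrreducible ℂ (so n) V₁]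
    [LieModule.IsIrreducible ℂ (so n) V₂]
    (w₀ : HasHighestWeight (hw (lam 0)) V₀) (w₁ : HasHighestWeight (hw (lam 1)) V₁)
    (w₂ : HasHighestWeight (fun i => (lam 2 i : ℚ)) V₂) :
    HasInvariants (n := n) V₀ V₁ V₂ := by
  have hn0 : 0 < n := by omega
  set M := gramT lam (genG (ColT lam) (gword l)) (spΩ h0 h1 hn0) with hM
  have hmap : gramT lam (gF (ColT lam) (gword l)) (spF h0 h1 hn0) =
      M.map (toGF (ColT lam)).toRingHom := (gramT_map _ _ _ _).symm
  have hadj' : M.adjugate ≠ 0 := by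
    intro h
    apply hadj
    rw [hmap, adjugate_map, h]
    ext i j
    simp
  obtain ⟨i, j, hij⟩ : ∃ i j, M.adjugate i j ≠ 0 := by
    by_contra hcon
    push Not at hcon
    exact hadj' (Matrix.ext fun i j => hcon i j)
  obtain ⟨ev, hev⟩ := exists_ev (mul_ne_zero hij (spΩ_ne h0 h1 hn0))
  rw [map_mul] at hev
  have hev1 := left_ne_zero_of_mul hev
  have hev2 := right_ne_zero_of_mul hev
  refine spin_bridge hn hl h0 h1 hroot w₀ w₁ w₂ (fun s => (genG (ColT lam) (gword l) s).map ev)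
    (fun s => genG_ev (gword_root hlr) ev s) (fun c c' => ev (spΩ h0 h1 hn0 c c')) ?_ ?_ hev2 ?_
  · intro c c'
    rw [spΩ_skew, map_neg]
  · intro c hc
    exact congrArg ev (spΩ_sp h0 h1 hn0 c hc)
  · have h2 : gramT lam (fun s => (genG (ColT lam) (gword l) s).map ev)
        (fun c c' => ev (spΩ h0 h1 hn0 c c')) = M.map ev.toRingHom :=
      (gramT_map ev.toRingHom _ _ _).symm
    rw [h2, adjugate_map]
    intro h
    apply hev1
    have := congrFun (congrFun h i) j
    simpa using this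

/-- twice the weights -/
def dbl (lam : Fin 3 → Fin n → ℤ) (s : Fin 3) (i : Fin n) : ℤ :=
  if s = 2 then 2 * lam s i else if 0 < lam s i then 2 * lam s i - 1 else 2 * lam s i + 1

/-- the three weights -/
def hw3 (lam : Fin 3 → Fin n → ℤ) (s : Fin 3) (i : Fin n) : ℚ :=
  if s = 2 then (lam s i : ℚ) else hw (lam s) i

theorem dbl_eq (lam : Fin 3 → Fin n → ℤ) (s : Fin 3) (i : Fin n) :
    (dbl lam s i : ℚ) = 2 * hw3 lam s i := by
  rw [dbl, hw3, hw]
  split_ifs <;> push_cast <;> ring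

theorem domZ_dbl {lam : Fin 3 → Fin n → ℤ} (hl : ∀ s, DomZ (lam s))
    (h0 : ∀ i, lam 0 i ≠ 0) (h1 : ∀ i, lam 1 i ≠ 0) (s : Fin 3) : DomZ (dbl lam s) := by
  intro i j hij
  have h2 := hl s i j hij
  by_cases hs : s = 2
  · rw [dbl, dbl, if_pos hs, if_pos hs, abs_mul, abs_of_pos (by norm_num : (0 : ℤ) < 2)]
    omega
  · have hs0 : ∀ i, lam s i ≠ 0 := by
      have h3 : ∀ s : Fin 3, ¬ s = 2 → s = 0 ∨ s = 1 := by decide
      rcases h3 s hs with rfl | rfl
      · exact h0
      · exact h1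
    have h3 := pos_of_lt (hl s) hs0 hij
    rw [dbl, dbl, if_neg hs, if_neg hs, if_pos h3]
    rcases lt_or_gt_of_ne (hs0 j) with h4 | h4
    · rw [if_neg (by omega), abs_of_nonpos (by omega)]
      rw [abs_of_neg h4] at h2
      omega
    · rw [if_pos h4, abs_of_nonneg (by omega)]
      rw [abs_of_pos h4] at h2
      omega

/-- The core statement for two half-integral weights. -/
def CoreSpin (n : ℕ) : Prop := ∀ (lam : Fin 3 → Fin n → ℤ) (_ : ∀ s, DomZ (lam s))
  (h0 : ∀ i, lam 0 i ≠ 0) (h1 : ∀ i, lam 1 i ≠ 0) (hn : 0 < n)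
  (_ : InRootLattice fun i => hw (lam 0) i + hw (lam 1) i + lam 2 i)
  (l : List (so n)) (_ : ∀ x ∈ l, x ∈ rootSet n)
  (_ : ∀ S : Submodule (GF (ColT lam)) (Fin n ⊕ Fin n → GF (ColT lam)),
    (∀ u ∈ S, ∀ v ∈ S, qf u v = 0) → theta (dbl lam) (gF (ColT lam) (gword l)) S ≤ 0),
  (gramT lam (gF (ColT lam) (gword l)) (spF h0 h1 hn)).adjugate ≠ 0

theorem exists_irred {lam : Fin n → ℚ} (hl : IsDominant lam) :
    ∃ (V : Type) (_ : AddCommGroup V) (_ : Module ℂ V) (_ : LieRingModule (so n) V)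
      (_ : LieModule ℂ (so n) V), LieModule.IsIrreducible ℂ (so n) V ∧ HasHighestWeight lam V := by
  obtain ⟨E, i₀, j₀, k₀, l₀, m₀, u₀, n₀, a₀, z₀, H₀⟩ := exists_model hl
  refine ⟨cyc (triD n) H₀, inferInstance, inferInstance, inferInstance, inferInstance,
    cyc_irred u₀ tau_tau (triD n) H₀ z₀, ⟨a₀, self_mem_cyc (triD n) H₀⟩, ?_, ?_⟩
  · intro h
    exact z₀ (congrArg Subtype.val h)
  · have h1 := (isHW_iff lam a₀).mp H₀
    refine ⟨fun a => ?_, fun x hx => ?_⟩
    · apply Subtype.ext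
      exact h1.1 a
    · apply Subtype.ext
      exact h1.2 x hx

theorem isDominant_hw3 {lam : Fin 3 → Fin n → ℤ} (hl : ∀ s, DomZ (lam s))
    (h0 : ∀ i, lam 0 i ≠ 0) (h1 : ∀ i, lam 1 i ≠ 0) (N : ℕ) (s : Fin 3) :
    IsDominant fun i => (N : ℚ) * hw3 lam s i := by
  have hd := domZ_dbl hl h0 h1 s
  constructor
  · by_cases hN : Even N
    · left
      obtain ⟨r, hr⟩ := hN
      intro i
      refine ⟨r * dbl lam s i, ?_⟩
      push_cast
      rw [dbl_eq, hr]
      push_cast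
      ring
    · by_cases hs : s = 2
      · left
        intro i
        refine ⟨N * lam s i, ?_⟩
        simp only [hw3, if_pos hs]
        push_cast
        ring
      · right
        rw [Nat.not_even_iff_odd] at hN
        obtain ⟨r, hr⟩ := hN
        intro i
        simp only [hw3, if_neg hs, hw]
        split_ifs with h2
        · refine ⟨N * lam s i - r - 1, ?_⟩
          rw [hr]
          push_cast
          ring
        · refine ⟨N * lam s i + r, ?_⟩
          rw [hr]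
          push_cast
          ring
  · intro i j hij
    have h2 := hd i j hij
    have h3 : |(dbl lam s j : ℚ)| ≤ (dbl lam s i : ℚ) := by exact_mod_cast h2
    rw [dbl_eq, dbl_eq, abs_mul, abs_of_pos (by norm_num : (0 : ℚ) < 2)] at h3
    rw [abs_mul, abs_of_nonneg (by positivity : (0 : ℚ) ≤ N)]
    exact mul_le_mul_of_nonneg_left (by linarith) (by positivity)

/-- **Saturation for two half-integral weights, from the core statement.** -/
theorem saturation_spin (hn : 2 ≤ n) (core : CoreSpin n) {lam : Fin 3 → Fin n → ℤ}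
    (hl : ∀ s, DomZ (lam s)) (h0 : ∀ i, lam 0 i ≠ 0) (h1 : ∀ i, lam 1 i ≠ 0)
    (hroot : InRootLattice fun i => hw (lam 0) i + hw (lam 1) i + lam 2 i)
    {N : ℕ} (hN : 0 < N)
    {V₀ V₁ V₂ W₀ W₁ W₂ : Type*} [AddCommGroup V₀] [Module ℂ V₀]
    [LieRingModule (so n) V₀] [LieModule ℂ (so n) V₀] [AddCommGroup V₁] [Module ℂ V₁]
    [LieRingModule (so n) V₁] [LieModule ℂ (so n) V₁] [AddCommGroup V₂] [Module ℂ V₂]
    [LieRingModule (so n) V₂] [LieModule ℂ (so n) V₂] [AddCommGroup W₀] [Module ℂ W₀]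
    [LieRingModule (so n) W₀] [LieModule ℂ (so n) W₀] [AddCommGroup W₁] [Module ℂ W₁]
    [LieRingModule (so n) W₁] [LieModule ℂ (so n) W₁] [AddCommGroup W₂] [Module ℂ W₂]
    [LieRingModule (so n) W₂] [LieModule ℂ (so n) W₂]
    [LieModule.IsIrreducible ℂ (so n) V₀] [LieModule.IsIrreducible ℂ (so n) V₁]
    [LieModule.IsIrreducible ℂ (so n) V₂] [LieModule.IsIrreducible ℂ (so n) W₀]
    [LieModule.IsIrreducible ℂ (so n) W₁] [LieModule.IsIrreducible ℂ (so n) W₂]
    (v₀ : HasHighestWeight (hw3 lam 0) V₀) (v₁ : HasHighestWeight (hw3 lam 1) V₁)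
    (v₂ : HasHighestWeight (hw3 lam 2) V₂)
    (w₀ : HasHighestWeight (fun i => (N : ℚ) * hw3 lam 0 i) W₀)
    (w₁ : HasHighestWeight (fun i => (N : ℚ) * hw3 lam 1 i) W₁)
    (w₂ : HasHighestWeight (fun i => (N : ℚ) * hw3 lam 2 i) W₂)
    (h : HasInvariants (n := n) W₀ W₁ W₂) : HasInvariants (n := n) V₀ V₁ V₂ := by
  have hdom := isDominant_hw3 hl h0 h1 N
  have hdom2 : ∀ s, IsDominant fun i => 2 * ((N : ℚ) * hw3 lam s i) := by
    intro s
    have h2 := isDominant_hw3 hl h0 h1 (2 * N) s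
    convert h2 using 2 with i
    push_cast
    ring
  obtain ⟨U₀, _, _, _, _, u₀i, u₀⟩ := exists_irred (hdom2 0)
  obtain ⟨U₁, _, _, _, _, u₁i, u₁⟩ := exists_irred (hdom2 1)
  obtain ⟨U₂, _, _, _, _, u₂i, u₂⟩ := exists_irred (hdom2 2)
  have hU : HasInvariants (n := n) U₀ U₁ U₂ :=
    hasInvariants_double hn hdom w₀ w₁ w₂ u₀ u₁ u₂ h
  have key : ∀ s, (fun i => 2 * ((N : ℚ) * hw3 lam s i)) =
      fun i => (((N : ℤ) * dbl lam s i : ℤ) : ℚ) := by
    intro s
    funext i
    push_cast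
    rw [dbl_eq]
    ring
  rw [key] at u₀ u₁ u₂
  obtain ⟨l, hlr, hθ⟩ := theta_of_invariants hn (ColT lam) (domZ_dbl hl h0 h1) hN u₀ u₁ u₂ hU
  exact spin_of_adj hn hl h0 h1 hroot hlr (core lam hl h0 h1 (by omega) hroot l hlr hθ) v₀ v₁ v₂

end Vale.Agent.P182.H338
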