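import Vale.Agent.P182.H338.Bridge

/-!
# Comparison of the spin Gram matrix and the Gram matrix with two full columns added
-/

namespace Vale.Agent.P182.H338

open LieAlgebra.Orthogonal

variable {n : ℕ}

theorem qf_add_right (u v w : Vec n) : qf u (v + w) = qf u v + qf u w := (qfL n u).map_add v w

theorem qf_add_left (u v w : Vec n) : qf (u + v) w = qf u w + qf v w := by
  rw [qf_symm, qf_add_right, qf_symm w u, qf_symm w v]

theorem qf_smul_right (c : ℂ) (u v : Vec n) : qf u (c • v) = c * qf u v := (qfL n u).map_smul c v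

theorem qf_smul_left (c : ℂ) (u v : Vec n) : qf (c • u) v = c * qf u v := by
  rw [qf_symm, qf_smul_right, qf_symm]

theorem qf_sub_right (u v w : Vec n) : qf u (v - w) = qf u v - qf u w := (qfL n u).map_sub v w

theorem qf_sub_left (u v w : Vec n) : qf (u - v) w = qf u w - qf v w := by
  rw [qf_symm, qf_sub_right, qf_symm w u, qf_symm w v]

theorem qf_neg_right (u v : Vec n) : qf u (-v) = - qf u v := (qfL n u).map_neg v

theorem qf_zero_right (u : Vec n) : qf u 0 = 0 := (qfL n u).map_zero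

theorem qf_zero_left (u : Vec n) : qf 0 u = 0 := by rw [qf_symm, qf_zero_right]

theorem qf_sum_right {ι : Type*} (s : Finset ι) (u : Vec n) (c : ι → ℂ) (v : ι → Vec n) :
    qf u (∑ i ∈ s, c i • v i) = ∑ i ∈ s, c i * qf u (v i) := by
  have := map_sum (qfL n u) (fun i => c i • v i) s
  rw [qfL_apply] at this
  rw [this]
  exact Finset.sum_congr rfl fun i _ => by rw [map_smul, smul_eq_mul, qfL_apply]

theorem qf_span {ι : Type*} (a b : ι → Vec n) (h : ∀ i j, qf (a i) (b j) = 0) {x y : Vec n}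
    (hx : x ∈ Submodule.span ℂ (Set.range a)) (hy : y ∈ Submodule.span ℂ (Set.range b)) :
    qf x y = 0 := by
  induction hx using Submodule.span_induction with
  | mem x hx =>
    obtain ⟨i, rfl⟩ := hx
    induction hy using Submodule.span_induction with
    | mem y hy => obtain ⟨j, rfl⟩ := hy; exact h i j
    | zero => exact qf_zero_right _
    | add y z _ _ hy hz => rw [qf_add_right, hy, hz, add_zero]
    | smul c y _ hy => rw [qf_smul_right, hy, mul_zero]
  | zero => exact qf_zero_left _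
  | add x z _ _ hx hz => rw [qf_add_left, hx, hz, add_zero]
  | smul c x _ hx => rw [qf_smul_left, hx, mul_zero]

/-- The data of the comparison. -/
structure Big (n : ℕ) (J J' : Type*) where
  v : J → Vec n
  v' : J' → Vec n
  e : J → J'
  a0 : Fin n → J'
  a1 : Fin n → J'
  bij : Function.Bijective (Sum.elim e (Sum.elim a0 a1))
  hv : ∀ j, v' (e j) = v j
  arm : J → Fin 3
  Om : J' → J' → ℂ
  p : J → ℂ
  q : J → ℂ
  o : ℂ
  ho : o ≠ 0
  skew : ∀ k k', Om k k' = - Om k' k
  hp : ∀ i j, Om (a0 i) (e j) = p j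
  hq : ∀ i j, Om (a1 i) (e j) = q j
  h01 : ∀ i i', Om (a0 i) (a1 i') = o
  hpq : ∀ j, arm j = 2 → p j = q j
  iso0 : ∀ i i', qf (v' (a0 i)) (v' (a0 i')) = 0
  iso1 : ∀ i i', qf (v' (a1 i)) (v' (a1 i')) = 0
  arm0 : ∀ j, arm j = 0 → v j ∈ Submodule.span ℂ (Set.range fun i => v' (a0 i))
  arm1 : ∀ j, arm j = 1 → v j ∈ Submodule.span ℂ (Set.range fun i => v' (a1 i))

namespace Big

variable {J J' : Type*} [Fintype J] (D : Big n J J')

/-- first maximal isotropic space -/
def L0 : Submodule ℂ (Vec n) := Submodule.span ℂ (Set.range fun i => D.v' (D.a0 i))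

/-- second maximal isotropic space -/
def L1 : Submodule ℂ (Vec n) := Submodule.span ℂ (Set.range fun i => D.v' (D.a1 i))

/-- coefficients -/
noncomputable def al (j : J) : ℂ := if D.arm j = 1 then 0 else D.q j
/-- coefficients -/
noncomputable def be (j : J) : ℂ := if D.arm j = 0 then 0 else D.p j
/-- coefficients -/
noncomputable def om (j : J) : ℂ := if D.arm j = 2 then D.p j else 0

/-- The big Gram matrix. -/
noncomputable def G (k k' : J') : ℂ := D.Om k k' * qf (D.v' k) (D.v' k')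

/-- The spin Gram matrix. -/
noncomputable def M (κ : ℂ) (P : Vec n → Vec n) (j j' : J) : ℂ :=
  (D.Om (D.e j) (D.e j') + D.o⁻¹ * (D.al j * D.be j' - D.be j * D.al j')) * qf (D.v j) (D.v j') +
    κ * D.om j * (κ * D.om j') * skP P (D.v j) (D.v j')

omit [Fintype J] in
theorem cover (k : J') : (∃ j, k = D.e j) ∨ (∃ i, k = D.a0 i) ∨ ∃ i, k = D.a1 i := by
  obtain ⟨s, hs⟩ := D.bij.2 k
  rcases s with j | i | i
  · exact Or.inl ⟨j, hs.symm⟩
  · exact Or.inr (Or.inl ⟨i, hs.symm⟩)
  · exact Or.inr (Or.inr ⟨i, hs.symm⟩)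

omit [Fintype J] in
theorem q00 {x y : Vec n} (hx : x ∈ D.L0) (hy : y ∈ D.L0) : qf x y = 0 := qf_span _ _ D.iso0 hx hy

omit [Fintype J] in
theorem q11 {x y : Vec n} (hx : x ∈ D.L1) (hy : y ∈ D.L1) : qf x y = 0 := qf_span _ _ D.iso1 hx hy

/-- **Lifting kernel vectors.** -/
theorem kernel_lift (P : Vec n →ₗ[ℂ] Vec n) (u w : Vec n) (hu0 : u ∈ D.L0) (hu1 : u ∈ D.L1)
    (hP0 : ∀ x, x - P x ∈ D.L0) (hP1 : ∀ x, ∃ z ∈ D.L1, qf z w = 0 ∧ P x = z + qf u x • w)
    (κ : ℂ) (hκ : κ * κ * D.o = -2) (ξ : J → ℂ) (η : ℂ)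
    (hnone : ∑ j, κ * D.om j * qf u (D.v j) * ξ j = 0)
    (hrow : ∀ j, -(κ * D.om j * qf u (D.v j)) * η + ∑ j', D.M κ P j j' * ξ j' = 0) :
    ∃ (x₀ y₀ : Vec n), (ξ = 0 → x₀ = 0 ∧ y₀ = 0) ∧ ∀ c0 c1 : ℂ, c0 + c1 = κ * η →
      ∃ (α β : Fin n → ℂ), ∑ i, α i • D.v' (D.a0 i) = x₀ + c0 • u ∧
      ∑ i, β i • D.v' (D.a1 i) = y₀ + c1 • u ∧
      ∀ k, ∑ j, D.G k (D.e j) * ξ j + ∑ i, D.G k (D.a0 i) * α i + ∑ i, D.G k (D.a1 i) * β i = 0 := by
  have hκ0 : κ ≠ 0 := by
    rintro rfl
    rw [zero_mul, zero_mul] at hκ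
    norm_num at hκ
  have ho := D.ho
  set T : Vec n := ∑ j, (D.om j * ξ j) • D.v j with hT
  set A : Vec n := ∑ j, ((if D.arm j = 0 then D.q j else 0) * ξ j) • D.v j with hA
  set B : Vec n := ∑ j, ((if D.arm j = 1 then D.p j else 0) * ξ j) • D.v j with hB
  set A' : Vec n := ∑ j, ((if D.arm j = 0 then D.p j else 0) * ξ j) • D.v j with hA'
  set B' : Vec n := ∑ j, ((if D.arm j = 1 then D.q j else 0) * ξ j) • D.v j with hB'
  have hA0 : A ∈ D.L0 := by
    refine Submodule.sum_mem _ fun j _ => ?_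
    by_cases h : D.arm j = 0
    · exact Submodule.smul_mem _ _ (D.arm0 j h)
    · rw [if_neg h, zero_mul, zero_smul]; exact zero_mem _
  have hA'0 : A' ∈ D.L0 := by
    refine Submodule.sum_mem _ fun j _ => ?_
    by_cases h : D.arm j = 0
    · exact Submodule.smul_mem _ _ (D.arm0 j h)
    · rw [if_neg h, zero_mul, zero_smul]; exact zero_mem _
  have hB1 : B ∈ D.L1 := by
    refine Submodule.sum_mem _ fun j _ => ?_
    by_cases h : D.arm j = 1
    · exact Submodule.smul_mem _ _ (D.arm1 j h)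
    · rw [if_neg h, zero_mul, zero_smul]; exact zero_mem _
  have hB'1 : B' ∈ D.L1 := by
    refine Submodule.sum_mem _ fun j _ => ?_
    by_cases h : D.arm j = 1
    · exact Submodule.smul_mem _ _ (D.arm1 j h)
    · rw [if_neg h, zero_mul, zero_smul]; exact zero_mem _
  have h3 : ∀ a : Fin 3, a = 0 ∨ a = 1 ∨ a = 2 := by decide
  have hal : ∀ j, D.al j = D.om j + if D.arm j = 0 then D.q j else 0 := by
    intro j
    rw [al, om]
    rcases h3 (D.arm j) with h | h | h
    · simp [h]
    · simp [h]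
    · simp [h, D.hpq j h]
  have hbe : ∀ j, D.be j = D.om j + if D.arm j = 1 then D.p j else 0 := by
    intro j
    rw [be, om]
    rcases h3 (D.arm j) with h | h | h
    · simp [h]
    · simp [h]
    · simp [h]
  have hp' : ∀ j, D.p j = D.om j + (if D.arm j = 1 then D.p j else 0) +
      (if D.arm j = 0 then D.p j else 0) := by
    intro j
    rw [om]
    rcases h3 (D.arm j) with h | h | h <;> simp [h]
  have hq' : ∀ j, D.q j = D.om j + (if D.arm j = 0 then D.q j else 0) +
      (if D.arm j = 1 then D.q j else 0) := by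
    intro j
    rw [om]
    rcases h3 (D.arm j) with h | h | h
    · simp [h]
    · simp [h]
    · simp [h, D.hpq j h]
  -- sums
  have sT : ∀ a : Vec n, ∑ j, D.om j * ξ j * qf a (D.v j) = qf a T := fun a => by
    rw [hT, qf_sum_right]
  have sA : ∀ a : Vec n, ∑ j, (if D.arm j = 0 then D.q j else 0) * ξ j * qf a (D.v j) = qf a A :=
    fun a => by rw [hA, qf_sum_right]
  have sB : ∀ a : Vec n, ∑ j, (if D.arm j = 1 then D.p j else 0) * ξ j * qf a (D.v j) = qf a B :=
    fun a => by rw [hB, qf_sum_right]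
  have sA' : ∀ a : Vec n, ∑ j, (if D.arm j = 0 then D.p j else 0) * ξ j * qf a (D.v j) = qf a A' :=
    fun a => by rw [hA', qf_sum_right]
  have sB' : ∀ a : Vec n, ∑ j, (if D.arm j = 1 then D.q j else 0) * ξ j * qf a (D.v j) = qf a B' :=
    fun a => by rw [hB', qf_sum_right]
  have sal : ∀ a : Vec n, ∑ j, D.al j * ξ j * qf a (D.v j) = qf a A + qf a T := by
    intro a
    rw [← sA, ← sT, ← Finset.sum_add_distrib]
    exact Finset.sum_congr rfl fun j _ => by rw [hal]; ring
  have sbe : ∀ a : Vec n, ∑ j, D.be j * ξ j * qf a (D.v j) = qf a B + qf a T := by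
    intro a
    rw [← sB, ← sT, ← Finset.sum_add_distrib]
    exact Finset.sum_congr rfl fun j _ => by rw [hbe]; ring
  have sp : ∀ a : Vec n, ∑ j, D.p j * ξ j * qf a (D.v j) = qf a T + qf a B + qf a A' := by
    intro a
    rw [← sB, ← sT, ← sA', ← Finset.sum_add_distrib, ← Finset.sum_add_distrib]
    refine Finset.sum_congr rfl fun j _ => ?_
    rw [← add_mul, ← add_mul, ← add_mul, ← add_mul]
    congr 2
    exact hp' j
  have sq : ∀ a : Vec n, ∑ j, D.q j * ξ j * qf a (D.v j) = qf a T + qf a A + qf a B' := by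
    intro a
    rw [← sA, ← sT, ← sB', ← Finset.sum_add_distrib, ← Finset.sum_add_distrib]
    refine Finset.sum_congr rfl fun j _ => ?_
    rw [← add_mul, ← add_mul, ← add_mul, ← add_mul]
    congr 2
    exact hq' j
  -- the component of `T`
  have huT : qf u T = 0 := by
    rw [← sT u]
    have h1 : κ * ∑ j, D.om j * ξ j * qf u (D.v j) = 0 := by
      rw [← hnone, Finset.mul_sum]
      exact Finset.sum_congr rfl fun j _ => by ring
    exact (mul_eq_zero.mp h1).resolve_left hκ0
  obtain ⟨z, hz, hzw, hPT⟩ := hP1 T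
  rw [huT, zero_smul, add_zero] at hPT
  set T0 : Vec n := T - z with hT0
  have hT00 : T0 ∈ D.L0 := by rw [hT0, ← hPT]; exact hP0 T
  have hTz : ∀ a : Vec n, qf a T = qf a T0 + qf a z := by
    intro a; rw [hT0, qf_sub_right]; ring
  -- the rows
  have hskP : ∀ j, ∑ j', D.om j' * ξ j' * skP P (D.v j) (D.v j') =
      (1 / 2 : ℂ) * (qf (D.v j) T0 - qf (D.v j) z) := by
    intro j
    have e1 : ∑ j', D.om j' * ξ j' * skP P (D.v j) (D.v j') =
        (1 / 2 : ℂ) * (∑ j', D.om j' * ξ j' * qf (P (D.v j)) (D.v j') -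
          ∑ j', D.om j' * ξ j' * qf (D.v j) (P (D.v j'))) := by
      rw [← Finset.sum_sub_distrib, Finset.mul_sum]
      refine Finset.sum_congr rfl fun j' _ => ?_
      rw [skP, qf_symm (P (D.v j')) (D.v j)]
      ring
    have e2 : ∑ j', D.om j' * ξ j' * qf (D.v j) (P (D.v j')) = qf (D.v j) (P T) := by
      rw [hT, map_sum]
      simp only [map_smul]
      rw [qf_sum_right]
    obtain ⟨zj, hzj, hzjw, hPj⟩ := hP1 (D.v j)
    have e3 : qf (P (D.v j)) z = 0 := by
      rw [hPj, qf_add_left, qf_smul_left, D.q11 hzj hz, qf_symm w z, hzw]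
      ring
    have e4 : qf (P (D.v j)) T0 = qf (D.v j) T0 := by
      have := D.q00 (hP0 (D.v j)) hT00
      rw [qf_sub_left] at this
      linear_combination -this
    rw [e1, sT, e2, hPT, hTz, e3, e4]
    ring
  have hrow' : ∀ j, (∑ j', D.Om (D.e j) (D.e j') * qf (D.v j) (D.v j') * ξ j') +
      D.o⁻¹ * (D.al j * (qf (D.v j) B + qf (D.v j) T) - D.be j * (qf (D.v j) A + qf (D.v j) T)) +
      κ * κ * D.om j * ((1 / 2 : ℂ) * (qf (D.v j) T0 - qf (D.v j) z)) -
      κ * D.om j * qf u (D.v j) * η = 0 := by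
    intro j
    rw [← hrow j, ← hskP j, ← sbe, ← sal]
    simp only [M, Finset.mul_sum, ← Finset.sum_sub_distrib, ← Finset.sum_add_distrib]
    have : ∀ (a b : ℂ), a - b = -b + a := fun a b => by ring
    rw [this]
    congr 1
    · ring
    · refine Finset.sum_congr rfl fun j' _ => ?_
      ring
  -- the lift
  refine ⟨D.o⁻¹ • (A + T0), (-D.o⁻¹) • (B + z), ?_, ?_⟩
  · rintro rfl
    have eA : A = 0 := by
      rw [hA]; exact Finset.sum_eq_zero fun j _ => by simp
    have eB : B = 0 := by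
      rw [hB]; exact Finset.sum_eq_zero fun j _ => by simp
    have eT : T = 0 := by
      rw [hT]; exact Finset.sum_eq_zero fun j _ => by simp
    have ez : z = 0 := by rw [← hPT, eT, map_zero]
    have eT0 : T0 = 0 := by rw [hT0, eT, ez, sub_zero]
    constructor
    · rw [eA, eT0, add_zero, smul_zero]
    · rw [eB, ez, add_zero, smul_zero]
  intro c0 c1 hc
  set x : Vec n := D.o⁻¹ • (A + T0) + c0 • u with hx
  set y : Vec n := (-D.o⁻¹) • (B + z) + c1 • u with hy
  have hx0 : x ∈ D.L0 := add_mem (Submodule.smul_mem _ _ (add_mem hA0 hT00))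
    (Submodule.smul_mem _ _ hu0)
  have hy1 : y ∈ D.L1 := add_mem (Submodule.smul_mem _ _ (add_mem hB1 hz))
    (Submodule.smul_mem _ _ hu1)
  obtain ⟨α, hα⟩ := (Submodule.mem_span_range_iff_exists_fun ℂ).mp hx0
  obtain ⟨β, hβ⟩ := (Submodule.mem_span_range_iff_exists_fun ℂ).mp hy1
  have sα : ∀ a : Vec n, ∑ i, α i * qf a (D.v' (D.a0 i)) = qf a x := fun a => by
    rw [← hα, qf_sum_right]
  have sβ : ∀ a : Vec n, ∑ i, β i * qf a (D.v' (D.a1 i)) = qf a y := fun a => by
    rw [← hβ, qf_sum_right]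
  have qx : ∀ a : Vec n, qf a x = D.o⁻¹ * (qf a A + qf a T0) + c0 * qf a u := fun a => by
    rw [hx, qf_add_right, qf_smul_right, qf_smul_right, qf_add_right]
  have qy : ∀ a : Vec n, qf a y = -D.o⁻¹ * (qf a B + qf a z) + c1 * qf a u := fun a => by
    rw [hy, qf_add_right, qf_smul_right, qf_smul_right, qf_add_right]
  refine ⟨α, β, hα, hβ, ?_⟩
  · intro k
    rcases D.cover k with ⟨j, rfl⟩ | ⟨i, rfl⟩ | ⟨i, rfl⟩
    · -- an old row
      have e1 : ∑ j', D.G (D.e j) (D.e j') * ξ j' =
          ∑ j', D.Om (D.e j) (D.e j') * qf (D.v j) (D.v j') * ξ j' := by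
        refine Finset.sum_congr rfl fun j' _ => ?_
        rw [G, D.hv, D.hv]
      have e2 : ∑ i, D.G (D.e j) (D.a0 i) * α i = - D.p j * qf (D.v j) x := by
        rw [← sα, Finset.mul_sum]
        refine Finset.sum_congr rfl fun i _ => ?_
        rw [G, D.hv, D.skew, D.hp]
        ring
      have e3 : ∑ i, D.G (D.e j) (D.a1 i) * β i = - D.q j * qf (D.v j) y := by
        rw [← sβ, Finset.mul_sum]
        refine Finset.sum_congr rfl fun i _ => ?_
        rw [G, D.hv, D.skew, D.hq]
        ring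
      rw [e1, e2, e3]
      have hr := hrow' j
      rcases h3 (D.arm j) with h | h | h
      · have hvj := D.arm0 j h
        have a1 : D.al j = D.q j := by simp [al, h]
        have a2 : D.be j = 0 := by simp [be, h]
        have a3 : D.om j = 0 := by simp [om, h]
        have b1 : qf (D.v j) x = 0 := D.q00 hvj hx0
        have b2 : qf (D.v j) u = 0 := D.q00 hvj hu0
        have b3 : qf (D.v j) T0 = 0 := D.q00 hvj hT00
        rw [a1, a2, a3, hTz, b3] at hr
        rw [b1, qy, b2]
        linear_combination hr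
      · have hvj := D.arm1 j h
        have a1 : D.al j = 0 := by simp [al, h]
        have a2 : D.be j = D.p j := by simp [be, h]
        have a3 : D.om j = 0 := by simp [om, h]
        have b1 : qf (D.v j) y = 0 := D.q11 hvj hy1
        have b2 : qf (D.v j) u = 0 := D.q11 hvj hu1
        have b3 : qf (D.v j) z = 0 := D.q11 hvj hz
        rw [a1, a2, a3, hTz, b3] at hr
        rw [b1, qx, b2]
        linear_combination hr
      · have a1 : D.al j = D.p j := by simp [al, h, D.hpq j h]
        have a2 : D.be j = D.p j := by simp [be, h]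
        have a3 : D.om j = D.p j := by simp [om, h]
        have a4 : D.q j = D.p j := (D.hpq j h).symm
        rw [a1, a2, a3, hTz, qf_symm u (D.v j)] at hr
        rw [a4, qx, qy]
        have hκ' : κ * κ = -2 * D.o⁻¹ := by
          field_simp
          linear_combination hκ
        have h5 : c0 + c1 - κ * η = 0 := by linear_combination hc
        rw [hκ'] at hr
        linear_combination hr - D.p j * qf (D.v j) u * h5
    · -- a row of the first full column
      set a := D.v' (D.a0 i) with ha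
      have ha0 : a ∈ D.L0 := Submodule.subset_span ⟨i, rfl⟩
      have e1 : ∑ j', D.G (D.a0 i) (D.e j') * ξ j' = qf a T + qf a B + qf a A' := by
        rw [← sp]
        refine Finset.sum_congr rfl fun j' _ => ?_
        rw [G, D.hv, D.hp]
        ring
      have e2 : ∑ i', D.G (D.a0 i) (D.a0 i') * α i' = 0 := by
        refine Finset.sum_eq_zero fun i' _ => ?_
        rw [G, D.iso0, mul_zero, zero_mul]
      have e3 : ∑ i', D.G (D.a0 i) (D.a1 i') * β i' = D.o * qf a y := by
        rw [← sβ, Finset.mul_sum]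
        refine Finset.sum_congr rfl fun i' _ => ?_
        rw [G, D.h01]
        ring
      rw [e1, e2, e3, hTz, qy, D.q00 ha0 hA'0, D.q00 ha0 hT00, D.q00 ha0 hu0]
      field_simp
      ring
    · set b := D.v' (D.a1 i) with hb
      have hb1 : b ∈ D.L1 := Submodule.subset_span ⟨i, rfl⟩
      have e1 : ∑ j', D.G (D.a1 i) (D.e j') * ξ j' = qf b T + qf b A + qf b B' := by
        rw [← sq]
        refine Finset.sum_congr rfl fun j' _ => ?_
        rw [G, D.hv, D.hq]
        ring
      have e2 : ∑ i', D.G (D.a1 i) (D.a0 i') * α i' = - D.o * qf b x := by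
        rw [← sα, Finset.mul_sum]
        refine Finset.sum_congr rfl fun i' _ => ?_
        rw [G, D.skew, D.h01]
        ring
      have e3 : ∑ i', D.G (D.a1 i) (D.a1 i') * β i' = 0 := by
        refine Finset.sum_eq_zero fun i' _ => ?_
        rw [G, D.iso1, mul_zero, zero_mul]
      rw [e1, e2, e3, hTz, qx, D.q11 hb1 hB'1, D.q11 hb1 hz, D.q11 hb1 hu1]
      field_simp
      ring

end Big

end Vale.Agent.P182.H338
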