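import Vale.Agent.P182.H338.Big
import Mathlib.LinearAlgebra.Matrix.Adjugate

/-!
# Kernel vectors and the adjugate
-/

namespace Vale.Agent.P182.H338

open LieAlgebra.Orthogonal

section adj

variable {K : Type*} [Fintype K] [DecidableEq K] {F : Type*} [Field F]

/-- If the adjugate does not vanish, a kernel vector with a certain vanishing coordinate is zero. -/
theorem exists_coord {M : Matrix K K F} (h : M.adjugate ≠ 0) :
    ∃ i : K, ∀ ζ : K → F, M.mulVec ζ = 0 → ζ i = 0 → ζ = 0 := by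
  obtain ⟨i, j, hij⟩ : ∃ i j, M.adjugate i j ≠ 0 := by
    by_contra hcon
    push Not at hcon
    exact h (by ext i j; exact hcon i j)
  refine ⟨i, fun ζ hζ hi => ?_⟩
  rw [Matrix.adjugate_apply] at hij
  refine Matrix.eq_zero_of_mulVec_eq_zero hij ?_
  funext k
  by_cases hk : k = j
  · subst hk
    show (M.updateRow k (Pi.single i 1)) k ⬝ᵥ ζ = 0
    rw [Matrix.updateRow_self, single_dotProduct, hi, mul_zero]
  · show (M.updateRow j (Pi.single i 1)) k ⬝ᵥ ζ = 0
    rw [Matrix.updateRow_ne hk]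
    exact congrFun hζ k

theorem dep_of_adj {M : Matrix K K F} (h : M.adjugate ≠ 0) {ζ₁ ζ₂ : K → F}
    (h₁ : M.mulVec ζ₁ = 0) (h₂ : M.mulVec ζ₂ = 0) :
    ∃ s₁ s₂ : F, ¬ (s₁ = 0 ∧ s₂ = 0) ∧ s₁ • ζ₁ + s₂ • ζ₂ = 0 := by
  obtain ⟨i, hi⟩ := exists_coord h
  by_cases h0 : ζ₁ i = 0
  · refine ⟨1, 0, by simp, ?_⟩
    rw [hi ζ₁ h₁ h0]
    simp
  · refine ⟨ζ₂ i, - ζ₁ i, fun h => h0 (neg_eq_zero.mp h.2), ?_⟩
    refine hi _ ?_ ?_
    · rw [Matrix.mulVec_add, Matrix.mulVec_smul, Matrix.mulVec_smul, h₁, h₂, smul_zero, smul_zero,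
        add_zero]
    · simp only [Pi.add_apply, Pi.smul_apply, smul_eq_mul]
      ring

/-- A skew matrix of even size with nonzero adjugate is nonsingular. -/
theorem det_ne_zero_of_adj [CharZero F] {M : Matrix K K F} (hM : M.transpose = -M)
    (hcard : Even (Fintype.card K)) (h : M.adjugate ≠ 0) : M.det ≠ 0 := by
  intro hdet
  obtain ⟨ζ, hζ0, hζ⟩ := Matrix.exists_mulVec_eq_zero_iff.mpr hdet
  have hmul : M * M.adjugate = 0 := by rw [Matrix.mul_adjugate, hdet, zero_smul]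
  -- columns are multiples of `ζ`
  have hcol : ∀ j, ∃ t : F, ∀ i, M.adjugate i j = t * ζ i := by
    intro j
    have h1 : M.mulVec (fun i => M.adjugate i j) = 0 := by
      funext k
      exact congrFun (congrFun hmul k) j
    obtain ⟨s₁, s₂, hs, e⟩ := dep_of_adj h hζ h1
    have hs2 : s₂ ≠ 0 := by
      rintro rfl
      rw [zero_smul, add_zero] at e
      rcases smul_eq_zero.mp e with h2 | h2
      · exact hs ⟨h2, rfl⟩
      · exact hζ0 h2
    refine ⟨-(s₂⁻¹ * s₁), fun i => ?_⟩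
    have e' := congrFun e i
    simp only [Pi.add_apply, Pi.smul_apply, smul_eq_mul, Pi.zero_apply] at e'
    field_simp
    linear_combination e'
  choose t ht using hcol
  have hskew : M.adjugate.transpose = - M.adjugate := by
    rw [Matrix.adjugate_transpose, hM, ← neg_one_smul F M, Matrix.adjugate_smul]
    rcases Nat.eq_zero_or_pos (Fintype.card K) with h0 | h0
    · have := Fintype.card_eq_zero_iff.mp h0
      ext i
      exact (IsEmpty.false i).elim
    · have : Odd (Fintype.card K - 1) := by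
        rcases hcard with ⟨r, hr⟩
        exact ⟨r - 1, by omega⟩
      rw [this.neg_one_pow, neg_one_smul]
  have hs : ∀ i j, t i * ζ j = - (t j * ζ i) := by
    intro i j
    have h1 := congrFun (congrFun hskew i) j
    rw [Matrix.transpose_apply, Matrix.neg_apply, ht, ht] at h1
    exact h1
  obtain ⟨i, hi⟩ := Function.ne_iff.mp hζ0
  have hti : t i = 0 := by
    have h1 := hs i i
    have h2 : (2 : F) * (t i * ζ i) = 0 := by linear_combination h1
    have h3 := (mul_eq_zero.mp h2).resolve_left two_ne_zero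
    exact (mul_eq_zero.mp h3).resolve_right hi
  apply h
  ext k j
  rw [ht, Matrix.zero_apply]
  have h1 := hs i j
  rw [hti, zero_mul] at h1
  have h2 : t j * ζ i = 0 := by linear_combination h1
  rw [(mul_eq_zero.mp h2).resolve_right hi, zero_mul]

end adj

variable {n : ℕ}

namespace Big

variable {J J' : Type*} [Fintype J] [Fintype J'] [DecidableEq J] [DecidableEq J'] (D : Big n J J')

/-- the decomposition of the index set -/
noncomputable def E : J ⊕ (Fin n ⊕ Fin n) ≃ J' := Equiv.ofBijective _ D.bij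

/-- gluing coordinate vectors -/
noncomputable def gl (ξ : J → ℂ) (α β : Fin n → ℂ) (k : J') : ℂ :=
  (Sum.elim ξ (Sum.elim α β)) (D.E.symm k)

omit [Fintype J] [Fintype J'] [DecidableEq J] [DecidableEq J'] in
theorem gl_e (ξ : J → ℂ) (α β : Fin n → ℂ) (j : J) : D.gl ξ α β (D.e j) = ξ j := by
  have : D.e j = D.E (Sum.inl j) := rfl
  rw [gl, this, Equiv.symm_apply_apply]
  rfl

omit [Fintype J] [Fintype J'] [DecidableEq J] [DecidableEq J'] in
theorem gl_a0 (ξ : J → ℂ) (α β : Fin n → ℂ) (i : Fin n) : D.gl ξ α β (D.a0 i) = α i := by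
  have : D.a0 i = D.E (Sum.inr (Sum.inl i)) := rfl
  rw [gl, this, Equiv.symm_apply_apply]
  rfl

omit [Fintype J] [Fintype J'] [DecidableEq J] [DecidableEq J'] in
theorem gl_a1 (ξ : J → ℂ) (α β : Fin n → ℂ) (i : Fin n) : D.gl ξ α β (D.a1 i) = β i := by
  have : D.a1 i = D.E (Sum.inr (Sum.inr i)) := rfl
  rw [gl, this, Equiv.symm_apply_apply]
  rfl

omit [DecidableEq J] [DecidableEq J'] in
theorem mulVec_gl (ξ : J → ℂ) (α β : Fin n → ℂ)
    (h : ∀ k, ∑ j, D.G k (D.e j) * ξ j + ∑ i, D.G k (D.a0 i) * α i + ∑ i, D.G k (D.a1 i) * β i = 0) :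
    (Matrix.of D.G).mulVec (D.gl ξ α β) = 0 := by
  funext k
  rw [Matrix.mulVec, dotProduct, Pi.zero_apply, ← h k, ← Equiv.sum_comp D.E, Fintype.sum_sum_type,
    Fintype.sum_sum_type, add_assoc]
  have e1 : ∀ j, D.gl ξ α β (D.E (Sum.inl j)) = ξ j := D.gl_e ξ α β
  have e2 : ∀ i, D.gl ξ α β (D.E (Sum.inr (Sum.inl i))) = α i := D.gl_a0 ξ α β
  have e3 : ∀ i, D.gl ξ α β (D.E (Sum.inr (Sum.inr i))) = β i := D.gl_a1 ξ α β
  simp only [e1, e2, e3]
  rfl

omit [Fintype J'] [DecidableEq J'] in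
/-- Even case. -/
theorem det_M_ne_zero [Fintype J'] [DecidableEq J'] (P : Vec n →ₗ[ℂ] Vec n)
    (hP0 : ∀ x, x - P x ∈ D.L0) (hP1 : ∀ x, P x ∈ D.L1)
    (κ : ℂ) (hκ : κ * κ * D.o = -2) (hdet : (Matrix.of D.G).det ≠ 0) :
    (Matrix.of (D.M κ P)).det ≠ 0 := by
  intro h0
  obtain ⟨ξ, hξ0, hξ⟩ := Matrix.exists_mulVec_eq_zero_iff.mpr h0
  obtain ⟨x₀, y₀, -, h1⟩ := D.kernel_lift P 0 0 (zero_mem _) (zero_mem _) hP0
    (fun x => ⟨P x, hP1 x, qf_zero_right _, by rw [smul_zero, add_zero]⟩) κ hκ ξ 0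
    (Finset.sum_eq_zero fun j _ => by rw [qf_zero_left, mul_zero, zero_mul])
    (fun j => by
      have h2 := congrFun hξ j
      rw [Matrix.mulVec, dotProduct] at h2
      rw [mul_zero, zero_add]
      exact h2)
  obtain ⟨α, β, -, -, h2⟩ := h1 0 0 (by rw [mul_zero, add_zero])
  have h3 := Matrix.eq_zero_of_mulVec_eq_zero hdet (D.mulVec_gl ξ α β h2)
  apply hξ0
  funext j
  rw [← D.gl_e ξ α β j, h3]
  rfl

omit [Fintype J'] [DecidableEq J'] in
/-- Odd case. -/
theorem det_bord_ne_zero [Fintype J'] [DecidableEq J'] (P : Vec n →ₗ[ℂ] Vec n) (u w : Vec n)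
    (hu : u ≠ 0) (hu0 : u ∈ D.L0) (hu1 : u ∈ D.L1)
    (hP0 : ∀ x, x - P x ∈ D.L0) (hP1 : ∀ x, ∃ z ∈ D.L1, qf z w = 0 ∧ P x = z + qf u x • w)
    (κ : ℂ) (hκ : κ * κ * D.o = -2) (hadj : (Matrix.of D.G).adjugate ≠ 0) :
    (Matrix.of (bord (D.M κ P) fun j => κ * D.om j * qf u (D.v j))).det ≠ 0 := by
  intro h0
  have hκ0 : κ ≠ 0 := by
    rintro rfl
    rw [zero_mul, zero_mul] at hκ
    norm_num at hκ
  obtain ⟨ζ, hζ0, hζ⟩ := Matrix.exists_mulVec_eq_zero_iff.mpr h0
  set ξ : J → ℂ := fun j => ζ (some j) with hξ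
  set η : ℂ := ζ none with hη
  have hnone : ∑ j, κ * D.om j * qf u (D.v j) * ξ j = 0 := by
    have h2 := congrFun hζ none
    rw [Matrix.mulVec, dotProduct, Fintype.sum_option] at h2
    simp only [Matrix.of_apply, Pi.zero_apply] at h2
    change 0 * ζ none + ∑ j, κ * D.om j * qf u (D.v j) * ζ (some j) = 0 at h2
    rw [zero_mul, zero_add] at h2
    exact h2
  have hrow : ∀ j, -(κ * D.om j * qf u (D.v j)) * η + ∑ j', D.M κ P j j' * ξ j' = 0 := by
    intro j
    have h2 := congrFun hζ (some j)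
    rw [Matrix.mulVec, dotProduct, Fintype.sum_option] at h2
    exact h2
  obtain ⟨x₀, y₀, hxy, h1⟩ := D.kernel_lift P u w hu0 hu1 hP0 hP1 κ hκ ξ η hnone hrow
  obtain ⟨α, β, hα, hβ, h2⟩ := h1 (κ * η) 0 (by ring)
  obtain ⟨α', β', hα', hβ', h2'⟩ := h1 (κ * η - 1) 1 (by ring)
  obtain ⟨s₁, s₂, hs, hdep⟩ := dep_of_adj hadj (D.mulVec_gl ξ α β h2) (D.mulVec_gl ξ α' β' h2')
  have eξ : ∀ j, (s₁ + s₂) * ξ j = 0 := by
    intro j
    have := congrFun hdep (D.e j)
    simp only [Pi.add_apply, Pi.smul_apply, smul_eq_mul, D.gl_e, Pi.zero_apply] at this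
    linear_combination this
  have eα : ∀ i, s₁ * α i + s₂ * α' i = 0 := by
    intro i
    have := congrFun hdep (D.a0 i)
    simpa only [Pi.add_apply, Pi.smul_apply, smul_eq_mul, D.gl_a0, Pi.zero_apply] using this
  have eβ : ∀ i, s₁ * β i + s₂ * β' i = 0 := by
    intro i
    have := congrFun hdep (D.a1 i)
    simpa only [Pi.add_apply, Pi.smul_apply, smul_eq_mul, D.gl_a1, Pi.zero_apply] using this
  have ex : s₁ • (x₀ + (κ * η) • u) + s₂ • (x₀ + (κ * η - 1) • u) = 0 := by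
    rw [← hα, ← hα', Finset.smul_sum, Finset.smul_sum, ← Finset.sum_add_distrib]
    refine Finset.sum_eq_zero fun i _ => ?_
    rw [smul_smul, smul_smul, ← add_smul, eα, zero_smul]
  have ey : s₁ • (y₀ + (0 : ℂ) • u) + s₂ • (y₀ + (1 : ℂ) • u) = 0 := by
    rw [← hβ, ← hβ', Finset.smul_sum, Finset.smul_sum, ← Finset.sum_add_distrib]
    refine Finset.sum_eq_zero fun i _ => ?_
    rw [smul_smul, smul_smul, ← add_smul, eβ, zero_smul]
  by_cases hz : ξ = 0
  · obtain ⟨hx0, hy0⟩ := hxy hz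
    have hη0 : η ≠ 0 := by
      intro h
      apply hζ0
      funext p
      rcases p with _ | j
      · exact h
      · exact congrFun hz j
    rw [hy0, zero_smul, zero_add, smul_zero, zero_add, zero_add, one_smul] at ey
    have hs2 : s₂ = 0 := (smul_eq_zero.mp ey).resolve_right hu
    rw [hx0, hs2, zero_smul, add_zero, zero_add, smul_smul] at ex
    have h3 := (smul_eq_zero.mp ex).resolve_right hu
    have hs1 : s₁ = 0 := (mul_eq_zero.mp h3).resolve_right (mul_ne_zero hκ0 hη0)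
    exact hs ⟨hs1, hs2⟩
  · obtain ⟨j, hj⟩ := Function.ne_iff.mp hz
    have h3 : s₁ + s₂ = 0 := (mul_eq_zero.mp (eξ j)).resolve_right hj
    have h4 : s₂ = - s₁ := by linear_combination h3
    have h5 : s₁ • u = 0 := by
      rw [← ex, h4]
      module
    have hs1 : s₁ = 0 := (smul_eq_zero.mp h5).resolve_right hu
    exact hs ⟨hs1, by rw [h4, hs1, neg_zero]⟩

omit [DecidableEq J] [DecidableEq J'] in
/-- Vectors of the intersection give kernel vectors. -/
theorem triv_kernel (α β : Fin n → ℂ)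
    (h : ∑ i, α i • D.v' (D.a0 i) + ∑ i, β i • D.v' (D.a1 i) = 0) :
    (Matrix.of D.G).mulVec (D.gl 0 α β) = 0 := by
  set x : Vec n := ∑ i, α i • D.v' (D.a0 i) with hx
  set y : Vec n := ∑ i, β i • D.v' (D.a1 i) with hy
  have hyx : y = - x := by rw [eq_neg_iff_add_eq_zero, add_comm]; exact h
  have hx0 : x ∈ D.L0 := Submodule.sum_mem _ fun i _ =>
    Submodule.smul_mem _ _ (Submodule.subset_span ⟨i, rfl⟩)
  have hx1 : x ∈ D.L1 := by
    have : x = - y := by rw [hyx, neg_neg]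
    rw [this]
    exact neg_mem (Submodule.sum_mem _ fun i _ =>
      Submodule.smul_mem _ _ (Submodule.subset_span ⟨i, rfl⟩))
  have sα : ∀ a : Vec n, ∑ i, α i * qf a (D.v' (D.a0 i)) = qf a x := fun a => by
    rw [hx, qf_sum_right]
  have sβ : ∀ a : Vec n, ∑ i, β i * qf a (D.v' (D.a1 i)) = - qf a x := fun a => by
    rw [← qf_neg_right, ← hyx, hy, qf_sum_right]
  have h3 : ∀ a : Fin 3, a = 0 ∨ a = 1 ∨ a = 2 := by decide
  refine D.mulVec_gl 0 α β fun k => ?_
  rcases D.cover k with ⟨j, rfl⟩ | ⟨i, rfl⟩ | ⟨i, rfl⟩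
  · have e1 : ∑ j', D.G (D.e j) (D.e j') * (0 : J → ℂ) j' = 0 :=
      Finset.sum_eq_zero fun j' _ => by rw [Pi.zero_apply, mul_zero]
    have e2 : ∑ i, D.G (D.e j) (D.a0 i) * α i = - D.p j * qf (D.v j) x := by
      rw [← sα, Finset.mul_sum]
      refine Finset.sum_congr rfl fun i _ => ?_
      rw [G, D.hv, D.skew, D.hp]
      ring
    have e3 : ∑ i, D.G (D.e j) (D.a1 i) * β i = - D.q j * (- qf (D.v j) x) := by
      rw [← sβ, Finset.mul_sum]
      refine Finset.sum_congr rfl fun i _ => ?_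
      rw [G, D.hv, D.skew, D.hq]
      ring
    rw [e1, e2, e3]
    rcases h3 (D.arm j) with h | h | h
    · rw [D.q00 (D.arm0 j h) hx0]; ring
    · rw [D.q11 (D.arm1 j h) hx1]; ring
    · rw [D.hpq j h]; ring
  · have e1 : ∑ j', D.G (D.a0 i) (D.e j') * (0 : J → ℂ) j' = 0 :=
      Finset.sum_eq_zero fun j' _ => by rw [Pi.zero_apply, mul_zero]
    have e2 : ∑ i', D.G (D.a0 i) (D.a0 i') * α i' = 0 := by
      refine Finset.sum_eq_zero fun i' _ => ?_
      rw [G, D.iso0, mul_zero, zero_mul]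
    have e3 : ∑ i', D.G (D.a0 i) (D.a1 i') * β i' = D.o * (- qf (D.v' (D.a0 i)) x) := by
      rw [← sβ, Finset.mul_sum]
      refine Finset.sum_congr rfl fun i' _ => ?_
      rw [G, D.h01]
      ring
    rw [e1, e2, e3, D.q00 (Submodule.subset_span ⟨i, rfl⟩) hx0]
    ring
  · have e1 : ∑ j', D.G (D.a1 i) (D.e j') * (0 : J → ℂ) j' = 0 :=
      Finset.sum_eq_zero fun j' _ => by rw [Pi.zero_apply, mul_zero]
    have e2 : ∑ i', D.G (D.a1 i) (D.a0 i') * α i' = - D.o * qf (D.v' (D.a1 i)) x := by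
      rw [← sα, Finset.mul_sum]
      refine Finset.sum_congr rfl fun i' _ => ?_
      rw [G, D.skew, D.h01]
      ring
    have e3 : ∑ i', D.G (D.a1 i) (D.a1 i') * β i' = 0 := by
      refine Finset.sum_eq_zero fun i' _ => ?_
      rw [G, D.iso1, mul_zero, zero_mul]
    rw [e1, e2, e3, D.q11 (Submodule.subset_span ⟨i, rfl⟩) hx1]
    ring

omit [DecidableEq J] in
/-- Nonsingular big Gram matrix: the two spaces are transversal. -/
theorem disjoint_of_det (hdet : (Matrix.of D.G).det ≠ 0) {u : Vec n} (hu0 : u ∈ D.L0)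
    (hu1 : u ∈ D.L1) : u = 0 := by
  obtain ⟨α, hα⟩ := (Submodule.mem_span_range_iff_exists_fun ℂ).mp hu0
  obtain ⟨β, hβ⟩ := (Submodule.mem_span_range_iff_exists_fun ℂ).mp (neg_mem hu1)
  have h1 := D.triv_kernel α β (by rw [hα, hβ, add_neg_cancel])
  have h2 := Matrix.eq_zero_of_mulVec_eq_zero hdet h1
  rw [← hα]
  refine Finset.sum_eq_zero fun i _ => ?_
  have : α i = 0 := by rw [← D.gl_a0 0 α β i, h2]; rfl
  rw [this, zero_smul]

omit [DecidableEq J] in
/-- Nonzero adjugate: the intersection is at most a line. -/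
theorem dep_of_adj' (hadj : (Matrix.of D.G).adjugate ≠ 0) {u x : Vec n} (hu : u ≠ 0)
    (hu0 : u ∈ D.L0) (hu1 : u ∈ D.L1) (hx0 : x ∈ D.L0) (hx1 : x ∈ D.L1) : ∃ t : ℂ, x = t • u := by
  obtain ⟨α, hα⟩ := (Submodule.mem_span_range_iff_exists_fun ℂ).mp hu0
  obtain ⟨β, hβ⟩ := (Submodule.mem_span_range_iff_exists_fun ℂ).mp (neg_mem hu1)
  obtain ⟨α', hα'⟩ := (Submodule.mem_span_range_iff_exists_fun ℂ).mp hx0
  obtain ⟨β', hβ'⟩ := (Submodule.mem_span_range_iff_exists_fun ℂ).mp (neg_mem hx1)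
  have h1 := D.triv_kernel α β (by rw [hα, hβ, add_neg_cancel])
  have h2 := D.triv_kernel α' β' (by rw [hα', hβ', add_neg_cancel])
  obtain ⟨s₁, s₂, hs, hdep⟩ := dep_of_adj hadj h1 h2
  have eα : ∀ i, s₁ * α i + s₂ * α' i = 0 := by
    intro i
    have := congrFun hdep (D.a0 i)
    simpa only [Pi.add_apply, Pi.smul_apply, smul_eq_mul, D.gl_a0, Pi.zero_apply] using this
  have ex : s₁ • u + s₂ • x = 0 := by
    rw [← hα, ← hα', Finset.smul_sum, Finset.smul_sum, ← Finset.sum_add_distrib]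
    refine Finset.sum_eq_zero fun i _ => ?_
    rw [smul_smul, smul_smul, ← add_smul, eα, zero_smul]
  have hs2 : s₂ ≠ 0 := by
    rintro rfl
    rw [zero_smul, add_zero] at ex
    exact hs ⟨(smul_eq_zero.mp ex).resolve_right hu, rfl⟩
  refine ⟨-(s₂⁻¹ * s₁), ?_⟩
  have h3 : x = s₂⁻¹ • (s₂ • x) := by rw [smul_smul, inv_mul_cancel₀ hs2, one_smul]
  rw [h3, ← neg_eq_of_add_eq_zero_right ex, neg_smul, ← smul_smul, smul_neg]

end Big

/-! ### decompositions -/

section decomp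

/-- every functional is given by the form -/
theorem exists_qf (f : Vec n →ₗ[ℂ] ℂ) : ∃ z : Vec n, ∀ x, f x = qf z x := by
  refine ⟨fun b => f (std b.swap), fun x => ?_⟩
  conv_lhs => rw [vec_expand x, map_sum]
  rw [qf, Finset.sum_comm]
  refine Finset.sum_congr rfl fun b _ => ?_
  rw [map_smul, smul_eq_mul, Finset.sum_eq_single b.swap]
  · rw [JD_eq, if_pos (Sum.swap_swap b).symm, Sum.swap_swap]
    ring
  · intro b' _ hb'
    rw [JD_eq, if_neg, mul_zero, zero_mul]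
    intro e
    apply hb'
    rw [e, Sum.swap_swap]
  · intro h; exact absurd (Finset.mem_univ _) h

variable {L0 L1 : Submodule ℂ (Vec n)}

/-- A vector orthogonal to the intersection is in the sum. -/
theorem mem_sup_of (p0 : ∀ z, (∀ x ∈ L0, qf z x = 0) → z ∈ L0)
    (p1 : ∀ z, (∀ x ∈ L1, qf z x = 0) → z ∈ L1) {x : Vec n}
    (hx : ∀ u ∈ L0, u ∈ L1 → qf u x = 0) : x ∈ L0 ⊔ L1 := by
  by_contra hcon
  obtain ⟨f, hf, hfK⟩ := Submodule.exists_dual_map_eq_bot_of_notMem hcon inferInstance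
  have hf0 : ∀ u ∈ L0 ⊔ L1, f u = 0 := by
    intro u hu
    have : f u ∈ (L0 ⊔ L1).map f := ⟨u, hu, rfl⟩
    rw [hfK] at this
    exact (Submodule.mem_bot ℂ).mp this
  obtain ⟨z, hz⟩ := exists_qf f
  apply hf
  rw [hz]
  refine hx z (p0 z fun y hy => ?_) (p1 z fun y hy => ?_)
  · rw [← hz]; exact hf0 y (Submodule.mem_sup_left hy)
  · rw [← hz]; exact hf0 y (Submodule.mem_sup_right hy)

/-- The projection, even case. -/
theorem exists_proj (p0 : ∀ z, (∀ x ∈ L0, qf z x = 0) → z ∈ L0)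
    (p1 : ∀ z, (∀ x ∈ L1, qf z x = 0) → z ∈ L1) (hd : ∀ u ∈ L0, u ∈ L1 → u = 0) :
    ∃ P : Vec n →ₗ[ℂ] Vec n, (∀ x, x - P x ∈ L0) ∧ ∀ x, P x ∈ L1 := by
  have hc : IsCompl L1 L0 := by
    constructor
    · rw [disjoint_iff, eq_bot_iff]
      intro u hu
      rw [Submodule.mem_bot]
      exact hd u hu.2 hu.1
    · rw [codisjoint_iff, eq_top_iff]
      intro x _
      rw [sup_comm]
      refine mem_sup_of p0 p1 fun u hu0 hu1 => ?_
      rw [hd u hu0 hu1, qf_zero_left]
  refine ⟨L1.subtype ∘ₗ Submodule.projectionOnto L1 L0 hc, fun x => ?_, fun x =>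
    (Submodule.projectionOnto L1 L0 hc x).2⟩
  have h1 : Submodule.projectionOnto L1 L0 hc
      (x - (Submodule.projectionOnto L1 L0 hc x : Vec n)) = 0 := by
    rw [map_sub, Submodule.projectionOnto_apply_left, sub_self]
  rwa [Submodule.projectionOnto_apply_eq_zero_iff] at h1

/-- an isotropic vector paired with a given one -/
theorem exists_dual_vec {u : Vec n} (hu : u ≠ 0) : ∃ w : Vec n, qf u w = 1 ∧ qf w w = 0 := by
  obtain ⟨b, hb⟩ := Function.ne_iff.mp hu
  refine ⟨(u b)⁻¹ • std b.swap, ?_, ?_⟩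
  · rw [qf_smul_right]
    have h1 : qf u (std b.swap) = u b := by
      rw [qf, Finset.sum_eq_single b, Finset.sum_eq_single b.swap]
      · rw [JD_eq, if_pos rfl, std, Matrix.one_apply_eq]
        ring
      · intro b' _ hb'
        rw [JD_eq, if_neg hb', mul_zero, zero_mul]
      · intro h; exact absurd (Finset.mem_univ _) h
      · intro b' _ hb'
        refine Finset.sum_eq_zero fun b'' _ => ?_
        rw [JD_eq, std, Matrix.one_apply]
        split_ifs with h1 h2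
        · exfalso
          apply hb'
          rw [h1] at h2
          have := congrArg Sum.swap h2
          rwa [Sum.swap_swap, Sum.swap_swap] at this
        · rw [mul_zero]
        · rw [mul_zero, zero_mul]
        · rw [mul_zero]
      · intro h; exact absurd (Finset.mem_univ _) h
    rw [h1]
    exact inv_mul_cancel₀ hb
  · rw [qf_smul_right, qf_smul_left]
    have h1 : qf (std b.swap) (std b.swap) = (0 : ℂ) := by
      rw [qf]
      refine Finset.sum_eq_zero fun b' _ => Finset.sum_eq_zero fun b'' _ => ?_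
      rw [JD_eq]
      by_cases h1 : b' = b.swap
      · by_cases h2 : b'' = b.swap
        · rw [if_neg, mul_zero, zero_mul]
          rw [h1, h2]
          rcases b with b | b <;> simp
        · rw [show std b.swap b'' = (0 : ℂ) from Matrix.one_apply_ne h2, mul_zero]
      · rw [show std b.swap b' = (0 : ℂ) from Matrix.one_apply_ne h1, zero_mul, zero_mul]
    rw [h1, mul_zero, mul_zero]

/-- The projection, odd case. -/
theorem exists_proj_odd (q0 : ∀ x ∈ L0, ∀ y ∈ L0, qf x y = 0) (q1 : ∀ x ∈ L1, ∀ y ∈ L1, qf x y = 0)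
    (p0 : ∀ z, (∀ x ∈ L0, qf z x = 0) → z ∈ L0)
    (p1 : ∀ z, (∀ x ∈ L1, qf z x = 0) → z ∈ L1) {u w : Vec n} (hu0 : u ∈ L0) (hu1 : u ∈ L1)
    (huw : qf u w = 1) (hd : ∀ x ∈ L0, x ∈ L1 → ∃ t : ℂ, x = t • u) :
    ∃ P : Vec n →ₗ[ℂ] Vec n, (∀ x, x - P x ∈ L0) ∧
      ∀ x, ∃ z ∈ L1, qf z w = 0 ∧ P x = z + qf u x • w := by
  let W : Submodule ℂ (Vec n) := (L1 ⊓ LinearMap.ker ((qfL n).flip w)) ⊔ Submodule.span ℂ {w}
  have hW : ∀ y ∈ W, ∃ z ∈ L1, qf z w = 0 ∧ ∃ c : ℂ, y = z + c • w := by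
    intro y hy
    obtain ⟨z, hz, y', hy', rfl⟩ := Submodule.mem_sup.mp hy
    obtain ⟨c, rfl⟩ := Submodule.mem_span_singleton.mp hy'
    exact ⟨z, hz.1, hz.2, c, rfl⟩
  have hc : IsCompl W L0 := by
    constructor
    · rw [disjoint_iff, eq_bot_iff]
      rintro y ⟨hyW, hy0⟩
      rw [Submodule.mem_bot]
      obtain ⟨z, hz, hzw, c, rfl⟩ := hW y hyW
      have h1 := q0 u hu0 _ hy0
      rw [qf_add_right, qf_smul_right, q1 u hu1 z hz, huw, zero_add, mul_one] at h1
      subst h1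
      rw [zero_smul, add_zero] at hy0 ⊢
      obtain ⟨t, rfl⟩ := hd z hy0 hz
      rw [qf_smul_left, huw, mul_one] at hzw
      rw [hzw, zero_smul]
    · rw [codisjoint_iff, eq_top_iff]
      intro x _
      have h1 : x - qf u x • w ∈ L0 ⊔ L1 := by
        refine mem_sup_of p0 p1 fun y hy0 hy1 => ?_
        obtain ⟨t, rfl⟩ := hd y hy0 hy1
        rw [qf_smul_left, qf_sub_right, qf_smul_right, huw]
        ring
      obtain ⟨a, ha, b, hb, hab⟩ := Submodule.mem_sup.mp h1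
      have h2 : x = ((b - qf b w • u) + qf u x • w) + (a + qf b w • u) := by
        have h3 : x = (a + b) + qf u x • w := by rw [hab]; abel
        conv_lhs => rw [h3]
        abel
      rw [h2]
      refine Submodule.add_mem_sup (Submodule.add_mem_sup ⟨?_, ?_⟩ ?_) ?_
      · exact sub_mem hb (Submodule.smul_mem _ _ hu1)
      · show qf (b - qf b w • u) w = 0
        rw [qf_sub_left, qf_smul_left, huw]
        ring
      · exact Submodule.smul_mem _ _ (Submodule.mem_span_singleton_self w)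
      · exact add_mem ha (Submodule.smul_mem _ _ hu0)
  let P : Vec n →ₗ[ℂ] Vec n := W.subtype ∘ₗ Submodule.projectionOnto W L0 hc
  have hP0 : ∀ x, x - P x ∈ L0 := by
    intro x
    have h1 : Submodule.projectionOnto W L0 hc
        (x - (Submodule.projectionOnto W L0 hc x : Vec n)) = 0 := by
      rw [map_sub, Submodule.projectionOnto_apply_left, sub_self]
    rwa [Submodule.projectionOnto_apply_eq_zero_iff] at h1
  refine ⟨P, hP0, fun x => ?_⟩
  obtain ⟨z, hz, hzw, c, hPx⟩ := hW (P x) (Submodule.projectionOnto W L0 hc x).2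
  refine ⟨z, hz, hzw, ?_⟩
  have h1 := q0 u hu0 _ (hP0 x)
  rw [hPx, qf_sub_right, qf_add_right, qf_smul_right, q1 u hu1 z hz, huw] at h1
  have h2 : c = qf u x := by linear_combination -h1
  rw [hPx, h2]

end decomp

end Vale.Agent.P182.H338
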