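import Vale.Agent.P182.H338.Alt

/-!
# A Wick formula for antisymmetrised products
-/

namespace Vale.Agent.P182.H338

open Equiv

variable {J : Type*} {A : Type*} [Ring A] [Algebra ℂ A]

/-- The product of the letters of a word. -/
def prw (c : J → A) {m : ℕ} (x : Fin m → J) : A := (List.ofFn fun i => c (x i)).prod

omit [Algebra ℂ A] in
theorem prw_zero (c : J → A) (x : Fin 0 → J) : prw c x = 1 := by
  rw [prw, List.ofFn_zero, List.prod_nil]

omit [Algebra ℂ A] in
theorem prw_succ (c : J → A) {m : ℕ} (x : Fin (m + 1) → J) :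
    prw c x = c (x 0) * prw c (tl1 x) := by
  rw [prw, List.ofFn_succ, List.prod_cons]
  rfl

/-- Moving an element through a product. -/
theorem move (c : J → A) (a : A) (k : J → ℂ) (h : ∀ j, a * c j + c j * a = algebraMap ℂ A (k j))
    (m : ℕ) (x : Fin (m + 1) → J) :
    a * prw c x = (∑ i : Fin (m + 1), ((-1 : ℂ) ^ (i : ℕ) * k (x i)) • prw c (x ∘ i.succAbove)) +
      ((-1 : ℂ) ^ (m + 1)) • (prw c x * a) := by
  induction m with
  | zero =>
    rw [prw_succ, prw_zero, Fin.sum_univ_one, prw_zero]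
    have h1 := h (x 0)
    rw [Algebra.algebraMap_eq_smul_one] at h1
    simp only [mul_one, Fin.val_zero, pow_zero, one_mul, zero_add, pow_one, neg_smul, one_smul]
    rw [← h1]
    abel
  | succ m ih =>
    have h1 := h (x 0)
    rw [Algebra.algebraMap_eq_smul_one] at h1
    have h2 : a * c (x 0) = k (x 0) • 1 - c (x 0) * a := by rw [← h1]; noncomm_ring
    rw [prw_succ, ← mul_assoc, h2, sub_mul, smul_mul_assoc, one_mul, mul_assoc, ih (tl1 x)]
    conv_rhs => rw [Fin.sum_univ_succ]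
    have h3 : x ∘ (0 : Fin (m + 1 + 1)).succAbove = tl1 x := by
      funext i
      rw [Function.comp_apply, Fin.zero_succAbove, tl1]
    have h4 : ∀ i : Fin (m + 1), prw c (x ∘ i.succ.succAbove) =
        c (x 0) * prw c (tl1 x ∘ i.succAbove) := by
      intro i
      rw [prw_succ]
      have e1 : (x ∘ i.succ.succAbove) 0 = x 0 := by
        rw [Function.comp_apply, Fin.succ_succAbove_zero]
      have e2 : tl1 (x ∘ i.succ.succAbove) = tl1 x ∘ i.succAbove := by
        funext j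
        rw [tl1, Function.comp_apply, Fin.succ_succAbove_succ]
        rfl
      rw [e1, e2]
    rw [h3]
    simp only [h4, Fin.val_zero, pow_zero, one_mul, Fin.val_succ, mul_add, Finset.mul_sum]
    have h5 : ∀ i : Fin (m + 1), c (x 0) * (((-1 : ℂ) ^ (i : ℕ) * k (tl1 x i)) •
        prw c (tl1 x ∘ i.succAbove)) = ((-1 : ℂ) ^ (i : ℕ) * k (x i.succ)) •
        (c (x 0) * prw c (tl1 x ∘ i.succAbove)) := by
      intro i
      rw [mul_smul_comm]
      rfl
    simp only [h5]
    have h6 : ∀ i : Fin (m + 1), ((-1 : ℂ) ^ ((i : ℕ) + 1) * k (x i.succ)) •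
        (c (x 0) * prw c (tl1 x ∘ i.succAbove)) = - (((-1 : ℂ) ^ (i : ℕ) * k (x i.succ)) •
        (c (x 0) * prw c (tl1 x ∘ i.succAbove))) := by
      intro i
      rw [← neg_smul]
      congr 1
      ring
    simp only [h6, Finset.sum_neg_distrib]
    rw [mul_smul_comm, ← mul_assoc, pow_succ (-1 : ℂ) (m + 1)]
    module

/-- The data needed for the Wick formula: letters `c`, their parts `p` killed on the right, a state
`φ`, and the two-point function `K`. -/
structure Wick (J A : Type*) [Ring A] [Algebra ℂ A] where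
  c : J → A
  p : J → A
  K : J → J → ℂ
  φ : A →ₗ[ℂ] ℂ
  left : ∀ j X, φ (c j * X) = φ (p j * X)
  right : ∀ j X, φ (X * p j) = 0
  anti : ∀ i j, p i * c j + c j * p i = algebraMap ℂ A (K i j)

variable (W : Wick J A)

/-- The state of a word. -/
def Wick.E (m : ℕ) (x : Fin m → J) : ℂ := W.φ (prw W.c x)

/-- The skew part of the two-point function. -/
noncomputable def Wick.Q (a b : J) : ℂ := (1 / 2 : ℂ) * (W.K a b - W.K b a)

theorem Wick.E_succ (m : ℕ) (x : Fin (m + 2) → J) :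
    W.E (m + 2) x = ∑ i : Fin (m + 1), ((-1 : ℂ) ^ (i : ℕ) * W.K (x 0) (tl1 x i)) *
      W.E m (tl1 x ∘ i.succAbove) := by
  rw [Wick.E, prw_succ, W.left, move W.c (W.p (x 0)) (W.K (x 0)) (W.anti (x 0)) m (tl1 x), map_add,
    map_smul, W.right, smul_zero, add_zero, map_sum]
  exact Finset.sum_congr rfl fun i _ => by rw [map_smul, smul_eq_mul]; rfl

theorem Wick.E_one (x : Fin 1 → J) : W.E 1 x = 0 := by
  rw [Wick.E, prw_succ, prw_zero, W.left, mul_one]
  have := W.right (x 0) 1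
  rwa [one_mul] at this

theorem Wick.E_zero (x : Fin 0 → J) : W.E 0 x = W.φ 1 := by
  rw [Wick.E, prw_zero]

/-- All states are multiples of `φ 1`. -/
theorem Wick.E_eq_zero (h : W.φ 1 = 0) (m : ℕ) (x : Fin m → J) : W.E m x = 0 := by
  induction m using Nat.strong_induction_on with
  | _ m ih =>
    match m, x, ih with
    | 0, x, _ => rw [W.E_zero, h]
    | 1, x, _ => exact W.E_one x
    | m + 2, x, ih =>
      rw [W.E_succ]
      exact Finset.sum_eq_zero fun i _ => by rw [ih m (by omega), mul_zero]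

theorem sgn_cycleRange_symm {m : ℕ} (i : Fin m) : sgn (i.cycleRange.symm) = (-1 : ℂ) ^ (i : ℕ) := by
  rw [sgn, Perm.sign_symm, Fin.sign_cycleRange]
  push_cast
  rfl

/-- The general contraction lemma. -/
theorem sum_contract_eqv {m : ℕ} (f : J → (Fin m → J) → ℂ) :
    Eqv (fun x : Fin (m + 1) → J => ∑ i : Fin (m + 1), (-1 : ℂ) ^ (i : ℕ) *
      f (x i) (x ∘ i.succAbove)) fun x => ((m + 1 : ℕ) : ℂ) * f (x 0) (tl1 x) := by
  have h1 : ∀ i : Fin (m + 1), Eqv (fun x : Fin (m + 1) → J => (-1 : ℂ) ^ (i : ℕ) *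
      f (x i) (x ∘ i.succAbove)) fun x => f (x 0) (tl1 x) := by
    intro i
    have h2 := (Eqv.perm (i.cycleRange.symm) fun x : Fin (m + 1) → J => f (x 0) (tl1 x)).smul
      ((-1 : ℂ) ^ (i : ℕ))
    rw [sgn_cycleRange_symm] at h2
    have h3 : ∀ x : Fin (m + 1) → J, f ((x ∘ i.cycleRange.symm) 0)
        (tl1 (x ∘ i.cycleRange.symm)) = f (x i) (x ∘ i.succAbove) := by
      intro x
      congr 1
      · rw [Function.comp_apply, Fin.cycleRange_symm_zero]
      · funext j
        rw [tl1, Function.comp_apply, Fin.cycleRange_symm_succ]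
        rfl
    simp only [h3] at h2
    refine h2.trans ?_
    intro x
    congr 1
    funext y
    rw [← mul_assoc, ← mul_pow]
    norm_num
  have h4 := Eqv.sum (J := J) Finset.univ (fun i _ => h1 i)
  refine h4.trans ?_
  intro x
  congr 1
  funext y
  rw [Finset.sum_const, nsmul_eq_mul, Finset.card_univ, Fintype.card_fin]

theorem Wick.Q_skew (a b : J) : W.Q a b = - W.Q b a := by
  rw [Wick.Q, Wick.Q]; ring

/-- Only the skew part of the first letter of a pair matters. -/
theorem Wick.pre_K_eqv {m : ℕ} (f : (Fin m → J) → ℂ) : Eqv (pre W.K f) (pre W.Q f) := by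
  let S : J → J → ℂ := fun a b => (1 / 2 : ℂ) * (W.K a b + W.K b a)
  have h1 : W.K = fun a b => W.Q a b + S a b := by
    funext a b
    simp only [Wick.Q, S]
    ring
  rw [h1, pre_add_left]
  have h2 : Eqv (pre S f) fun _ => 0 := pre_symm_eqv S (fun a b => by simp only [S]; ring) f
  have h3 := (Eqv.refl (pre W.Q f)).add h2
  refine h3.trans ?_
  intro x
  congr 1
  funext y
  rw [add_zero]

/-- **Wick formula**, antisymmetrised. -/
theorem Wick.E_eqv (m : ℕ) :
    Eqv (W.E (m + 2)) fun x => ((m + 1 : ℕ) : ℂ) * pre W.Q (W.E m) x := by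
  have h1 : W.E (m + 2) = fun x : Fin (m + 1 + 1) → J =>
      (fun (a : J) (y : Fin (m + 1) → J) => ∑ i : Fin (m + 1), (-1 : ℂ) ^ (i : ℕ) *
        (W.K a (y i) * W.E m (y ∘ i.succAbove))) (x 0) (tl1 x) := by
    funext x
    rw [W.E_succ]
    exact Finset.sum_congr rfl fun i _ => by rw [mul_assoc]
  rw [h1]
  refine (Eqv.cons fun a => sum_contract_eqv fun b y => W.K a b * W.E m y).trans ?_
  exact (W.pre_K_eqv (W.E m)).smul ((m + 1 : ℕ) : ℂ)

/-- The functions generated by the states of words by prefixing pairs. -/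
inductive Gen (P : J → J → ℂ) (F : (m : ℕ) → (Fin m → J) → ℂ) :
    (t m : ℕ) → ((Fin m → J) → ℂ) → Prop
  | base (m : ℕ) : Gen P F 0 m (F m)
  | pair (t m : ℕ) (f : (Fin m → J) → ℂ) (hf : Gen P F t m f) :
      Gen P F (t + 1) (m + 2) (pre P f)

/-- combinations of generated functions, up to equivalence -/
def InU (P : J → J → ℂ) (F : (m : ℕ) → (Fin m → J) → ℂ) {m : ℕ} (f : (Fin m → J) → ℂ) : Prop :=
  ∃ g ∈ Submodule.span ℂ {g | ∃ t, Gen P F t m g}, Eqv f g

section InU

variable {P : J → J → ℂ} {F : (m : ℕ) → (Fin m → J) → ℂ}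

theorem InU.of_eqv {m : ℕ} {f g : (Fin m → J) → ℂ} (h : Eqv f g) (hg : InU P F g) : InU P F f := by
  obtain ⟨k, hk, e⟩ := hg
  exact ⟨k, hk, h.trans e⟩

theorem InU.gen {t m : ℕ} {f : (Fin m → J) → ℂ} (h : Gen P F t m f) : InU P F f :=
  ⟨f, Submodule.subset_span ⟨t, h⟩, Eqv.refl f⟩

theorem InU.add {m : ℕ} {f g : (Fin m → J) → ℂ} (hf : InU P F f) (hg : InU P F g) :
    InU P F fun x => f x + g x := by
  obtain ⟨f', hf', e⟩ := hf
  obtain ⟨g', hg', e'⟩ := hg
  exact ⟨f' + g', Submodule.add_mem _ hf' hg', e.add e'⟩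

theorem InU.smul {m : ℕ} {f : (Fin m → J) → ℂ} (c : ℂ) (hf : InU P F f) :
    InU P F fun x => c * f x := by
  obtain ⟨f', hf', e⟩ := hf
  exact ⟨c • f', Submodule.smul_mem _ c hf', e.smul c⟩

theorem InU.zero {m : ℕ} : InU P F (fun _ : Fin m → J => 0) :=
  ⟨0, Submodule.zero_mem _, Eqv.refl _⟩

/-- a linear operation which respects equivalence and maps generated functions to combinations of
generated functions -/
theorem InU.map {P' : J → J → ℂ} {F' : (m : ℕ) → (Fin m → J) → ℂ} {m m' : ℕ}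
    (T : ((Fin m → J) → ℂ) →ₗ[ℂ] ((Fin m' → J) → ℂ))
    (hT : ∀ f g, Eqv f g → Eqv (T f) (T g))
    (hgen : ∀ t g, Gen P F t m g → InU P' F' (T g)) {f : (Fin m → J) → ℂ} (hf : InU P F f) :
    InU P' F' (T f) := by
  obtain ⟨g, hg, e⟩ := hf
  refine InU.of_eqv (hT f g e) ?_
  clear e
  induction hg using Submodule.span_induction with
  | mem g hg =>
    obtain ⟨t, hg⟩ := hg
    exact hgen t g hg
  | zero => rw [map_zero]; exact InU.zero
  | add a b _ _ ha hb => rw [map_add]; exact ha.add hb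
  | smul c a _ ha => rw [map_smul]; exact ha.smul c

/-- prefixing, as a linear map -/
def preL (P : J → J → ℂ) (m : ℕ) : ((Fin m → J) → ℂ) →ₗ[ℂ] ((Fin (m + 2) → J) → ℂ) where
  toFun f := pre P f
  map_add' f g := by
    funext x
    simp only [pre, Pi.add_apply, mul_add]
  map_smul' c f := by
    funext x
    simp only [pre, Pi.smul_apply, smul_eq_mul, RingHom.id_apply]
    ring

theorem InU.pre {m : ℕ} {f : (Fin m → J) → ℂ} (hf : InU P F f) : InU P F (pre P f) :=
  InU.map (preL P m) (fun _ _ h => h.pre P)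
    (fun t g hg => InU.gen (Gen.pair t m g hg)) hf

/-- If `Q ⊗ F m` is a multiple of `F (m + 2)`, the class is stable under prefixing `Q`. -/
theorem InU.preQ {Q : J → J → ℂ} (hQ : ∀ m, ∃ c : ℂ, Eqv (H338.pre Q (F m)) fun x => c * F (m + 2) x)
    {m : ℕ} {f : (Fin m → J) → ℂ} (hf : InU P F f) : InU P F (H338.pre Q f) := by
  refine InU.map (preL Q m) (fun _ _ h => h.pre Q) ?_ hf
  intro t g hg
  show InU P F (H338.pre Q g)
  induction hg with
  | base m =>
    obtain ⟨c, hc⟩ := hQ m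
    exact InU.of_eqv hc ((InU.gen (Gen.base (m + 2))).smul c)
  | pair t m g hg ih =>
    exact InU.of_eqv (pre_pre_eqv Q P g) (InU.pre (ih ⟨g, Submodule.subset_span ⟨t, hg⟩,
      Eqv.refl g⟩))

theorem InU.exists_ne {m : ℕ} {f : (Fin m → J) → ℂ} (hf : InU P F f) {x : Fin m → J}
    (hx : alt f x ≠ 0) : ∃ t g, Gen P F t m g ∧ alt g x ≠ 0 := by
  by_contra hcon
  push Not at hcon
  obtain ⟨g, hg, e⟩ := hf
  apply hx
  rw [e x]
  clear e
  induction hg using Submodule.span_induction with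
  | mem g hg =>
    obtain ⟨t, hg⟩ := hg
    exact hcon t g hg
  | zero => simp [alt]
  | add a b _ _ ha hb =>
    have := alt_add a b x
    rw [ha, hb, add_zero] at this
    exact this
  | smul c a _ ha =>
    have := alt_smul c a x
    rw [ha, mul_zero] at this
    exact this

end InU

/-- products over pairs -/
def prp (M : J → J → ℂ) (F0 : ℂ) : (k : ℕ) → (Fin (2 * k) → J) → ℂ
  | 0, _ => F0
  | k + 1, x => pre M (prp M F0 k) x

theorem Wick.E_preQ (m : ℕ) : ∃ c : ℂ, Eqv (pre W.Q (W.E m)) fun x => c * W.E (m + 2) x := by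
  refine ⟨((m + 1 : ℕ) : ℂ)⁻¹, ?_⟩
  have h1 := ((W.E_eqv m).smul (((m + 1 : ℕ) : ℂ)⁻¹)).symm
  refine Eqv.trans ?_ h1
  intro x
  congr 1
  funext y
  rw [← mul_assoc, inv_mul_cancel₀ (Nat.cast_ne_zero.mpr (Nat.succ_ne_zero m)), one_mul]

/-- The even case. -/
theorem Wick.inU_even (P : J → J → ℂ) (k : ℕ) :
    InU P W.E (prp (fun a b => P a b + W.Q a b) (W.φ 1) k) := by
  induction k with
  | zero =>
    have h : prp (fun a b => P a b + W.Q a b) (W.φ 1) 0 = W.E 0 := by
      funext x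
      rw [W.E_zero]
      rfl
    rw [h]
    exact InU.gen (Gen.base 0)
  | succ k ih =>
    have h : prp (fun a b => P a b + W.Q a b) (W.φ 1) (k + 1) =
        fun x => pre P (prp (fun a b => P a b + W.Q a b) (W.φ 1) k) x +
          pre W.Q (prp (fun a b => P a b + W.Q a b) (W.φ 1) k) x := by
      rw [← pre_add_left]
      rfl
    rw [h]
    exact ih.pre.add (ih.preQ W.E_preQ)

/-! ### the odd case -/

/-- Data for the odd case: an element `u` killed on the left. -/
structure WickOdd (J A : Type*) [Ring A] [Algebra ℂ A] extends Wick J A where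
  u : A
  b : J → ℂ
  uleft : ∀ X, φ (u * X) = 0
  uanti : ∀ j, u * c j + c j * u = algebraMap ℂ A (b j)

variable (V : WickOdd J A)

/-- The state of a word followed by `u`. -/
def WickOdd.E' (m : ℕ) (x : Fin m → J) : ℂ := V.φ (prw V.c x * V.u)

/-- prefixing a letter -/
def pre1 (b : J → ℂ) {m : ℕ} (f : (Fin m → J) → ℂ) (x : Fin (m + 1) → J) : ℂ :=
  b (x 0) * f (tl1 x)

theorem Eqv.pre1 (b : J → ℂ) {m : ℕ} {f g : (Fin m → J) → ℂ} (h : Eqv f g) :
    Eqv (H338.pre1 b f) (H338.pre1 b g) :=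
  Eqv.cons (J := J) (f := fun a y => b a * f y) (g := fun a y => b a * g y) fun a => h.smul (b a)

theorem WickOdd.E'_eqv (m : ℕ) (hm : Even m) :
    Eqv (V.E' (m + 1)) fun x => ((m + 1 : ℕ) : ℂ) * pre1 V.b (V.toWick.E m) x := by
  have h1 : V.E' (m + 1) = fun x : Fin (m + 1) → J => ∑ i : Fin (m + 1), (-1 : ℂ) ^ (i : ℕ) *
      (fun (a : J) (y : Fin m → J) => V.b a * V.toWick.E m y) (x i) (x ∘ i.succAbove) := by
    funext x
    have h2 := congrArg V.φ (move V.c V.u V.b V.uanti m x)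
    rw [V.uleft, map_add, map_smul, map_sum, hm.add_one.neg_one_pow] at h2
    have h3 : V.E' (m + 1) x = V.φ (prw V.c x * V.u) := rfl
    rw [h3]
    have h4 : V.φ (prw V.c x * V.u) = ∑ i : Fin (m + 1),
        V.φ (((-1 : ℂ) ^ (i : ℕ) * V.b (x i)) • prw V.c (x ∘ i.succAbove)) := by
      rw [neg_smul, one_smul] at h2
      linear_combination h2
    rw [h4]
    refine Finset.sum_congr rfl fun i _ => ?_
    rw [map_smul, smul_eq_mul, mul_assoc]
    rfl
  rw [h1]
  exact sum_contract_eqv (fun (a : J) (y : Fin m → J) => V.b a * V.toWick.E m y)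

/-- A letter and a pair commute. -/
theorem pre1_pre_eqv (b : J → ℂ) (P : J → J → ℂ) {m : ℕ} (f : (Fin m → J) → ℂ) :
    Eqv (pre1 b (pre P f)) (pre P (pre1 b f)) := by
  intro x
  let a0 : Fin (m + 2 + 1) := ⟨0, by omega⟩
  let a1 : Fin (m + 2 + 1) := ⟨1, by omega⟩
  let a2 : Fin (m + 2 + 1) := ⟨2, by omega⟩
  have n01 : a0 ≠ a1 := fun h => by simpa [a0, a1] using congrArg Fin.val h
  have n02 : a0 ≠ a2 := fun h => by simpa [a0, a2] using congrArg Fin.val h
  have n12 : a1 ≠ a2 := fun h => by simpa [a1, a2] using congrArg Fin.val h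
  -- `a0 ↦ a1 ↦ a2 ↦ a0`
  let τ : Perm (Fin (m + 2 + 1)) := Equiv.swap a0 a1 * Equiv.swap a1 a2
  have t0 : τ a0 = a1 := by
    show Equiv.swap a0 a1 (Equiv.swap a1 a2 a0) = a1
    rw [Equiv.swap_apply_of_ne_of_ne n01 n02, Equiv.swap_apply_left]
  have t1 : τ a1 = a2 := by
    show Equiv.swap a0 a1 (Equiv.swap a1 a2 a1) = a2
    rw [Equiv.swap_apply_left, Equiv.swap_apply_of_ne_of_ne n02.symm n12.symm]
  have t2 : τ a2 = a0 := by
    show Equiv.swap a0 a1 (Equiv.swap a1 a2 a2) = a0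
    rw [Equiv.swap_apply_right, Equiv.swap_apply_right]
  have t4 : ∀ i : Fin m, τ i.succ.succ.succ = i.succ.succ.succ := by
    intro i
    have hv : (i.succ.succ.succ : Fin (m + 2 + 1)).val = i.val + 3 := rfl
    have k0 : (i.succ.succ.succ : Fin (m + 2 + 1)) ≠ a0 := fun h => by
      have := congrArg Fin.val h; rw [hv] at this; simp [a0] at this
    have k1 : (i.succ.succ.succ : Fin (m + 2 + 1)) ≠ a1 := fun h => by
      have := congrArg Fin.val h; rw [hv] at this; simp [a1] at this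
    have k2 : (i.succ.succ.succ : Fin (m + 2 + 1)) ≠ a2 := fun h => by
      have := congrArg Fin.val h; rw [hv] at this; simp [a2] at this
    rw [Perm.mul_apply, Equiv.swap_apply_of_ne_of_ne k1 k2, Equiv.swap_apply_of_ne_of_ne k0 k1]
  have hs : sgn τ = 1 := by
    rw [sgn_mul, sgn, sgn, Perm.sign_swap n01, Perm.sign_swap n12]
    simp
  have h1 := Eqv.perm τ (pre1 b (pre P f)) x
  rw [hs] at h1
  simp only [one_mul] at h1
  rw [← h1]
  have e4 : ∀ y : Fin (m + 2 + 1) → J, tl2 (tl1 (y ∘ τ)) = tl1 (tl2 y) := by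
    intro y
    funext i
    exact congrArg y (t4 i)
  -- `(y ∘ τ) = (y a1, y a2, y a0, ...)`, so we need the inverse direction
  have h5 : (fun y : Fin (m + 2 + 1) → J => pre1 b (pre P f) (y ∘ τ)) =
      fun y => b (y a1) * (P (y a2) (y a0) * f (tl1 (tl2 y))) := by
    funext y
    have q0 : (y ∘ τ) 0 = y a1 := congrArg y t0
    have q1 : tl1 (y ∘ τ) 0 = y a2 := congrArg y t1
    have q2 : tl1 (y ∘ τ) 1 = y a0 := congrArg y t2
    simp only [pre1, pre]
    rw [e4, q0, q1, q2]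
  rw [h5]
  have h6 := Eqv.perm τ (fun y : Fin (m + 2 + 1) → J => b (y a1) * (P (y a2) (y a0) *
    f (tl1 (tl2 y)))) x
  rw [hs] at h6
  simp only [one_mul] at h6
  rw [← h6]
  congr 1
  funext y
  have q0 : (y ∘ τ) a1 = y a2 := congrArg y t1
  have q1 : (y ∘ τ) a2 = y a0 := congrArg y t2
  have q2 : (y ∘ τ) a0 = y a1 := congrArg y t0
  have e5 : tl1 (tl2 (y ∘ τ)) = tl1 (tl2 y) := e4 y
  rw [q0, q1, q2, e5]
  show b (y a2) * (P (y a0) (y a1) * f (tl1 (tl2 y))) = P (y 0) (y 1) * (b (tl2 y 0) * f (tl1 (tl2 y)))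
  have r0 : y 0 = y a0 := rfl
  have r1 : y 1 = y a1 := rfl
  have r2 : tl2 y 0 = y a2 := rfl
  rw [r0, r1, r2]
  ring

/-- prefixing a letter, as a linear map -/
def pre1L (b : J → ℂ) (m : ℕ) : ((Fin m → J) → ℂ) →ₗ[ℂ] ((Fin (m + 1) → J) → ℂ) where
  toFun f := pre1 b f
  map_add' f g := by
    funext x
    simp only [pre1, Pi.add_apply, mul_add]
  map_smul' c f := by
    funext x
    simp only [pre1, Pi.smul_apply, smul_eq_mul, RingHom.id_apply]
    ring

/-- The odd case. -/
theorem WickOdd.inU_odd (P : J → J → ℂ) (k : ℕ) :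
    InU P V.E' (pre1 V.b (prp (fun a b => P a b + V.toWick.Q a b) (V.φ 1) k)) := by
  refine InU.map (P := P) (F := V.toWick.E) (pre1L V.b (2 * k)) (fun _ _ h => h.pre1 V.b) ?_
    (V.toWick.inU_even P k)
  have aux : ∀ t m g, Gen P V.toWick.E t m g → Even m → InU P V.E' (pre1 V.b g) := by
    intro t m g hg hev
    induction hg with
    | base m =>
      refine InU.of_eqv (g := fun x => ((m + 1 : ℕ) : ℂ)⁻¹ * V.E' (m + 1) x) ?_
        ((InU.gen (Gen.base (m + 1))).smul _)
      refine Eqv.trans ?_ ((V.E'_eqv m hev).smul (((m + 1 : ℕ) : ℂ)⁻¹)).symm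
      intro x
      congr 1
      funext y
      rw [← mul_assoc, inv_mul_cancel₀ (Nat.cast_ne_zero.mpr (Nat.succ_ne_zero m)), one_mul]
    | pair t m g hg ih =>
      exact InU.of_eqv (pre1_pre_eqv V.b P g) (InU.pre (ih (by
        rw [Nat.even_add] at hev
        exact hev.mpr (by decide))))
  exact fun t g hg => aux t _ g hg (even_two_mul k)

end Vale.Agent.P182.H338
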