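import Vale.Agent.P182.H163.Pfaff
import Vale.Agent.P182.H338.Wick
import Mathlib.Logic.Equiv.Fin.Basic

/-!
# Nonvanishing of antisymmetrised products: even and bordered case
-/

namespace Vale.Agent.P182.H338

open Equiv

variable {J : Type*}

theorem alt_comp' {m : ℕ} (f : (Fin m → J) → ℂ) (x : Fin m → J)
    (ρ : Perm (Fin m)) : alt f (x ∘ ρ) = sgn ρ * alt f x := by
  rw [alt, alt, Finset.mul_sum]
  refine Fintype.sum_equiv (Equiv.mulLeft ρ) _ _ fun σ => ?_
  rw [Equiv.coe_mulLeft, sgn_mul]
  have : x ∘ ⇑(ρ * σ) = (x ∘ ρ) ∘ σ := rfl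
  rw [this]
  linear_combination (-(sgn σ * f ((x ∘ ⇑ρ) ∘ ⇑σ))) * sgn_sq ρ

/-- `(i, false) ↦ 2 i`, `(i, true) ↦ 2 i + 1`. -/
def iot (k : ℕ) : Fin k × Bool ≃ Fin (2 * k) :=
  ((Equiv.refl (Fin k)).prodCongr finTwoEquiv.symm).trans
    (finProdFinEquiv.trans (finCongr (mul_comm k 2)))

theorem iot_false {k : ℕ} (i : Fin k) : (iot k (i, false) : ℕ) = 2 * i := by
  simp [iot, finProdFinEquiv, finTwoEquiv]

theorem iot_true {k : ℕ} (i : Fin k) : (iot k (i, true) : ℕ) = 2 * i + 1 := by
  simp [iot, finProdFinEquiv, finTwoEquiv]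
  ring

theorem prp_eq (M : J → J → ℂ) (k : ℕ) (x : Fin (2 * k) → J) :
    prp M 1 k x = ∏ i : Fin k, M (x (iot k (i, false))) (x (iot k (i, true))) := by
  induction k with
  | zero =>
    rw [Fin.prod_univ_zero]
    rfl
  | succ k ih =>
    rw [Fin.prod_univ_succ]
    show M (x 0) (x 1) * prp M 1 k (tl2 x) = _
    rw [ih (tl2 x)]
    have e0 : iot (k + 1) (0, false) = (0 : Fin (2 * k + 2)) := by
      apply Fin.ext
      rw [iot_false]
      rfl
    have e1 : iot (k + 1) (0, true) = (1 : Fin (2 * k + 2)) := by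
      apply Fin.ext
      rw [iot_true]
      rfl
    have e2 : ∀ i : Fin k, iot (k + 1) (i.succ, false) = (iot k (i, false)).succ.succ := by
      intro i
      apply Fin.ext
      rw [iot_false, Fin.val_succ, Fin.val_succ, Fin.val_succ, iot_false]
      ring
    have e3 : ∀ i : Fin k, iot (k + 1) (i.succ, true) = (iot k (i, true)).succ.succ := by
      intro i
      apply Fin.ext
      rw [iot_true, Fin.val_succ, Fin.val_succ, Fin.val_succ, iot_true]
      ring
    rw [e0, e1]
    refine congrArg (fun r => M (x 0) (x 1) * r) (Finset.prod_congr rfl fun i _ => ?_)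
    rw [e2, e3]
    rfl

theorem prp_smul (M : J → J → ℂ) (c : ℂ) (k : ℕ) (x : Fin (2 * k) → J) :
    prp M c k x = c * prp M 1 k x := by
  induction k with
  | zero => show c = c * 1; rw [mul_one]
  | succ k ih =>
    show M (x 0) (x 1) * prp M c k (tl2 x) = c * (M (x 0) (x 1) * prp M 1 k (tl2 x))
    rw [ih (tl2 x)]
    ring

/-- **Even case.** -/
theorem exists_alt_ne [Fintype J] [DecidableEq J] (M : J → J → ℂ) (hM : ∀ i j, M i j = - M j i)
    (hdet : (Matrix.of M).det ≠ 0) :
    ∃ (k : ℕ) (y : Fin (2 * k) ≃ J), alt (prp M 1 k) y ≠ 0 := by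
  obtain ⟨k, e, hk⟩ := pf_ne_zero (Matrix.of M) hM hdet
  refine ⟨k, (iot k).symm.trans e, ?_⟩
  intro h0
  apply hk
  rw [← h0, alt]
  refine Fintype.sum_equiv (iot k).permCongr _ _ fun σ => ?_
  rw [sgn, Perm.sign_permCongr, prp_eq]
  congr 1
  refine Finset.prod_congr rfl fun i _ => ?_
  simp only [Function.comp_apply, Equiv.trans_apply, Equiv.permCongr_apply,
    Equiv.symm_apply_apply]
  rfl

/-- indicator of `none` -/
def dN (a : Option J) : ℂ := match a with
  | none => 1
  | some _ => 0

theorem pos_eqv (M : Option J → Option J → ℂ) (hM : ∀ i j, M i j = - M j i) (c : ℂ) (k : ℕ) :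
    ∀ p : Fin (2 * (k + 1)), Eqv (fun x => dN (x p) * prp M c (k + 1) x)
      (fun x => dN (x 0) * prp M c (k + 1) x) := by
  -- first or second position
  have key : ∀ {m : ℕ} (g : (Fin m → Option J) → ℂ),
      Eqv (fun x : Fin (m + 2) → Option J => dN (x 1) * (M (x 0) (x 1) * g (tl2 x)))
        (fun x => dN (x 0) * (M (x 0) (x 1) * g (tl2 x))) := by
    intro m g
    let P : Option J → Option J → ℂ := fun a b => (dN b - dN a) * M a b
    have hP : ∀ a b, P a b = P b a := by
      intro a b
      simp only [P]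
      rw [hM a b]
      ring
    have h1 := (pre_symm_eqv P hP g).add (Eqv.refl
      (fun x : Fin (m + 2) → Option J => dN (x 0) * (M (x 0) (x 1) * g (tl2 x))))
    intro x
    have h2 := h1 x
    have h3 : (fun x : Fin (m + 2) → Option J => pre P g x +
        dN (x 0) * (M (x 0) (x 1) * g (tl2 x))) =
        fun x => dN (x 1) * (M (x 0) (x 1) * g (tl2 x)) := by
      funext x
      simp only [pre, P]
      ring
    rw [h3] at h2
    rw [h2]
    congr 1
    funext y
    rw [zero_add]
  induction k with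
  | zero =>
    intro p
    have hp : p = (0 : Fin (0 + 2)) ∨ p = (1 : Fin (0 + 2)) := by
      rcases p with ⟨p, hp⟩
      have : p = 0 ∨ p = 1 := by omega
      rcases this with rfl | rfl
      · left; rfl
      · right; rfl
    rcases hp with rfl | rfl
    · exact Eqv.refl _
    · exact key (m := 0) (prp M c 0)
  | succ k ih =>
    intro p
    by_cases hp0 : (p : ℕ) = 0
    · have : p = (0 : Fin (2 * (k + 1) + 2)) := Fin.ext hp0
      rw [this]
      exact Eqv.refl _
    by_cases hp1 : (p : ℕ) = 1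
    · have : p = (1 : Fin (2 * (k + 1) + 2)) := Fin.ext hp1
      rw [this]
      exact key (m := 2 * (k + 1)) (prp M c (k + 1))
    · obtain ⟨q, rfl⟩ : ∃ q : Fin (2 * (k + 1)), p = q.succ.succ := by
        have hp := p.2
        refine ⟨⟨(p : ℕ) - 2, by omega⟩, Fin.ext ?_⟩
        show (p : ℕ) = (p : ℕ) - 2 + 1 + 1
        omega
      have h1 : (fun x : Fin (2 * (k + 1) + 2) → Option J =>
          dN (x q.succ.succ) * prp M c (k + 1 + 1) x) =
          pre M (fun y => dN (y q) * prp M c (k + 1) y) := by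
        funext x
        show dN (x q.succ.succ) * (M (x 0) (x 1) * prp M c (k + 1) (tl2 x)) =
          M (x 0) (x 1) * (dN (x q.succ.succ) * prp M c (k + 1) (tl2 x))
        ring
      have h2 := (ih q).pre M
      have h3 : (fun y : Fin (2 * k + 2) → Option J => dN (y 0) * prp M c (k + 1) y) =
          pre (fun a b => dN a * M a b) (prp M c k) := by
        funext y
        show dN (y 0) * (M (y 0) (y 1) * prp M c k (tl2 y)) =
          dN (y 0) * M (y 0) (y 1) * prp M c k (tl2 y)
        ring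
      have h4 : (fun x : Fin (2 * (k + 1) + 2) → Option J => dN (x 0) * prp M c (k + 1 + 1) x) =
          pre (fun a b => dN a * M a b) (pre M (prp M c k)) := by
        funext x
        show dN (x 0) * (M (x 0) (x 1) * prp M c (k + 1) (tl2 x)) =
          dN (x 0) * M (x 0) (x 1) * prp M c (k + 1) (tl2 x)
        ring
      change Eqv (fun x : Fin (2 * (k + 1) + 2) → Option J =>
          dN (x q.succ.succ) * prp M c (k + 1 + 1) x)
        (fun x : Fin (2 * (k + 1) + 2) → Option J => dN (x 0) * prp M c (k + 1 + 1) x)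
      rw [h1, h4]
      refine h2.trans ?_
      change Eqv (pre M (fun y : Fin (2 * k + 2) → Option J => dN (y 0) * prp M c (k + 1) y)) _
      rw [h3]
      exact pre_pre_eqv M _ (prp M c k)

/-- The bordered matrix. -/
def bord (M : J → J → ℂ) (b : J → ℂ) : Option J → Option J → ℂ :=
  fun p q => match p, q with
    | none, none => 0
    | none, some j => b j
    | some i, none => - b i
    | some i, some j => M i j

theorem bord_skew (M : J → J → ℂ) (hM : ∀ i j, M i j = - M j i) (b : J → ℂ)
    (p q : Option J) : bord M b p q = - bord M b q p := by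
  rcases p with _ | i <;> rcases q with _ | j
  · show (0 : ℂ) = - 0; rw [neg_zero]
  · show b j = - - b j; rw [neg_neg]
  · rfl
  · exact hM i j

theorem prp_some (M : J → J → ℂ) (b : J → ℂ) (k : ℕ) (x : Fin (2 * k) → J) :
    prp (bord M b) 1 k (fun i => some (x i)) = prp M 1 k x := by
  induction k with
  | zero => rfl
  | succ k ih =>
    show bord M b (some (x 0)) (some (x 1)) * prp (bord M b) 1 k (fun i => some (tl2 x i)) =
      M (x 0) (x 1) * prp M 1 k (tl2 x)
    rw [ih (tl2 x)]
    rfl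

/-- **Bordered case.** -/
theorem exists_alt_ne_bord [Fintype J] [DecidableEq J] (M : J → J → ℂ)
    (hM : ∀ i j, M i j = - M j i) (b : J → ℂ) (hdet : (Matrix.of (bord M b)).det ≠ 0) :
    ∃ (k : ℕ) (y : Fin (2 * k + 1) ≃ J), alt (pre1 b (prp M 1 k)) y ≠ 0 := by
  obtain ⟨k', y', hy'⟩ := exists_alt_ne (bord M b) (bord_skew M hM b) hdet
  obtain ⟨k, rfl⟩ : ∃ k, k' = k + 1 := by
    rcases k' with _ | k
    · exact (y'.symm none).elim0
    · exact ⟨k, rfl⟩
  -- move `none` to the first position
  obtain ⟨z, hz0, hz⟩ : ∃ z : Fin (2 * k + 1 + 1) ≃ Option J, z 0 = none ∧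
      alt (prp (bord M b) 1 (k + 1)) z ≠ 0 := by
    let ρ : Perm (Fin (2 * k + 1 + 1)) := Equiv.swap 0 (y'.symm none)
    refine ⟨ρ.trans y', ?_, ?_⟩
    · show y' (Equiv.swap 0 (y'.symm none) 0) = none
      rw [Equiv.swap_apply_left, Equiv.apply_symm_apply]
    · have h1 := alt_comp' (prp (bord M b) 1 (k + 1)) y' ρ
      have h2 : (⇑(ρ.trans y') : Fin (2 * k + 1 + 1) → Option J) = y' ∘ ρ := rfl
      rw [h2]
      intro h0
      apply hy'
      have h3 := sgn_sq ρ
      have h4 : sgn ρ * alt (prp (bord M b) 1 (k + 1)) y' = 0 := h1.symm.trans h0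
      have h5 : alt (prp (bord M b) 1 (k + 1)) y' =
          sgn ρ * (sgn ρ * alt (prp (bord M b) 1 (k + 1)) y') := by
        rw [← mul_assoc, h3, one_mul]
      rw [h5, h4, mul_zero]
  -- the ordering of `J`
  have hsome : ∀ i : Fin (2 * k + 1), ∃ j, z i.succ = some j := by
    intro i
    rcases hzi : z i.succ with _ | j
    · exfalso
      rw [← hz0] at hzi
      exact Fin.succ_ne_zero i (z.injective hzi)
    · exact ⟨j, rfl⟩
  choose y hy using hsome
  have hbij : Function.Bijective y := by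
    constructor
    · intro i j h
      have h1 : z i.succ = z j.succ := by rw [hy, hy, h]
      exact Fin.succ_injective _ (z.injective h1)
    · intro j
      have h1 := z.apply_symm_apply (some j)
      have h2 : z.symm (some j) ≠ 0 := by
        intro h
        rw [h, hz0] at h1
        exact absurd h1 (by simp)
      obtain ⟨i, hi⟩ := Fin.exists_succ_eq.mpr h2
      refine ⟨i, ?_⟩
      rw [← hi, hy] at h1
      exact Option.some.inj h1
  refine ⟨k, Equiv.ofBijective y hbij, ?_⟩
  intro h0
  apply hz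
  -- sum over the position of `none`
  have h1 : alt (prp (bord M b) 1 (k + 1)) z =
      ∑ p : Fin (2 * (k + 1)), alt (fun x => dN (x p) * prp (bord M b) 1 (k + 1) x) z := by
    have h2 : alt (prp (bord M b) 1 (k + 1)) z = alt (fun x => ∑ p : Fin (2 * (k + 1)),
        dN (x p) * prp (bord M b) 1 (k + 1) x) z := by
      rw [alt, alt]
      refine Finset.sum_congr rfl fun σ _ => ?_
      congr 1
      rw [← Finset.sum_mul]
      have h3 : ∑ p : Fin (2 * (k + 1)), dN ((z ∘ σ) p) = 1 := by
        rw [Finset.sum_eq_single (σ.symm (0 : Fin (2 * k + 1 + 1)))]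
        · have : (z ∘ σ) (σ.symm (0 : Fin (2 * k + 1 + 1))) = none := by
            rw [Function.comp_apply, Equiv.apply_symm_apply, hz0]
          rw [this]
          rfl
        · intro p _ hp
          have h4 : σ p ≠ (0 : Fin (2 * k + 1 + 1)) := by
            intro h
            apply hp
            rw [← h, Equiv.symm_apply_apply]
          obtain ⟨i, hi⟩ := Fin.exists_succ_eq.mpr h4
          have : (z ∘ σ) p = some (y i) := by
            rw [Function.comp_apply, ← hi, hy]
          rw [this]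
          rfl
        · intro h
          exact absurd (Finset.mem_univ _) h
      rw [h3, one_mul]
    rw [h2, alt_sum]
  rw [h1]
  refine Finset.sum_eq_zero fun p _ => ?_
  rw [pos_eqv (bord M b) (bord_skew M hM b) 1 k p z]
  -- only permutations fixing `0` contribute
  rw [← h0, alt, alt]
  refine (Equiv.sum_comp (Perm.decomposeFin (n := 2 * k + 1)).symm
    (fun σ : Perm (Fin (2 * k + 1 + 1)) => sgn σ *
      (dN ((z ∘ σ) 0) * prp (bord M b) 1 (k + 1) (z ∘ σ)))).symm.trans ?_
  rw [Fintype.sum_prod_type, Finset.sum_eq_single 0]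
  · refine Finset.sum_congr rfl fun τ _ => ?_
    have e1 : sgn (Perm.decomposeFin.symm ((0 : Fin (2 * k + 1 + 1)), τ)) = sgn τ := sgn_ext0 τ
    have e2 : (⇑z ∘ ⇑(Perm.decomposeFin.symm ((0 : Fin (2 * k + 1 + 1)), τ))) = z ∘ ext0 τ := rfl
    rw [e1, e2]
    congr 1
    have e3 : (z ∘ ext0 τ) 0 = none := by
      rw [Function.comp_apply, ext0_zero, hz0]
    have e4 : ∀ i : Fin (2 * k + 1), (z ∘ ext0 τ) i.succ = some (y (τ i)) := by
      intro i
      rw [Function.comp_apply, ext0_succ, hy]
    have e5 : tl2 (m := 2 * k) (z ∘ ext0 τ) = fun i => some (tl1 (y ∘ τ) i) := by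
      funext i
      exact e4 i.succ
    show dN ((z ∘ ext0 τ) 0) * (bord M b ((z ∘ ext0 τ) 0) ((z ∘ ext0 τ) 1) *
      prp (bord M b) 1 k (tl2 (m := 2 * k) (z ∘ ext0 τ))) =
      b ((y ∘ τ) 0) * prp M 1 k (tl1 (y ∘ τ))
    have e6 : (z ∘ ext0 τ) 1 = some (y (τ 0)) := e4 0
    rw [e3, e6, e5, prp_some]
    show 1 * (b (y (τ 0)) * _) = _
    rw [one_mul]
    rfl
  · intro q _ hq
    refine Finset.sum_eq_zero fun τ _ => ?_
    obtain ⟨i, hi⟩ := Fin.exists_succ_eq.mpr hq
    have e3 : (z ∘ (Perm.decomposeFin.symm (q, τ))) 0 = some (y i) := by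
      rw [Function.comp_apply, Perm.decomposeFin_symm_apply_zero, ← hi, hy]
    have e4 : dN ((z ∘ (Perm.decomposeFin.symm (q, τ))) 0) = 0 := by rw [e3]; rfl
    show sgn _ * (dN ((z ∘ (Perm.decomposeFin.symm (q, τ))) 0) * _) = 0
    rw [e4, zero_mul, mul_zero]
  · intro h
    exact absurd (Finset.mem_univ _) h

end Vale.Agent.P182.H338
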