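import Vale.Agent.P182.H338.Core
import Vale.Agent.P182.H338.Pf2

/-!
# Nondegenerate (bordered) spin Gram matrices give invariants
-/

namespace Vale.Agent.P182.H338

open scoped InnerProductSpace ComplexConjugate TensorProduct
open LieAlgebra.Orthogonal

attribute [local instance 100] LieRing.ofAssociativeRing

variable {n : ℕ}

/-- The state attached to two spinors. -/
noncomputable def stt (s₀ s₁ : Fock n) : Module.End ℂ (Fock n) →ₗ[ℂ] ℂ :=
  (BF n s₀).comp (LinearMap.applyₗ s₁)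

theorem stt_apply (s₀ s₁ : Fock n) (X : Module.End ℂ (Fock n)) :
    stt s₀ s₁ X = BF n s₀ (X s₁) := rfl

/-- Wick data from two spinors and a decomposition. -/
noncomputable def mkWick {J : Type*} (w : J → Vec n) (ω : J → ℂ) (s₀ s₁ : Fock n)
    (P : Vec n → Vec n) (h₀ : ∀ v, gam (v - P v) s₀ = 0) (h₁ : ∀ v, gam (P v) s₁ = 0) :
    Wick J (Module.End ℂ (Fock n)) where
  c j := ω j • gam (w j)
  p j := ω j • gam (P (w j))
  K i j := ω i * ω j * qf (P (w i)) (w j)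
  φ := stt s₀ s₁
  left := by
    intro j X
    rw [stt_apply, stt_apply, smul_mul_assoc, smul_mul_assoc, LinearMap.smul_apply,
      LinearMap.smul_apply, map_smul, map_smul, Module.End.mul_apply, Module.End.mul_apply,
      ← BF_gam, ← BF_gam]
    congr 2
    have := h₀ (w j)
    rw [gam_sub, LinearMap.sub_apply, sub_eq_zero] at this
    rw [this]
  right := by
    intro j X
    rw [stt_apply, mul_smul_comm, LinearMap.smul_apply, Module.End.mul_apply, h₁, map_zero,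
      smul_zero, map_zero]
  anti := by
    intro i j
    rw [smul_mul_smul_comm, smul_mul_smul_comm, mul_comm (ω j) (ω i), ← smul_add, gam_anti,
      Algebra.algebraMap_eq_smul_one, Algebra.algebraMap_eq_smul_one, smul_smul]

/-- A vector is cyclic for Clifford multiplication. -/
def Cyc (s : Fock n) : Prop :=
  ∀ N : Submodule ℂ (Fock n), (∀ v : Vec n, ∀ f ∈ N, gam v f ∈ N) → s ∈ N → N = ⊤

theorem Lift.cyc {g : Matrix (Fin n ⊕ Fin n) (Fin n ⊕ Fin n) ℂ} {G : Module.End ℂ (Fock n)}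
    (h : Lift n g G) (S : Finset (Fin n)) : Cyc (G (fv S)) := fun _ hN hS => h.cyclic hN hS

theorem Cyc.of_gam {s : Fock n} {u : Vec n} (h : Cyc (gam u s)) : Cyc s :=
  fun N hN hs => h N hN (hN u s hs)

/-- The pairing of two transversal pure spinors does not vanish. -/
theorem BF_ne_zero {s₀ s₁ : Fock n} (hs₀ : s₀ ≠ 0) (hs₁ : Cyc s₁)
    (P : Vec n → Vec n) (h₀ : ∀ v, gam (v - P v) s₀ = 0) (h₁ : ∀ v, gam (P v) s₁ = 0) :
    BF n s₀ s₁ ≠ 0 := by
  intro h
  let W : Wick (Vec n) (Module.End ℂ (Fock n)) := mkWick (J := Vec n) id (fun _ => 1) s₀ s₁ P h₀ h₁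
  have h1 : W.φ 1 = 0 := h
  let N : Submodule ℂ (Fock n) := Submodule.span ℂ {f | ∃ (m : ℕ) (x : Fin m → Vec n),
    f = prw W.c x s₁}
  have hN : N = ⊤ := by
    refine hs₁ N ?_ ?_
    · intro v f hf
      induction hf using Submodule.span_induction with
      | mem f hf =>
        obtain ⟨m, x, rfl⟩ := hf
        refine Submodule.subset_span ⟨m + 1, Fin.cons v x, ?_⟩
        rw [prw_succ]
        have e1 : W.c ((Fin.cons v x : Fin (m + 1) → Vec n) 0) = gam v := by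
          show (1 : ℂ) • gam ((Fin.cons v x : Fin (m + 1) → Vec n) 0) = gam v
          rw [one_smul, Fin.cons_zero]
        have e2 : tl1 (Fin.cons v x : Fin (m + 1) → Vec n) = x := by
          funext i
          rw [tl1, Fin.cons_succ]
        rw [e1, e2, Module.End.mul_apply]
      | zero => rw [map_zero]; exact zero_mem _
      | add a b _ _ ha hb => rw [map_add]; exact add_mem ha hb
      | smul c a _ ha => rw [map_smul]; exact Submodule.smul_mem _ _ ha
    · refine Submodule.subset_span ⟨0, Fin.elim0, ?_⟩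
      rw [prw_zero, Module.End.one_apply]
  apply hs₀
  apply BF_nondeg
  intro f
  have hf : f ∈ N := by rw [hN]; trivial
  induction hf using Submodule.span_induction with
  | mem f hf =>
    obtain ⟨m, x, rfl⟩ := hf
    exact W.E_eq_zero h1 m x
  | zero => rw [map_zero]
  | add a b _ _ ha hb => rw [map_add, ha, hb, add_zero]
  | smul c a _ ha => rw [map_smul, ha, smul_zero]

/-- The span of a frame attached to `S`. -/
def LS (g : Matrix (Fin n ⊕ Fin n) (Fin n ⊕ Fin n) ℂ) (S : Finset (Fin n)) :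
    Submodule ℂ (Vec n) := Submodule.span ℂ (Set.range fun i => fun b => g b (frS S i))

theorem Lift.kill {g : Matrix (Fin n ⊕ Fin n) (Fin n ⊕ Fin n) ℂ} {G : Module.End ℂ (Fock n)}
    (h : Lift n g G) (S : Finset (Fin n)) {v : Vec n} (hv : v ∈ LS g S) :
    gam v (G (fv S)) = 0 := by
  induction hv using Submodule.span_induction with
  | mem v hv =>
    obtain ⟨i, rfl⟩ := hv
    exact h.pure S i
  | zero => rw [gam_zero, LinearMap.zero_apply]
  | add a b _ _ ha hb => rw [gam_add, LinearMap.add_apply, ha, hb, add_zero]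
  | smul c a _ ha => rw [gam_smul, LinearMap.smul_apply, ha, smul_zero]

/-- The skew form attached to a decomposition. -/
noncomputable def skP (P : Vec n → Vec n) (u v : Vec n) : ℂ :=
  (1 / 2 : ℂ) * (qf (P u) v - qf (P v) u)

/-- The spin Gram matrix. -/
noncomputable def spinGram (lam : Fin 3 → Fin n → ℤ)
    (g : Fin 3 → Matrix (Fin n ⊕ Fin n) (Fin n ⊕ Fin n) ℂ)
    (Ω : ColT lam → ColT lam → ℂ) (ω : ColT lam → ℂ) (P : Vec n → Vec n)
    (j j' : CellT lam) : ℂ :=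
  Ω j.1 j'.1 * qf (cv lam g j) (cv lam g j') +
    ω j.1 * ω j'.1 * skP P (cv lam g j) (cv lam g j')

theorem spinGram_skew (lam : Fin 3 → Fin n → ℤ)
    (g : Fin 3 → Matrix (Fin n ⊕ Fin n) (Fin n ⊕ Fin n) ℂ)
    (Ω : ColT lam → ColT lam → ℂ) (hΩ : ∀ l l', Ω l l' = - Ω l' l) (ω : ColT lam → ℂ)
    (P : Vec n → Vec n) (j j' : CellT lam) :
    spinGram lam g Ω ω P j j' = - spinGram lam g Ω ω P j' j := by
  rw [spinGram, spinGram, skP, skP, hΩ, qf_symm]
  ring

/-- **Even case.** -/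
theorem hasInvariants_even {lam : Fin 3 → Fin n → ℤ} (hl : ∀ s, DomZ (lam s))
    {S₀ S₁ : Finset (Fin n)} (hS₀ : ∀ i, i ∉ S₀ → ∀ j, j ≤ i) (hS₁ : ∀ i, i ∉ S₁ → ∀ j, j ≤ i)
    {V₀ V₁ V₂ : Type*} [AddCommGroup V₀] [Module ℂ V₀]
    [LieRingModule (so n) V₀] [LieModule ℂ (so n) V₀] [AddCommGroup V₁] [Module ℂ V₁]
    [LieRingModule (so n) V₁] [LieModule ℂ (so n) V₁] [AddCommGroup V₂] [Module ℂ V₂]
    [LieRingModule (so n) V₂] [LieModule ℂ (so n) V₂]
    [LieModule.IsIrreducible ℂ (so n) V₀] [LieModule.IsIrreducible ℂ (so n) V₁]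
    [LieModule.IsIrreducible ℂ (so n) V₂]
    (w₀ : HasHighestWeight ((fun i => (lam 0 i : ℚ)) + spinWt S₀) V₀)
    (w₁ : HasHighestWeight ((fun i => (lam 1 i : ℚ)) + spinWt S₁) V₁)
    (w₂ : HasHighestWeight (fun i => (lam 2 i : ℚ)) V₂)
    (g : Fin 3 → Matrix (Fin n ⊕ Fin n) (Fin n ⊕ Fin n) ℂ) (hg : ∀ s, InE n (g s))
    (Ω : ColT lam → ColT lam → ℂ) (hΩ : ∀ l l', Ω l l' = - Ω l' l) (ω : ColT lam → ℂ)
    (P : Vec n → Vec n) (hP₀ : ∀ v, v - P v ∈ LS (g 0) S₀) (hP₁ : ∀ v, P v ∈ LS (g 1) S₁)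
    (hdet : (Matrix.of (spinGram lam g Ω ω P)).det ≠ 0) :
    HasInvariants (n := n) V₀ V₁ V₂ := by
  obtain ⟨G₀, hG₀⟩ := exists_lift (hg 0)
  obtain ⟨G₁, hG₁⟩ := exists_lift (hg 1)
  set s₀ := G₀ (fv S₀) with hs₀
  set s₁ := G₁ (fv S₁) with hs₁
  have h₀ : ∀ v, gam (v - P v) s₀ = 0 := fun v => hG₀.kill S₀ (hP₀ v)
  have h₁ : ∀ v, gam (P v) s₁ = 0 := fun v => hG₁.kill S₁ (hP₁ v)
  let W : Wick (CellT lam) (Module.End ℂ (Fock n)) :=
    mkWick (cv lam g) (fun j => ω j.1) s₀ s₁ P h₀ h₁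
  have hφ : W.φ 1 ≠ 0 := BF_ne_zero (hG₀.ne_zero S₀) (hG₁.cyc S₁) P h₀ h₁
  let Pf : CellT lam → CellT lam → ℂ := fun j j' => Ω j.1 j'.1 * qf (cv lam g j) (cv lam g j')
  have hM : spinGram lam g Ω ω P = fun a b => Pf a b + W.Q a b := by
    funext a b
    show _ = Pf a b + (1 / 2 : ℂ) * ((ω a.1 * ω b.1 * qf (P (cv lam g a)) (cv lam g b)) -
      (ω b.1 * ω a.1 * qf (P (cv lam g b)) (cv lam g a)))
    rw [spinGram, skP]
    ring
  obtain ⟨k, y, hy⟩ := exists_alt_ne (spinGram lam g Ω ω P) (spinGram_skew lam g Ω hΩ ω P) hdet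
  rw [hM] at hy
  have h1 := W.inU_even Pf k
  have h2 : alt (prp (fun a b => Pf a b + W.Q a b) (W.φ 1) k) y ≠ 0 := by
    have h3 : prp (fun a b => Pf a b + W.Q a b) (W.φ 1) k =
        fun x => W.φ 1 * prp (fun a b => Pf a b + W.Q a b) 1 k x := by
      funext x
      exact prp_smul _ _ _ _
    rw [h3, alt_smul]
    exact mul_ne_zero hφ hy
  obtain ⟨t, f, hf, hne⟩ := h1.exists_ne h2
  exact hasInvariants_of_gen hl hS₀ hS₁ w₀ w₁ w₂ g (hg 2) hG₀ hG₁ Ω ω hf y hne

/-- **Odd case.** Here `u` spans the intersection of the two maximal isotropic spaces and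
`v` is an isotropic vector with `qf u v = 1`; `P` is a projection along the first space to the
second space modified by `v`. -/
theorem hasInvariants_odd {lam : Fin 3 → Fin n → ℤ} (hl : ∀ s, DomZ (lam s))
    {S₀ S₁ : Finset (Fin n)} (hS₀ : ∀ i, i ∉ S₀ → ∀ j, j ≤ i) (hS₁ : ∀ i, i ∉ S₁ → ∀ j, j ≤ i)
    {V₀ V₁ V₂ : Type*} [AddCommGroup V₀] [Module ℂ V₀]
    [LieRingModule (so n) V₀] [LieModule ℂ (so n) V₀] [AddCommGroup V₁] [Module ℂ V₁]
    [LieRingModule (so n) V₁] [LieModule ℂ (so n) V₁] [AddCommGroup V₂] [Module ℂ V₂]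
    [LieRingModule (so n) V₂] [LieModule ℂ (so n) V₂]
    [LieModule.IsIrreducible ℂ (so n) V₀] [LieModule.IsIrreducible ℂ (so n) V₁]
    [LieModule.IsIrreducible ℂ (so n) V₂]
    (w₀ : HasHighestWeight ((fun i => (lam 0 i : ℚ)) + spinWt S₀) V₀)
    (w₁ : HasHighestWeight ((fun i => (lam 1 i : ℚ)) + spinWt S₁) V₁)
    (w₂ : HasHighestWeight (fun i => (lam 2 i : ℚ)) V₂)
    (g : Fin 3 → Matrix (Fin n ⊕ Fin n) (Fin n ⊕ Fin n) ℂ) (hg : ∀ s, InE n (g s))
    (Ω : ColT lam → ColT lam → ℂ) (hΩ : ∀ l l', Ω l l' = - Ω l' l) (ω : ColT lam → ℂ)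
    (u v : Vec n) (hu₀ : u ∈ LS (g 0) S₀) (hu₁ : u ∈ LS (g 1) S₁) (huv : qf u v = 1)
    (hvv : qf v v = 0)
    (P : Vec n → Vec n) (hP₀ : ∀ x, x - P x ∈ LS (g 0) S₀)
    (hP₁ : ∀ x, ∃ z ∈ LS (g 1) S₁, ∃ c : ℂ, qf z v = 0 ∧ P x = z + c • v)
    (hdet : (Matrix.of (bord (spinGram lam g Ω ω P)
      fun j => ω j.1 * qf u (cv lam g j))).det ≠ 0) :
    HasInvariants (n := n) V₀ V₁ V₂ := by
  obtain ⟨G₀, hG₀⟩ := exists_lift (hg 0)
  obtain ⟨G₁, hG₁⟩ := exists_lift (hg 1)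
  set s₀ := G₀ (fv S₀) with hs₀
  set s₁ := G₁ (fv S₁) with hs₁
  set s' := gam v s₁ with hs'
  have hvv' : gam v * gam v = 0 := by
    have h1 := gam_sq v
    rw [hvv, zero_smul] at h1
    exact (smul_eq_zero.mp h1).resolve_left two_ne_zero
  have hus : gam u s' = s₁ := by
    have h1 := gam_anti u v
    rw [huv, map_one] at h1
    have h2 := congrArg (fun T : Module.End ℂ (Fock n) => T s₁) h1
    simp only [LinearMap.add_apply, Module.End.mul_apply, Module.End.one_apply] at h2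
    rw [hG₁.kill S₁ hu₁, map_zero, add_zero] at h2
    exact h2
  have h₀ : ∀ x, gam (x - P x) s₀ = 0 := fun x => hG₀.kill S₀ (hP₀ x)
  have h₁ : ∀ x, gam (P x) s' = 0 := by
    intro x
    obtain ⟨z, hz, c, hzv, hx⟩ := hP₁ x
    rw [hx, gam_add, gam_smul, LinearMap.add_apply, LinearMap.smul_apply]
    have h1 := gam_anti z v
    rw [hzv, map_zero] at h1
    have h2 := congrArg (fun T : Module.End ℂ (Fock n) => T s₁) h1
    simp only [LinearMap.add_apply, Module.End.mul_apply, LinearMap.zero_apply] at h2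
    rw [hG₁.kill S₁ hz, map_zero, add_zero] at h2
    have h3 := congrArg (fun T : Module.End ℂ (Fock n) => T s₁) hvv'
    simp only [Module.End.mul_apply, LinearMap.zero_apply] at h3
    rw [hs', h2, h3, smul_zero, add_zero]
  have hcyc : Cyc s' := Cyc.of_gam (u := u) (by rw [hus]; exact hG₁.cyc S₁)
  let W : Wick (CellT lam) (Module.End ℂ (Fock n)) :=
    mkWick (cv lam g) (fun j => ω j.1) s₀ s' P h₀ h₁
  let WO : WickOdd (CellT lam) (Module.End ℂ (Fock n)) :=
    { W with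
      u := gam u
      b := fun j => ω j.1 * qf u (cv lam g j)
      uleft := by
        intro X
        show BF n s₀ ((gam u * X) s') = 0
        rw [Module.End.mul_apply, ← BF_gam, hG₀.kill S₀ hu₀, map_zero, LinearMap.zero_apply]
      uanti := by
        intro j
        show gam u * (ω j.1 • gam (cv lam g j)) + (ω j.1 • gam (cv lam g j)) * gam u = _
        rw [mul_smul_comm, smul_mul_assoc, ← smul_add, gam_anti, Algebra.algebraMap_eq_smul_one,
          Algebra.algebraMap_eq_smul_one, smul_smul] }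
  have hφ : W.φ 1 ≠ 0 := BF_ne_zero (hG₀.ne_zero S₀) hcyc P h₀ h₁
  let Pf : CellT lam → CellT lam → ℂ := fun j j' => Ω j.1 j'.1 * qf (cv lam g j) (cv lam g j')
  have hM : spinGram lam g Ω ω P = fun a b => Pf a b + W.Q a b := by
    funext a b
    show _ = Pf a b + (1 / 2 : ℂ) * ((ω a.1 * ω b.1 * qf (P (cv lam g a)) (cv lam g b)) -
      (ω b.1 * ω a.1 * qf (P (cv lam g b)) (cv lam g a)))
    rw [spinGram, skP]
    ring
  obtain ⟨k, y, hy⟩ := exists_alt_ne_bord (spinGram lam g Ω ω P)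
    (spinGram_skew lam g Ω hΩ ω P) (fun j => ω j.1 * qf u (cv lam g j)) hdet
  rw [hM] at hy
  have h1 := WO.inU_odd Pf k
  have h2 : alt (pre1 WO.b (prp (fun a b => Pf a b + WO.toWick.Q a b) (WO.φ 1) k)) y ≠ 0 := by
    have h3 : pre1 WO.b (prp (fun a b => Pf a b + WO.toWick.Q a b) (WO.φ 1) k) =
        fun x => W.φ 1 * pre1 WO.b (prp (fun a b => Pf a b + WO.toWick.Q a b) 1 k) x := by
      funext x
      rw [pre1, pre1, prp_smul]
      ring
    rw [h3, alt_smul]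
    exact mul_ne_zero hφ hy
  obtain ⟨t, f, hf, hne⟩ := h1.exists_ne h2
  have hE : WO.E' = fun (m : ℕ) (x : Fin m → CellT lam) =>
      BF n s₀ (prw (fun j => ω j.1 • gam (cv lam g j)) x s₁) := by
    funext m x
    show BF n s₀ ((prw (fun j => ω j.1 • gam (cv lam g j)) x * gam u) s') = _
    rw [Module.End.mul_apply, hus]
  rw [hE] at hf
  exact hasInvariants_of_gen hl hS₀ hS₁ w₀ w₁ w₂ g (hg 2) hG₀ hG₁ Ω ω hf y hne

end Vale.Agent.P182.H338
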