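import Vale.Agent.P182.H338.Par
import Mathlib.Analysis.Complex.Polynomial.Basic

/-!
# The spin bridge in terms of the Gram matrix with two full columns added
-/

namespace Vale.Agent.P182.H338

open scoped InnerProductSpace ComplexConjugate TensorProduct
open LieAlgebra.Orthogonal

attribute [local instance 100] LieRing.ofAssociativeRing

variable {n : ℕ}

/-- the rows with positive entries -/
def posS (mu : Fin n → ℤ) : Finset (Fin n) := Finset.univ.filter fun i => 0 < mu i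

theorem mem_posS {mu : Fin n → ℤ} {i : Fin n} : i ∈ posS mu ↔ 0 < mu i := by simp [posS]

/-- one full column removed -/
def dec (mu : Fin n → ℤ) (i : Fin n) : ℤ := if 0 < mu i then mu i - 1 else mu i + 1

theorem natAbs_dec {mu : Fin n → ℤ} {i : Fin n} (h : mu i ≠ 0) :
    (mu i).natAbs = (dec mu i).natAbs + 1 := by
  rw [dec]
  split_ifs with h1 <;> omega

theorem dec_neg_iff {mu : Fin n → ℤ} {i : Fin n} (h : dec mu i ≠ 0) :
    dec mu i < 0 ↔ mu i < 0 := by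
  rw [dec] at h ⊢
  split_ifs at h ⊢ with h1 <;> omega

theorem pos_of_lt {mu : Fin n → ℤ} (hmu : DomZ mu) (h0 : ∀ i, mu i ≠ 0) {i j : Fin n}
    (hij : i < j) : 0 < mu i := by
  have h1 := hmu i j hij
  have h2 := abs_pos.mpr (h0 j)
  omega

theorem domZ_dec {mu : Fin n → ℤ} (hmu : DomZ mu) (h0 : ∀ i, mu i ≠ 0) : DomZ (dec mu) := by
  intro i j hij
  have h1 := hmu i j hij
  have h2 := pos_of_lt hmu h0 hij
  have h3 := h0 j
  rw [dec, dec, if_pos h2]
  rcases lt_or_gt_of_ne h3 with h4 | h4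
  · rw [if_neg (by omega), abs_of_nonpos (by omega)]
    rw [abs_of_neg h4] at h1
    omega
  · rw [if_pos h4, abs_of_nonneg (by omega)]
    rw [abs_of_pos h4] at h1
    omega

theorem posS_last {mu : Fin n → ℤ} (hmu : DomZ mu) (h0 : ∀ i, mu i ≠ 0) :
    ∀ i, i ∉ posS mu → ∀ j, j ≤ i := by
  intro i hi j
  by_contra h
  push Not at h
  exact hi (mem_posS.mpr (pos_of_lt hmu h0 h))

/-- the weights without the two full columns -/
def lamD (lam : Fin 3 → Fin n → ℤ) : Fin 3 → Fin n → ℤ := ![dec (lam 0), dec (lam 1), lam 2]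

/-- the number of full columns removed -/
def dl (s : Fin 3) : ℕ := if s = 2 then 0 else 1

theorem natAbs_lamD {lam : Fin 3 → Fin n → ℤ} (h0 : ∀ i, lam 0 i ≠ 0) (h1 : ∀ i, lam 1 i ≠ 0)
    (s : Fin 3) (i : Fin n) : (lam s i).natAbs = (lamD lam s i).natAbs + dl s := by
  fin_cases s
  · exact natAbs_dec (h0 i)
  · exact natAbs_dec (h1 i)
  · rfl

theorem lt_ncol' {mu : Fin n → ℤ} {c : ℕ} : c < ncol mu ↔ ∃ i, c < (mu i).natAbs := by
  rw [ncol, Finset.lt_sup_iff]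
  simp

section emb

variable {lam : Fin 3 → Fin n → ℤ} (h0 : ∀ i, lam 0 i ≠ 0) (h1 : ∀ i, lam 1 i ≠ 0)

/-- embedding of columns -/
def embC (l : ColT (lamD lam)) : ColT lam :=
  ⟨l.1, ⟨l.2 + dl l.1, by
    obtain ⟨i, hi⟩ := lt_ncol'.mp l.2.2
    refine lt_ncol'.mpr ⟨i, ?_⟩
    rw [natAbs_lamD h0 h1]
    omega⟩⟩

theorem embC_fst (l : ColT (lamD lam)) : (embC h0 h1 l).1 = l.1 := rfl

/-- embedding of cells -/
def embJ (j : CellT (lamD lam)) : CellT lam :=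
  ⟨embC h0 h1 j.1, ⟨j.2.1, by
    have := j.2.2
    show (j.1.2 : ℕ) + dl j.1.1 < (lam j.1.1 j.2.1).natAbs
    rw [natAbs_lamD h0 h1]
    omega⟩⟩

/-- the first full column -/
def C0 (hn : 0 < n) : ColT lam :=
  ⟨0, ⟨0, lt_ncol'.mpr ⟨⟨0, hn⟩, Int.natAbs_pos.mpr (h0 _)⟩⟩⟩

/-- the second full column -/
def C1 (hn : 0 < n) : ColT lam :=
  ⟨1, ⟨0, lt_ncol'.mpr ⟨⟨0, hn⟩, Int.natAbs_pos.mpr (h1 _)⟩⟩⟩

/-- its cells -/
def A0 (hn : 0 < n) (i : Fin n) : CellT lam :=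
  ⟨C0 h0 hn, ⟨i, Int.natAbs_pos.mpr (h0 _)⟩⟩

/-- its cells -/
def A1 (hn : 0 < n) (i : Fin n) : CellT lam :=
  ⟨C1 h1 hn, ⟨i, Int.natAbs_pos.mpr (h1 _)⟩⟩

theorem cell_ext {lam : Fin 3 → Fin n → ℤ} {j k : CellT lam} (e1 : j.1.1 = k.1.1)
    (e2 : (j.1.2 : ℕ) = k.1.2) (e3 : j.2.1 = k.2.1) : j = k := by
  obtain ⟨⟨s, c, hc⟩, i, hi⟩ := j
  obtain ⟨⟨s', c', hc'⟩, i', hi'⟩ := k
  simp only at e1 e2 e3
  subst e1 e2 e3
  rfl

theorem bij_emb (hn : 0 < n) :
    Function.Bijective (Sum.elim (embJ h0 h1) (Sum.elim (A0 h0 hn) (A1 h1 hn))) := by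
  constructor
  · rintro (j | i | i) (j' | i' | i') h
    · have e1 : j.1.1 = j'.1.1 := congrArg (fun k : CellT lam => k.1.1) h
      have e2 : (j.1.2 : ℕ) + dl j.1.1 = (j'.1.2 : ℕ) + dl j'.1.1 :=
        congrArg (fun k : CellT lam => (k.1.2 : ℕ)) h
      have e3 : j.2.1 = j'.2.1 := congrArg (fun k : CellT lam => k.2.1) h
      congr 1
      refine cell_ext e1 ?_ e3
      have e4 : dl j.1.1 = dl j'.1.1 := by rw [e1]
      omega
    · exfalso
      have e1 : j.1.1 = 0 := congrArg (fun k : CellT lam => k.1.1) h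
      have e2 : (j.1.2 : ℕ) + dl j.1.1 = 0 := congrArg (fun k : CellT lam => (k.1.2 : ℕ)) h
      have e4 : dl j.1.1 = 1 := by rw [e1]; rfl
      omega
    · exfalso
      have e1 : j.1.1 = 1 := congrArg (fun k : CellT lam => k.1.1) h
      have e2 : (j.1.2 : ℕ) + dl j.1.1 = 0 := congrArg (fun k : CellT lam => (k.1.2 : ℕ)) h
      have e4 : dl j.1.1 = 1 := by rw [e1]; rfl
      omega
    · exfalso
      have e1 : (0 : Fin 3) = j'.1.1 := congrArg (fun k : CellT lam => k.1.1) h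
      have e2 : 0 = (j'.1.2 : ℕ) + dl j'.1.1 := congrArg (fun k : CellT lam => (k.1.2 : ℕ)) h
      have e4 : dl j'.1.1 = 1 := by rw [← e1]; rfl
      omega
    · have e3 : i = i' := congrArg (fun k : CellT lam => k.2.1) h
      rw [e3]
    · exfalso
      have e1 : (0 : Fin 3) = 1 := congrArg (fun k : CellT lam => k.1.1) h
      exact absurd e1 (by decide)
    · exfalso
      have e1 : (1 : Fin 3) = j'.1.1 := congrArg (fun k : CellT lam => k.1.1) h
      have e2 : 0 = (j'.1.2 : ℕ) + dl j'.1.1 := congrArg (fun k : CellT lam => (k.1.2 : ℕ)) h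
      have e4 : dl j'.1.1 = 1 := by rw [← e1]; rfl
      omega
    · exfalso
      have e1 : (1 : Fin 3) = 0 := congrArg (fun k : CellT lam => k.1.1) h
      exact absurd e1 (by decide)
    · have e3 : i = i' := congrArg (fun k : CellT lam => k.2.1) h
      rw [e3]
  · intro k
    obtain ⟨⟨s, c, hc⟩, i, hi⟩ := k
    simp only at hi
    by_cases hcd : dl s ≤ c
    · have hi' : c - dl s < (lamD lam s i).natAbs := by
        rw [natAbs_lamD h0 h1] at hi
        omega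
      refine ⟨Sum.inl ⟨⟨s, ⟨c - dl s, lt_ncol'.mpr ⟨i, hi'⟩⟩⟩, ⟨i, hi'⟩⟩, ?_⟩
      refine cell_ext rfl ?_ rfl
      show c - dl s + dl s = c
      omega
    · push Not at hcd
      have hs : s = 0 ∨ s = 1 := by
        rw [dl] at hcd
        split_ifs at hcd with h
        · omega
        · have h3 : ∀ s : Fin 3, ¬ s = 2 → s = 0 ∨ s = 1 := by decide
          exact h3 s h
      have hd : dl s = 1 := by
        rcases hs with rfl | rfl <;> rfl
      have hc0 : c = 0 := by omega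
      subst hc0
      rcases hs with rfl | rfl
      · exact ⟨Sum.inr (Sum.inl i), cell_ext rfl rfl rfl⟩
      · exact ⟨Sum.inr (Sum.inr i), cell_ext rfl rfl rfl⟩

theorem fr_lamD (s : Fin 3) (i : Fin n) (hi : 0 < (lamD lam s i).natAbs) :
    fr (lamD lam s) i = fr (lam s) i := by
  fin_cases s
  · show fr (dec (lam 0)) i = fr (lam 0) i
    have h2 : dec (lam 0) i ≠ 0 := Int.natAbs_pos.mp hi
    rw [fr, fr]
    simp only [dec_neg_iff h2]
  · show fr (dec (lam 1)) i = fr (lam 1) i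
    have h2 : dec (lam 1) i ≠ 0 := Int.natAbs_pos.mp hi
    rw [fr, fr]
    simp only [dec_neg_iff h2]
  · rfl

theorem fr_eq_frS {mu : Fin n → ℤ} {i : Fin n} (h : mu i ≠ 0) : fr mu i = frS (posS mu) i := by
  rw [fr, frS]
  by_cases h2 : 0 < mu i
  · rw [if_neg (by omega), if_pos (mem_posS.mpr h2)]
  · rw [if_pos (by omega), if_neg (fun h3 => h2 (mem_posS.mp h3))]

/-- The comparison data. -/
noncomputable def bigD (hn : 0 < n) (g : Fin 3 → Matrix (Fin n ⊕ Fin n) (Fin n ⊕ Fin n) ℂ)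
    (hg : ∀ s, InE n (g s)) (Ω : ColT lam → ColT lam → ℂ) (hΩ : ∀ l l', Ω l l' = - Ω l' l)
    (hsp : ∀ l : ColT lam, l.1 = 2 → Ω (C0 h0 hn) l = Ω (C1 h1 hn) l)
    (ho : Ω (C0 h0 hn) (C1 h1 hn) ≠ 0) : Big n (CellT (lamD lam)) (CellT lam) where
  v := cv (lamD lam) g
  v' := cv lam g
  e := embJ h0 h1
  a0 := A0 h0 hn
  a1 := A1 h1 hn
  bij := bij_emb h0 h1 hn
  hv := by
    intro j
    funext b
    show g j.1.1 b (fr (lam j.1.1) j.2.1) = g j.1.1 b (fr (lamD lam j.1.1) j.2.1)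
    rw [fr_lamD]
    have := j.2.2
    omega
  arm j := j.1.1
  Om k k' := Ω k.1 k'.1
  p j := Ω (C0 h0 hn) (embC h0 h1 j.1)
  q j := Ω (C1 h1 hn) (embC h0 h1 j.1)
  o := Ω (C0 h0 hn) (C1 h1 hn)
  ho := ho
  skew k k' := hΩ _ _
  hp _ _ := rfl
  hq _ _ := rfl
  h01 _ _ := rfl
  hpq j h := hsp _ h
  iso0 i i' := by
    have h2 := frame_iso (hg 0) (posS (lam 0)) i i'
    rw [← fr_eq_frS (h0 i), ← fr_eq_frS (h0 i')] at h2
    exact h2
  iso1 i i' := by
    have h2 := frame_iso (hg 1) (posS (lam 1)) i i'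
    rw [← fr_eq_frS (h1 i), ← fr_eq_frS (h1 i')] at h2
    exact h2
  arm0 j h := by
    refine Submodule.subset_span ⟨j.2.1, ?_⟩
    obtain ⟨⟨s, c, hc⟩, i, hi⟩ := j
    simp only at h
    subst h
    funext b
    show g 0 b (fr (lam 0) i) = g 0 b (fr (lamD lam 0) i)
    rw [fr_lamD]
    simp only at hi
    omega
  arm1 j h := by
    refine Submodule.subset_span ⟨j.2.1, ?_⟩
    obtain ⟨⟨s, c, hc⟩, i, hi⟩ := j
    simp only at h
    subst h
    funext b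
    show g 1 b (fr (lam 1) i) = g 1 b (fr (lamD lam 1) i)
    rw [fr_lamD]
    simp only at hi
    omega

theorem bigD_L0 (hn : 0 < n) (g : Fin 3 → Matrix (Fin n ⊕ Fin n) (Fin n ⊕ Fin n) ℂ)
    (hg : ∀ s, InE n (g s)) (Ω : ColT lam → ColT lam → ℂ) (hΩ : ∀ l l', Ω l l' = - Ω l' l)
    (hsp : ∀ l : ColT lam, l.1 = 2 → Ω (C0 h0 hn) l = Ω (C1 h1 hn) l)
    (ho : Ω (C0 h0 hn) (C1 h1 hn) ≠ 0) :
    (bigD h0 h1 hn g hg Ω hΩ hsp ho).L0 = LS (g 0) (posS (lam 0)) := by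
  rw [Big.L0, LS]
  congr 2
  funext i b
  show g 0 b (fr (lam 0) i) = g 0 b (frS (posS (lam 0)) i)
  rw [fr_eq_frS (h0 i)]

theorem bigD_L1 (hn : 0 < n) (g : Fin 3 → Matrix (Fin n ⊕ Fin n) (Fin n ⊕ Fin n) ℂ)
    (hg : ∀ s, InE n (g s)) (Ω : ColT lam → ColT lam → ℂ) (hΩ : ∀ l l', Ω l l' = - Ω l' l)
    (hsp : ∀ l : ColT lam, l.1 = 2 → Ω (C0 h0 hn) l = Ω (C1 h1 hn) l)
    (ho : Ω (C0 h0 hn) (C1 h1 hn) ≠ 0) :
    (bigD h0 h1 hn g hg Ω hΩ hsp ho).L1 = LS (g 1) (posS (lam 1)) := by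
  rw [Big.L1, LS]
  congr 2
  funext i b
  show g 1 b (fr (lam 1) i) = g 1 b (frS (posS (lam 1)) i)
  rw [fr_eq_frS (h1 i)]

end emb

/-! ### parity of the number of cells -/

theorem card_cell (mu : Fin n → ℤ) : Fintype.card (Cell mu) = ∑ i, (mu i).natAbs := by
  have h1 := sum_cols mu fun _ => (1 : ℂ)
  simp only [mul_one, Finset.sum_const, Finset.card_univ, nsmul_eq_mul] at h1
  exact_mod_cast h1

theorem card_cellT (lam : Fin 3 → Fin n → ℤ) :
    Fintype.card (CellT lam) = ∑ s, ∑ i, (lam s i).natAbs := by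
  rw [← Fintype.card_congr (cellEquiv lam), Fintype.card_sum, Fintype.card_sum, card_cell,
    card_cell, card_cell, Fin.sum_univ_three]
  ring

/-- The half-integral weight attached to an integral weight without zeros. -/
def hw (mu : Fin n → ℤ) (i : Fin n) : ℚ := if 0 < mu i then mu i - 1 / 2 else mu i + 1 / 2

theorem hw_eq (mu : Fin n → ℤ) : hw mu = (fun i => ((dec mu i : ℤ) : ℚ)) + spinWt (posS mu) := by
  funext i
  rw [Pi.add_apply, hw, spinWt, dec]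
  by_cases h : 0 < mu i
  · rw [if_pos h, if_pos h, if_pos (mem_posS.mpr h)]
    push_cast; ring
  · rw [if_neg h, if_neg h, if_neg (fun h3 => h (mem_posS.mp h3))]
    push_cast; ring

theorem sum_hw (mu : Fin n → ℤ) :
    ∑ i, hw mu i = ∑ i, (mu i : ℚ) - (posS mu).card + (n : ℚ) / 2 := by
  have h1 : ∀ i, hw mu i = (mu i : ℚ) - (if 0 < mu i then 1 else 0) + 1 / 2 := by
    intro i
    rw [hw]
    split_ifs <;> ring
  simp only [h1, Finset.sum_add_distrib, Finset.sum_sub_distrib]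
  rw [Finset.sum_const, Finset.card_univ, Fintype.card_fin, nsmul_eq_mul]
  congr 1
  · congr 1
    rw [posS, Finset.sum_boole]
  · ring

theorem parity_card {lam : Fin 3 → Fin n → ℤ}
    (hroot : InRootLattice fun i => hw (lam 0) i + hw (lam 1) i + lam 2 i) :
    Even (Fintype.card (CellT lam)) ↔ Even ((posS (lam 0)).card + (posS (lam 1)).card + n) := by
  obtain ⟨x, hx, hev⟩ := hroot
  have h1 : (∑ i, (x i : ℚ)) = ∑ i, (lam 0 i : ℚ) + ∑ i, (lam 1 i : ℚ) + ∑ i, (lam 2 i : ℚ) -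
      (posS (lam 0)).card - (posS (lam 1)).card + n := by
    rw [← Finset.sum_congr rfl fun i _ => hx i, Finset.sum_add_distrib, Finset.sum_add_distrib,
      sum_hw, sum_hw]
    ring
  have h2 : (∑ i, x i) = ∑ i, lam 0 i + ∑ i, lam 1 i + ∑ i, lam 2 i -
      (posS (lam 0)).card - (posS (lam 1)).card + n := by
    exact_mod_cast h1
  have h3 : ∀ mu : Fin n → ℤ, Even (((∑ i, (mu i).natAbs : ℕ) : ℤ) - ∑ i, mu i) := by
    intro mu
    push_cast
    rw [← Finset.sum_sub_distrib]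
    refine Finset.even_sum _ fun i _ => ?_
    rw [Int.even_sub]
    exact even_abs
  rw [card_cellT, Fin.sum_univ_three]
  have a0 := h3 (lam 0)
  have a1 := h3 (lam 1)
  have a2 := h3 (lam 2)
  rw [h2] at hev
  set N0 := ∑ i, (lam 0 i).natAbs
  set N1 := ∑ i, (lam 1 i).natAbs
  set N2 := ∑ i, (lam 2 i).natAbs
  set s0 := ∑ i, lam 0 i
  set s1 := ∑ i, lam 1 i
  set s2 := ∑ i, lam 2 i
  rw [Int.even_iff] at a0 a1 a2 hev
  rw [Nat.even_iff, Nat.even_iff]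
  omega

/-- **The spin bridge.** -/
theorem spin_bridge (hn : 2 ≤ n) {lam : Fin 3 → Fin n → ℤ} (hl : ∀ s, DomZ (lam s))
    (h0 : ∀ i, lam 0 i ≠ 0) (h1 : ∀ i, lam 1 i ≠ 0)
    (hroot : InRootLattice fun i => hw (lam 0) i + hw (lam 1) i + lam 2 i)
    {V₀ V₁ V₂ : Type*} [AddCommGroup V₀] [Module ℂ V₀]
    [LieRingModule (so n) V₀] [LieModule ℂ (so n) V₀] [AddCommGroup V₁] [Module ℂ V₁]
    [LieRingModule (so n) V₁] [LieModule ℂ (so n) V₁] [AddCommGroup V₂] [Module ℂ V₂]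
    [LieRingModule (so n) V₂] [LieModule ℂ (so n) V₂]
    [LieModule.IsIrreducible ℂ (so n) V₀] [LieModule.IsIrreducible ℂ (so n) V₁]
    [LieModule.IsIrreducible ℂ (so n) V₂]
    (w₀ : HasHighestWeight (hw (lam 0)) V₀) (w₁ : HasHighestWeight (hw (lam 1)) V₁)
    (w₂ : HasHighestWeight (fun i => (lam 2 i : ℚ)) V₂)
    (g : Fin 3 → Matrix (Fin n ⊕ Fin n) (Fin n ⊕ Fin n) ℂ) (hg : ∀ s, InE n (g s))
    (Ω : ColT lam → ColT lam → ℂ) (hΩ : ∀ l l', Ω l l' = - Ω l' l)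
    (hsp : ∀ l : ColT lam, l.1 = 2 →
      Ω (C0 h0 (by omega)) l = Ω (C1 h1 (by omega)) l)
    (ho : Ω (C0 h0 (by omega)) (C1 h1 (by omega)) ≠ 0)
    (hadj : (gramT lam g Ω).adjugate ≠ 0) :
    HasInvariants (n := n) V₀ V₁ V₂ := by
  have hn0 : 0 < n := by omega
  let D := bigD h0 h1 hn0 g hg Ω hΩ hsp ho
  have hG : Matrix.of D.G = gramT lam g Ω := rfl
  have hL0 : D.L0 = LS (g 0) (posS (lam 0)) := bigD_L0 h0 h1 hn0 g hg Ω hΩ hsp ho
  have hL1 : D.L1 = LS (g 1) (posS (lam 1)) := bigD_L1 h0 h1 hn0 g hg Ω hΩ hsp ho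
  have p0 : ∀ z, (∀ x ∈ D.L0, qf z x = 0) → z ∈ D.L0 := by
    rw [hL0]; exact fun z hz => LS_perp (hg 0) _ hz
  have p1 : ∀ z, (∀ x ∈ D.L1, qf z x = 0) → z ∈ D.L1 := by
    rw [hL1]; exact fun z hz => LS_perp (hg 1) _ hz
  have hlD : ∀ s, DomZ (lamD lam s) := by
    intro s
    fin_cases s
    · exact domZ_dec (hl 0) h0
    · exact domZ_dec (hl 1) h1
    · exact hl 2
  rw [hw_eq] at w₀ w₁
  obtain ⟨κ, hκ⟩ : ∃ κ : ℂ, κ * κ * D.o = -2 := by
    obtain ⟨κ, hκ⟩ := IsAlgClosed.exists_pow_nat_eq (-2 / D.o) (n := 2) (by norm_num)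
    refine ⟨κ, ?_⟩
    rw [← pow_two, hκ, div_mul_cancel₀ _ D.ho]
  -- the weights of the spin Gram matrix
  let alC : ColT (lamD lam) → ℂ := fun l => if l.1 = 1 then 0 else Ω (C1 h1 hn0) (embC h0 h1 l)
  let beC : ColT (lamD lam) → ℂ := fun l => if l.1 = 0 then 0 else Ω (C0 h0 hn0) (embC h0 h1 l)
  let omC : ColT (lamD lam) → ℂ := fun l => if l.1 = 2 then Ω (C0 h0 hn0) (embC h0 h1 l) else 0
  let Ω' : ColT (lamD lam) → ColT (lamD lam) → ℂ := fun l l' =>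
    Ω (embC h0 h1 l) (embC h0 h1 l') + D.o⁻¹ * (alC l * beC l' - beC l * alC l')
  let ω' : ColT (lamD lam) → ℂ := fun l => κ * omC l
  have hΩ' : ∀ l l', Ω' l l' = - Ω' l' l := by
    intro l l'
    simp only [Ω']
    rw [hΩ]
    ring
  have hM : ∀ P : Vec n → Vec n, spinGram (lamD lam) g Ω' ω' P = D.M κ P := fun P => rfl
  by_cases hd : ∀ u ∈ D.L0, u ∈ D.L1 → u = 0
  · -- transversal case
    obtain ⟨P, hP0, hP1⟩ := exists_proj p0 p1 hd
    have hcard : Even (Fintype.card (CellT lam)) := by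
      rw [parity_card hroot]
      obtain ⟨G₀, hG₀⟩ := exists_lift (hg 0)
      obtain ⟨G₁, hG₁⟩ := exists_lift (hg 1)
      refine even_of_BF hG₀ hG₁ _ _ (BF_ne_zero (hG₀.ne_zero _) (hG₁.cyc _) P ?_ ?_)
      · intro v
        exact hG₀.kill _ (by rw [← hL0]; exact hP0 v)
      · intro v
        exact hG₁.kill _ (by rw [← hL1]; exact hP1 v)
    have hdet : (Matrix.of D.G).det ≠ 0 := by
      refine det_ne_zero_of_adj ?_ hcard hadj
      ext i j
      show D.Om j i * qf (D.v' j) (D.v' i) = - (D.Om i j * qf (D.v' i) (D.v' j))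
      rw [D.skew, qf_symm]
      ring
    refine hasInvariants_even hlD (posS_last (hl 0) h0) (posS_last (hl 1) h1) w₀ w₁ w₂ g hg
      Ω' hΩ' ω' P ?_ ?_ ?_
    · intro v; rw [← hL0]; exact hP0 v
    · intro v; rw [← hL1]; exact hP1 v
    · rw [hM]
      exact D.det_M_ne_zero P hP0 hP1 κ hκ hdet
  · -- the intersection is a line
    push Not at hd
    obtain ⟨u, hu0, hu1, hu⟩ := hd
    obtain ⟨w, huw, hww⟩ := exists_dual_vec hu
    obtain ⟨P, hP0, hP1⟩ := exists_proj_odd (fun x hx y hy => D.q00 hx hy)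
      (fun x hx y hy => D.q11 hx hy) p0 p1 hu0 hu1 huw
      (fun x hx0 hx1 => D.dep_of_adj' hadj hu hu0 hu1 hx0 hx1)
    refine hasInvariants_odd hlD (posS_last (hl 0) h0) (posS_last (hl 1) h1) w₀ w₁ w₂ g hg
      Ω' hΩ' ω' u w (by rw [← hL0]; exact hu0) (by rw [← hL1]; exact hu1) huw hww P ?_ ?_ ?_
    · intro v; rw [← hL0]; exact hP0 v
    · intro v
      obtain ⟨z, hz, hzw, hPx⟩ := hP1 v
      exact ⟨z, by rw [← hL1]; exact hz, _, hzw, hPx⟩
    · have := D.det_bord_ne_zero P u w hu hu0 hu1 hP0 hP1 κ hκ hadj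
      exact this

end Vale.Agent.P182.H338
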