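import Vale.Agent.P182.H338.Func

/-!
# Invariants for two half-integral weights and one integral weight from words
-/

namespace Vale.Agent.P182.H338

open scoped InnerProductSpace ComplexConjugate TensorProduct
open LieAlgebra.Orthogonal

attribute [local instance 100] LieRing.ofAssociativeRing

variable {n : ℕ}

theorem alt_comp {J : Type*} {m : ℕ} (f : (Fin m → J) → ℂ) (x : Fin m → J)
    (ρ : Equiv.Perm (Fin m)) : alt f (x ∘ ρ) = sgn ρ * alt f x := by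
  rw [alt, alt, Finset.mul_sum]
  refine Fintype.sum_equiv (Equiv.mulLeft ρ) _ _ fun σ => ?_
  rw [Equiv.coe_mulLeft, sgn_mul]
  have : x ∘ ⇑(ρ * σ) = (x ∘ ρ) ∘ σ := rfl
  rw [this]
  linear_combination (-(sgn σ * f ((x ∘ ⇑ρ) ∘ ⇑σ))) * sgn_sq ρ

theorem pr3_eq_sum (lam : Fin 3 → Fin n → ℤ)
    (g : Fin 3 → Matrix (Fin n ⊕ Fin n) (Fin n ⊕ Fin n) ℂ) :
    pr3 (asymM (lam 0) (g 0)) (asymM (lam 1) (g 1)) (asymM (lam 2) (g 2)) =
      ∑ π : ∀ l : ColT lam, Equiv.Perm (RowT lam l), (((csign π : ℤˣ) : ℤ) : ℂ) •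
        pt (fun k => cv lam g (Equiv.sigmaCongrRight π (cellEquiv lam k))) := by
  apply tf_ext
  intro β
  have h1 := asymT_eq lam g (β ∘ (cellEquiv lam).symm)
  have h2 : (β ∘ (cellEquiv lam).symm) ∘ cellEquiv lam = β := by
    funext k
    simp
  rw [h2] at h1
  rw [← h1, asymT_eq_sum, WithLp.ofLp_sum, Finset.sum_apply]
  refine Finset.sum_congr rfl fun π _ => ?_
  rw [WithLp.ofLp_smul, Pi.smul_apply, pt_apply, smul_eq_mul]
  congr 1
  rw [← Equiv.prod_comp (cellEquiv lam)]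
  refine Finset.prod_congr rfl fun k _ => ?_
  rw [Function.comp_apply, Equiv.symm_apply_apply]

theorem Phi_pr3 (lam : Fin 3 → Fin n → ℤ)
    (g : Fin 3 → Matrix (Fin n ⊕ Fin n) (Fin n ⊕ Fin n) ℂ) {m : ℕ} (X : OpM n m)
    (y : Fin m ≃ CellT lam) (φ ψ : Fock n) :
    Phi X (y.trans (cellEquiv lam).symm) φ ψ
      (pr3 (asymM (lam 0) (g 0)) (asymM (lam 1) (g 1)) (asymM (lam 2) (g 2))) =
      ∑ π : ∀ l : ColT lam, Equiv.Perm (RowT lam l), (((csign π : ℤˣ) : ℤ) : ℂ) *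
        BF n φ (X (fun i => cv lam g (Equiv.sigmaCongrRight π (y i))) ψ) := by
  rw [pr3_eq_sum, map_sum]
  refine Finset.sum_congr rfl fun π _ => ?_
  rw [map_smul, Phi_pt, smul_eq_mul]
  congr 5
  funext i
  rw [Equiv.trans_apply, Equiv.apply_symm_apply]

/-- The total functional. -/
noncomputable def totF (lam : Fin 3 → Fin n → ℤ) {m : ℕ} (X : OpM n m)
    (wt : (Fin m → ColT lam) → ℂ) (y : Fin m ≃ CellT lam) :
    Fock n →ₗ[ℂ] Fock n →ₗ[ℂ]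
      (TF (Cell (lam 0) ⊕ (Cell (lam 1) ⊕ Cell (lam 2))) (Fin n ⊕ Fin n) →ₗ[ℂ] ℂ) :=
  ∑ σ : Equiv.Perm (Fin m), (sgn σ * wt fun i => (y (σ i)).1) •
    Phi X ((σ.trans y).trans (cellEquiv lam).symm)

theorem totF_apply (lam : Fin 3 → Fin n → ℤ) {m : ℕ} (X : OpM n m)
    (wt : (Fin m → ColT lam) → ℂ) (y : Fin m ≃ CellT lam) (φ ψ : Fock n) (h) :
    totF lam X wt y φ ψ h = ∑ σ : Equiv.Perm (Fin m), (sgn σ * wt fun i => (y (σ i)).1) *
      Phi X ((σ.trans y).trans (cellEquiv lam).symm) φ ψ h := by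
  simp only [totF, LinearMap.sum_apply, LinearMap.smul_apply, smul_eq_mul]

theorem totF_inv (lam : Fin 3 → Fin n → ℤ) {m : ℕ} {X : OpM n m} (hX : Equi X)
    (wt : (Fin m → ColT lam) → ℂ) (y : Fin m ≃ CellT lam) (x : so n) (φ ψ : Fock n) (h) :
    totF lam X wt y φ ψ (act x.1 h) + totF lam X wt y (rho cl x.1 φ) ψ h +
      totF lam X wt y φ (rho cl x.1 ψ) h = 0 := by
  rw [totF_apply, totF_apply, totF_apply, ← Finset.sum_add_distrib, ← Finset.sum_add_distrib]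
  refine Finset.sum_eq_zero fun σ _ => ?_
  rw [← mul_add, ← mul_add, Phi_inv hX, mul_zero]

theorem sign_conj_sigma (lam : Fin 3 → Fin n → ℤ) {m : ℕ} (y : Fin m ≃ CellT lam)
    (π : ∀ l : ColT lam, Equiv.Perm (RowT lam l)) :
    sgn ((y.trans (Equiv.sigmaCongrRight π)).trans y.symm : Equiv.Perm (Fin m)) =
      (((csign π : ℤˣ) : ℤ) : ℂ) := by
  rw [sgn, ← sign_sigmaCongrRight' lam π]
  congr 2
  exact Equiv.Perm.sign_eq_sign_of_equiv _ _ y fun x => by simp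

theorem totF_value (lam : Fin 3 → Fin n → ℤ)
    (g : Fin 3 → Matrix (Fin n ⊕ Fin n) (Fin n ⊕ Fin n) ℂ) {m : ℕ} (X : OpM n m)
    (wt : (Fin m → ColT lam) → ℂ) (y : Fin m ≃ CellT lam) (φ ψ : Fock n)
    (f : (Fin m → CellT lam) → ℂ)
    (hf : ∀ x, f x = wt (fun i => (x i).1) * BF n φ (X (fun i => cv lam g (x i)) ψ)) :
    totF lam X wt y φ ψ
      (pr3 (asymM (lam 0) (g 0)) (asymM (lam 1) (g 1)) (asymM (lam 2) (g 2))) =
      (Fintype.card (∀ l : ColT lam, Equiv.Perm (RowT lam l)) : ℂ) * alt f y := by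
  rw [totF_apply]
  have h1 : ∀ σ : Equiv.Perm (Fin m), (sgn σ * wt fun i => (y (σ i)).1) *
      Phi X ((σ.trans y).trans (cellEquiv lam).symm) φ ψ
        (pr3 (asymM (lam 0) (g 0)) (asymM (lam 1) (g 1)) (asymM (lam 2) (g 2))) =
      ∑ π : ∀ l : ColT lam, Equiv.Perm (RowT lam l), (((csign π : ℤˣ) : ℤ) : ℂ) *
        (sgn σ * f ((Equiv.sigmaCongrRight π ∘ y) ∘ σ)) := by
    intro σ
    rw [Phi_pr3, Finset.mul_sum]
    refine Finset.sum_congr rfl fun π _ => ?_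
    have h2 : f ((Equiv.sigmaCongrRight π ∘ y) ∘ σ) = wt (fun i => (y (σ i)).1) *
        BF n φ (X (fun i => cv lam g (Equiv.sigmaCongrRight π ((σ.trans y) i))) ψ) := hf _
    rw [h2]
    ring
  rw [Finset.sum_congr rfl fun σ _ => h1 σ, Finset.sum_comm]
  have h3 : ∀ π : ∀ l : ColT lam, Equiv.Perm (RowT lam l),
      (∑ σ : Equiv.Perm (Fin m), (((csign π : ℤˣ) : ℤ) : ℂ) *
        (sgn σ * f ((Equiv.sigmaCongrRight π ∘ y) ∘ σ))) = alt f y := by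
    intro π
    rw [← Finset.mul_sum]
    have h4 : (Equiv.sigmaCongrRight π ∘ y : Fin m → CellT lam) =
        y ∘ ((y.trans (Equiv.sigmaCongrRight π)).trans y.symm : Equiv.Perm (Fin m)) := by
      funext i
      simp
    have h5 : ∑ σ : Equiv.Perm (Fin m), sgn σ * f ((Equiv.sigmaCongrRight π ∘ y) ∘ σ) =
        alt f (Equiv.sigmaCongrRight π ∘ y) := rfl
    rw [h5, h4, alt_comp, sign_conj_sigma, ← mul_assoc]
    have h6 : (((csign π : ℤˣ) : ℤ) : ℂ) * (((csign π : ℤˣ) : ℤ) : ℂ) = 1 := by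
      rcases Int.units_eq_one_or (csign π) with h | h <;> rw [h] <;> simp
    rw [h6, one_mul]
  rw [Finset.sum_congr rfl fun π _ => h3 π, Finset.sum_const, nsmul_eq_mul, Finset.card_univ]

theorem tmul_ne_zero {E F : Type*} [NormedAddCommGroup E] [InnerProductSpace ℂ E]
    [NormedAddCommGroup F] [InnerProductSpace ℂ F] {a : E} {b : F} (ha : a ≠ 0) (hb : b ≠ 0) :
    a ⊗ₜ[ℂ] b ≠ 0 := by
  intro h0
  have h1 : ⟪a ⊗ₜ[ℂ] b, a ⊗ₜ[ℂ] b⟫_ℂ = 0 := by rw [h0, inner_zero_left]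
  rw [TensorProduct.inner_tmul, mul_eq_zero] at h1
  rcases h1 with h1 | h1
  · exact ha (inner_self_eq_zero.mp h1)
  · exact hb (inner_self_eq_zero.mp h1)

theorem chi_add (lam mu : Fin n → ℚ) : chi (lam + mu) = chi lam + chi mu := by
  funext x
  rw [Pi.add_apply, chi, chi, chi, ← Finset.sum_add_distrib]
  refine Finset.sum_congr rfl fun i _ => ?_
  rw [Pi.add_apply]
  push_cast
  ring

/-- **Core.** A generated function with nonzero antisymmetrisation gives invariants. -/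
theorem hasInvariants_of_gen {lam : Fin 3 → Fin n → ℤ} (hl : ∀ s, DomZ (lam s))
    {S₀ S₁ : Finset (Fin n)} (hS₀ : ∀ i, i ∉ S₀ → ∀ j, j ≤ i) (hS₁ : ∀ i, i ∉ S₁ → ∀ j, j ≤ i)
    {V₀ V₁ V₂ : Type*} [AddCommGroup V₀] [Module ℂ V₀]
    [LieRingModule (so n) V₀] [LieModule ℂ (so n) V₀] [AddCommGroup V₁] [Module ℂ V₁]
    [LieRingModule (so n) V₁] [LieModule ℂ (so n) V₁] [AddCommGroup V₂] [Module ℂ V₂]
    [LieRingModule (so n) V₂] [LieModule ℂ (so n) V₂]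
    [LieModule.IsIrreducible ℂ (so n) V₀] [LieModule.IsIrreducible ℂ (so n) V₁]
    [LieModule.IsIrreducible ℂ (so n) V₂]
    (w₀ : HasHighestWeight ((fun i => (lam 0 i : ℚ)) + spinWt S₀) V₀)
    (w₁ : HasHighestWeight ((fun i => (lam 1 i : ℚ)) + spinWt S₁) V₁)
    (w₂ : HasHighestWeight (fun i => (lam 2 i : ℚ)) V₂)
    (g : Fin 3 → Matrix (Fin n ⊕ Fin n) (Fin n ⊕ Fin n) ℂ) (hg₂ : InE n (g 2))
    {G₀ G₁ : Module.End ℂ (Fock n)} (hG₀ : Lift n (g 0) G₀) (hG₁ : Lift n (g 1) G₁)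
    (Ω : ColT lam → ColT lam → ℂ) (ω : ColT lam → ℂ) {t m : ℕ} {f : (Fin m → CellT lam) → ℂ}
    (hf : Gen (fun j j' => Ω j.1 j'.1 * qf (cv lam g j) (cv lam g j'))
      (fun _ x => BF n (G₀ (fv S₀)) (prw (fun j => ω j.1 • gam (cv lam g j)) x (G₁ (fv S₁))))
      t m f)
    (y : Fin m ≃ CellT lam) (hne : alt f y ≠ 0) :
    HasInvariants (n := n) V₀ V₁ V₂ := by
  obtain ⟨wt, X, hX, hfx⟩ := Gen.exists_op (C := ColT lam) (fun j : CellT lam => j.1)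
    (cv lam g) Ω ω (G₀ (fv S₀)) (G₁ (fv S₁)) hf
  obtain ⟨v₀, hv₀, w₀⟩ := w₀
  obtain ⟨v₁, hv₁, w₁⟩ := w₁
  obtain ⟨v₂, hv₂, w₂⟩ := w₂
  rw [← isHW_iff] at w₀ w₁ w₂
  have D₀ := isHW_tmul (triD n) (asymM_isHW (hl 0)) (fv_isHW hS₀)
  have D₁ := isHW_tmul (triD n) (asymM_isHW (hl 1)) (fv_isHW hS₁)
  rw [← chi_add] at D₀ D₁
  rw [HasInvariants, maxTriv_ne_bot_iff (τ := tau) (isUnitary_tensor tf_unitary fock_unitary)
    (isUnitary_tensor tf_unitary fock_unitary) tf_unitary tau_tau (triD n) D₀ D₁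
    (asymM_isHW (hl 2)) (tmul_ne_zero (asymM_one_ne_zero (lam 0)) (fv_ne_zero S₀))
    (tmul_ne_zero (asymM_one_ne_zero (lam 1)) (fv_ne_zero S₁)) (asymM_one_ne_zero (lam 2))
    w₀ w₁ w₂ hv₀ hv₁ hv₂]
  refine ⟨tenF (totF lam X wt y), tenF_inv _ (totF_inv lam hX wt y),
    asymM (lam 0) (g 0) ⊗ₜ[ℂ] G₀ (fv S₀), ?_, asymM (lam 1) (g 1) ⊗ₜ[ℂ] G₁ (fv S₁), ?_,
    asymM (lam 2) (g 2), ?_, ?_⟩
  · exact Orb.mem (rootSet n) (fun x hx => nilp_tensor (tf_nilp hx) (fock_nilp hx))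
      (hG₀.orb (lam 0) (fv S₀)) _ (self_mem_cyc _ _)
  · exact Orb.mem (rootSet n) (fun x hx => nilp_tensor (tf_nilp hx) (fock_nilp hx))
      (hG₁.orb (lam 1) (fv S₁)) _ (self_mem_cyc _ _)
  · exact Orb.mem (rootSet n) (fun x hx => tf_nilp hx)
      ((orb_iff (lam 2) _).mpr ⟨g 2, hg₂, rfl⟩) _ (self_mem_cyc _ _)
  · rw [tenF_apply, totF_value lam g X wt y _ _ f hfx]
    exact mul_ne_zero (Nat.cast_ne_zero.mpr Fintype.card_ne_zero) hne

end Vale.Agent.P182.H338
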