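import Vale.Agent.P182.H338.Spinor
import Mathlib.LinearAlgebra.Multilinear.Curry
import Mathlib.LinearAlgebra.Multilinear.Basis
import Mathlib.LinearAlgebra.TensorProduct.Associator

/-!
# Invariant functionals from words
-/

namespace Vale.Agent.P182.H338

open scoped InnerProductSpace ComplexConjugate TensorProduct
open LieAlgebra.Orthogonal

attribute [local instance 100] LieRing.ofAssociativeRing

variable {n : ℕ}

/-- operator valued multilinear maps -/
abbrev OpM (n m : ℕ) := MultilinearMap ℂ (fun _ : Fin m => Vec n) (Module.End ℂ (Fock n))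

/-- equivariance -/
def Equi {m : ℕ} (X : OpM n m) : Prop := ∀ (x : so n) (w : Fin m → Vec n),
  rho cl x.1 * X w - X w * rho cl x.1 =
    ∑ i, X (Function.update w i (x.1.mulVec (w i)))

/-- prefixing a letter -/
noncomputable def opCons {m : ℕ} (X : OpM n m) : OpM n (m + 1) :=
  LinearMap.uncurryLeft
    { toFun := fun v => (LinearMap.mulLeft ℂ (gam v)).compMultilinearMap X
      map_add' := fun u v => by
        ext1 w
        show gam (u + v) * X w = gam u * X w + gam v * X w
        rw [gam_add, add_mul]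
      map_smul' := fun s v => by
        ext1 w
        show gam (s • v) * X w = s • (gam v * X w)
        rw [gam_smul, smul_mul_assoc] }

theorem opCons_apply {m : ℕ} (X : OpM n m) (w : Fin (m + 1) → Vec n) :
    opCons X w = gam (w 0) * X (Fin.tail w) := rfl

/-- the form, as a linear map -/
noncomputable def qfL (n : ℕ) : Vec n →ₗ[ℂ] Vec n →ₗ[ℂ] ℂ :=
  LinearMap.mk₂ ℂ qf
    (by
      intro u v w
      simp only [qf, Pi.add_apply, add_mul, Finset.sum_add_distrib])
    (by
      intro c u v
      simp only [qf, Pi.smul_apply, smul_eq_mul, Finset.mul_sum, mul_assoc])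
    (by
      intro u v w
      simp only [qf, Pi.add_apply, mul_add, Finset.sum_add_distrib])
    (by
      intro c u v
      simp only [qf, Pi.smul_apply, smul_eq_mul, Finset.mul_sum]
      refine Finset.sum_congr rfl fun b _ => Finset.sum_congr rfl fun b' _ => ?_
      ring)

theorem qfL_apply (u v : Vec n) : qfL n u v = qf u v := rfl

/-- prefixing a pair -/
noncomputable def opPair {m : ℕ} (X : OpM n m) : OpM n (m + 2) :=
  LinearMap.uncurryLeft
    { toFun := fun u => LinearMap.uncurryLeft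
        { toFun := fun v => qf u v • X
          map_add' := fun v v' => by
            rw [← qfL_apply, ← qfL_apply, ← qfL_apply, map_add, add_smul]
          map_smul' := fun s v => by
            rw [← qfL_apply, ← qfL_apply, map_smul, smul_eq_mul, mul_smul]
            rfl }
      map_add' := fun u u' => by
        ext1 w
        show qf (u + u') (w 0) • X (Fin.tail w) =
          qf u (w 0) • X (Fin.tail w) + qf u' (w 0) • X (Fin.tail w)
        rw [← qfL_apply, ← qfL_apply, ← qfL_apply, map_add, LinearMap.add_apply, add_smul]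
      map_smul' := fun s u => by
        ext1 w
        show qf (s • u) (w 0) • X (Fin.tail w) = s • (qf u (w 0) • X (Fin.tail w))
        rw [← qfL_apply, ← qfL_apply, map_smul, LinearMap.smul_apply, smul_eq_mul, mul_smul] }

theorem opPair_apply {m : ℕ} (X : OpM n m) (w : Fin (m + 2) → Vec n) :
    opPair X w = qf (w 0) (w 1) • X (Fin.tail (Fin.tail w)) := rfl

theorem update_zero_tail {m : ℕ} (w : Fin (m + 1) → Vec n) (v : Vec n) :
    Fin.tail (Function.update w 0 v) = Fin.tail w := Fin.tail_update_zero w v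

theorem update_succ_tail {m : ℕ} (w : Fin (m + 1) → Vec n) (i : Fin m) (v : Vec n) :
    Fin.tail (Function.update w i.succ v) = Function.update (Fin.tail w) i v :=
  Fin.tail_update_succ w i v

theorem Equi.cons {m : ℕ} {X : OpM n m} (hX : Equi X) : Equi (opCons X) := by
  intro x w
  rw [Fin.sum_univ_succ]
  simp only [opCons_apply, update_zero_tail, update_succ_tail, Function.update_self]
  have h1 : ∀ i : Fin m, Function.update w i.succ (x.1.mulVec (w i.succ)) 0 = w 0 := by
    intro i
    rw [Function.update_of_ne (Fin.succ_ne_zero i).symm]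
  simp only [h1]
  rw [← Finset.mul_sum]
  have h2 := hX x (Fin.tail w)
  have h3 : ∑ i : Fin m, X (Function.update (Fin.tail w) i (x.1.mulVec (w i.succ))) =
      rho cl x.1 * X (Fin.tail w) - X (Fin.tail w) * rho cl x.1 := h2.symm
  rw [h3, ← rho_gam]
  noncomm_ring

theorem qf_inv (x : so n) (u v : Vec n) : qf (x.1.mulVec u) v + qf u (x.1.mulVec v) = 0 := by
  have h1 : qf (x.1.mulVec u) v = ∑ b, ∑ b', u b * v b' * ∑ d, x.1 d b * JD (Fin n) ℂ d b' := by
    simp only [qf, Matrix.mulVec, dotProduct, Finset.sum_mul, Finset.mul_sum]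
    calc _ = ∑ d, ∑ b', ∑ b, x.1 d b * u b * JD (Fin n) ℂ d b' * v b' := rfl
      _ = ∑ b, ∑ b', ∑ d, x.1 d b * u b * JD (Fin n) ℂ d b' * v b' := by
        rw [Finset.sum_congr rfl fun d _ => Finset.sum_comm, Finset.sum_comm]
        refine Finset.sum_congr rfl fun b _ => ?_
        rw [Finset.sum_comm]
      _ = _ := by
        refine Finset.sum_congr rfl fun b _ => Finset.sum_congr rfl fun b' _ =>
          Finset.sum_congr rfl fun d _ => ?_
        ring
  have h2 : qf u (x.1.mulVec v) = ∑ b, ∑ b', u b * v b' * ∑ d, x.1 d b' * JD (Fin n) ℂ b d := by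
    simp only [qf, Matrix.mulVec, dotProduct, Finset.mul_sum]
    refine Finset.sum_congr rfl fun b _ => ?_
    rw [Finset.sum_comm]
    refine Finset.sum_congr rfl fun b' _ => Finset.sum_congr rfl fun d _ => ?_
    ring
  rw [h1, h2, ← Finset.sum_add_distrib]
  refine Finset.sum_eq_zero fun b _ => ?_
  rw [← Finset.sum_add_distrib]
  refine Finset.sum_eq_zero fun b' _ => ?_
  rw [← mul_add, so_JD, mul_zero]

theorem Equi.pair {m : ℕ} {X : OpM n m} (hX : Equi X) : Equi (opPair X) := by
  intro x w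
  rw [Fin.sum_univ_succ, Fin.sum_univ_succ]
  simp only [opPair_apply, update_zero_tail, update_succ_tail, Function.update_self]
  have h0 : Function.update w (0 : Fin (m + 2)) (x.1.mulVec (w 0)) 1 = w 1 := by
    rw [Function.update_of_ne (by simp)]
  have h0' : Function.update w (Fin.succ (0 : Fin (m + 1))) (x.1.mulVec (w (Fin.succ 0))) 0 =
      w 0 := by
    rw [Function.update_of_ne (by simp)]
  have h0'' : Function.update w (Fin.succ (0 : Fin (m + 1))) (x.1.mulVec (w (Fin.succ 0))) 1 =
      x.1.mulVec (w 1) := by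
    have : (1 : Fin (m + 2)) = Fin.succ (0 : Fin (m + 1)) := rfl
    rw [this, Function.update_self]
  have h1 : ∀ i : Fin m, Function.update w i.succ.succ (x.1.mulVec (w i.succ.succ)) 0 = w 0 := by
    intro i
    rw [Function.update_of_ne (Fin.succ_ne_zero _).symm]
  have h2 : ∀ i : Fin m, Function.update w i.succ.succ (x.1.mulVec (w i.succ.succ)) 1 = w 1 := by
    intro i
    rw [Function.update_of_ne]
    intro h
    have := congrArg Fin.val h
    simp at this
  simp only [h0, h0', h0'', h1, h2]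
  rw [← Finset.smul_sum]
  have h3 : ∑ i : Fin m, X (Function.update (Fin.tail (Fin.tail w)) i
      (x.1.mulVec (w i.succ.succ))) = rho cl x.1 * X (Fin.tail (Fin.tail w)) -
        X (Fin.tail (Fin.tail w)) * rho cl x.1 := (hX x (Fin.tail (Fin.tail w))).symm
  rw [h3, ← add_assoc, ← add_smul, qf_inv, zero_smul, zero_add, mul_smul_comm, smul_mul_assoc,
    smul_sub]

/-- The product of the letters. -/
noncomputable def opProd (n : ℕ) : (m : ℕ) → OpM n m
  | 0 => MultilinearMap.constOfIsEmpty ℂ _ 1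
  | m + 1 => opCons (opProd n m)

theorem opProd_equi (m : ℕ) : Equi (opProd n m) := by
  induction m with
  | zero =>
    intro x w
    rw [Fin.sum_univ_zero]
    show rho cl x.1 * 1 - 1 * rho cl x.1 = 0
    rw [mul_one, one_mul, sub_self]
  | succ m ih => exact ih.cons

/-- What a generated function looks like. -/
theorem Gen.exists_op {J C : Type*} (col : J → C) (w : J → Vec n) (Ω : C → C → ℂ) (ω : C → ℂ)
    (s₀ s₁ : Fock n) {t m : ℕ} {f : (Fin m → J) → ℂ}
    (hf : Gen (fun j j' => Ω (col j) (col j') * qf (w j) (w j'))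
      (fun _ x => BF n s₀ (prw (fun j => ω (col j) • gam (w j)) x s₁)) t m f) :
    ∃ (wt : (Fin m → C) → ℂ) (X : OpM n m), Equi X ∧
      ∀ x : Fin m → J, f x = wt (fun i => col (x i)) * BF n s₀ (X (fun i => w (x i)) s₁) := by
  induction hf with
  | base m =>
    refine ⟨fun c => ∏ i, ω (c i), opProd n m, opProd_equi m, ?_⟩
    intro x
    have h1 : prw (fun j => ω (col j) • gam (w j)) x =
        (∏ i, ω (col (x i))) • opProd n m (fun i => w (x i)) := by
      induction m with
      | zero =>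
        rw [prw_zero, Fin.prod_univ_zero, one_smul]
        rfl
      | succ m ih =>
        rw [prw_succ, ih (tl1 x), Fin.prod_univ_succ]
        show _ = _ • (gam (w (x 0)) * opProd n m (Fin.tail fun i => w (x i)))
        rw [smul_mul_smul_comm]
        rfl
    show BF n s₀ (prw (fun j => ω (col j) • gam (w j)) x s₁) =
      (∏ i, ω (col (x i))) * BF n s₀ (opProd n m (fun i => w (x i)) s₁)
    rw [h1, LinearMap.smul_apply, map_smul, smul_eq_mul]
  | pair t m f _ ih =>
    obtain ⟨wt, X, hX, h⟩ := ih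
    refine ⟨fun c => Ω (c 0) (c 1) * wt (tl2 c), opPair X, hX.pair, ?_⟩
    intro x
    have h1 : pre (fun j j' => Ω (col j) (col j') * qf (w j) (w j')) f x =
        Ω (col (x 0)) (col (x 1)) * qf (w (x 0)) (w (x 1)) * f (tl2 x) := rfl
    rw [h1, h (tl2 x), opPair_apply, LinearMap.smul_apply, map_smul, smul_eq_mul]
    have h2 : (fun i => w (tl2 x i)) = Fin.tail (Fin.tail fun i => w (x i)) := rfl
    have h3 : (fun i => col (tl2 x i)) = tl2 fun i => col (x i) := rfl
    rw [h2, h3]
    ring

/-! ### the functional -/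

section functional

variable {J : Type*} [Fintype J] [DecidableEq J]

/-- standard basis vectors -/
def std (b : Fin n ⊕ Fin n) : Vec n := fun b' =>
  (1 : Matrix (Fin n ⊕ Fin n) (Fin n ⊕ Fin n) ℂ) b' b

/-- The functional attached to an operator valued multilinear map and an ordering. -/
noncomputable def Phi {m : ℕ} (X : OpM n m) (y : Fin m ≃ J) :
    Fock n →ₗ[ℂ] Fock n →ₗ[ℂ] (TF J (Fin n ⊕ Fin n) →ₗ[ℂ] ℂ) :=
  LinearMap.mk₂ ℂ (fun φ ψ => toFun' fun β => BF n φ (X (fun i => std (β (y i))) ψ))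
    (by
      intro φ φ' ψ
      ext h
      simp only [toFun'_apply, LinearMap.add_apply, map_add, add_mul, Finset.sum_add_distrib])
    (by
      intro c φ ψ
      ext h
      simp only [toFun'_apply, LinearMap.smul_apply, map_smul, smul_eq_mul, Finset.mul_sum,
        mul_assoc])
    (by
      intro φ ψ ψ'
      ext h
      simp only [toFun'_apply, LinearMap.add_apply, map_add, add_mul, Finset.sum_add_distrib])
    (by
      intro c φ ψ
      ext h
      simp only [toFun'_apply, LinearMap.smul_apply, map_smul, smul_eq_mul, Finset.mul_sum,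
        mul_assoc])

theorem Phi_apply {m : ℕ} (X : OpM n m) (y : Fin m ≃ J) (φ ψ : Fock n)
    (h : TF J (Fin n ⊕ Fin n)) :
    Phi X y φ ψ h = ∑ β, BF n φ (X (fun i => std (β (y i))) ψ) * h β := rfl

theorem Phi_dl {m : ℕ} (X : OpM n m) (y : Fin m ≃ J) (φ ψ : Fock n)
    (β : J → Fin n ⊕ Fin n) :
    Phi X y φ ψ (dl β) = BF n φ (X (fun i => std (β (y i))) ψ) := toFun'_dl _ β

theorem vec_expand (v : Vec n) : v = ∑ b, v b • std b := by
  funext b'
  rw [Finset.sum_apply]
  simp only [Pi.smul_apply, smul_eq_mul, std, Matrix.one_apply]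
  simp

theorem Phi_pt {m : ℕ} (X : OpM n m) (y : Fin m ≃ J) (φ ψ : Fock n) (v : J → Vec n) :
    Phi X y φ ψ (pt v) = BF n φ (X (fun i => v (y i)) ψ) := by
  have h1 : (fun i => v (y i)) = fun i => ∑ b, v (y i) b • std b := by
    funext i
    exact vec_expand _
  rw [h1, X.map_sum, LinearMap.sum_apply, map_sum, Phi_apply]
  refine Fintype.sum_equiv (y.arrowCongr (Equiv.refl _)).symm _ _ fun β => ?_
  rw [MultilinearMap.map_smul_univ, LinearMap.smul_apply, map_smul, smul_eq_mul, pt_apply, mul_comm]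
  congr 1
  rw [← Equiv.prod_comp y]
  rfl

theorem mulVec_std (x : Matrix (Fin n ⊕ Fin n) (Fin n ⊕ Fin n) ℂ) (b : Fin n ⊕ Fin n) :
    x.mulVec (std b) = ∑ b', x b' b • std b' := mulVec_single' x b

theorem Phi_inv {m : ℕ} {X : OpM n m} (hX : Equi X) (y : Fin m ≃ J) (x : so n) (φ ψ : Fock n)
    (h : TF J (Fin n ⊕ Fin n)) :
    Phi X y φ ψ (act x.1 h) + Phi X y (rho cl x.1 φ) ψ h + Phi X y φ (rho cl x.1 ψ) h = 0 := by
  have key : ∀ γ : J → Fin n ⊕ Fin n,
      Phi X y φ ψ (act x.1 (dl γ)) + Phi X y (rho cl x.1 φ) ψ (dl γ) +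
        Phi X y φ (rho cl x.1 ψ) (dl γ) = 0 := by
    intro γ
    set w : Fin m → Vec n := fun i => std (γ (y i)) with hw
    have h1 : Phi X y φ ψ (act x.1 (dl γ)) = BF n φ ((∑ i, X (Function.update w i
        (x.1.mulVec (w i)))) ψ) := by
      rw [act, LinearMap.sum_apply, map_sum, ← Equiv.sum_comp y, LinearMap.sum_apply, map_sum]
      refine Finset.sum_congr rfl fun i _ => ?_
      have h2 : x.1.mulVec (w i) = ∑ b, x.1 b (γ (y i)) • std b := mulVec_std _ _
      rw [slot_dl, map_sum, h2, MultilinearMap.map_update_sum, LinearMap.sum_apply, map_sum]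
      refine Finset.sum_congr rfl fun b _ => ?_
      rw [map_smul, Phi_dl, MultilinearMap.map_update_smul, LinearMap.smul_apply, map_smul]
      congr 3
      congr 1
      funext k
      by_cases hk : k = i
      · subst hk; rw [Function.update_self, Function.update_self]
      · rw [Function.update_of_ne hk, Function.update_of_ne (fun e => hk (y.injective e))]
    rw [h1, Phi_dl, Phi_dl, ← hX x w, LinearMap.sub_apply, map_sub, Module.End.mul_apply,
      Module.End.mul_apply]
    have h3 := BF_inv x φ (X w ψ)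
    linear_combination h3
  rw [expand_dl h]
  simp only [map_sum, map_smul, smul_eq_mul]
  rw [← Finset.sum_add_distrib, ← Finset.sum_add_distrib]
  refine Finset.sum_eq_zero fun γ _ => ?_
  rw [← mul_add, ← mul_add, key, mul_zero]

end functional

/-! ### functionals on the tensor product of the models -/

section tensor

variable {J₀ J₁ J₂ : Type*} [Fintype J₀] [Fintype J₁] [Fintype J₂]
  [DecidableEq J₀] [DecidableEq J₁] [DecidableEq J₂]

/-- The functional on the tensor product of the models. -/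
noncomputable def tenF (Φ : Fock n →ₗ[ℂ] Fock n →ₗ[ℂ] (TF (J₀ ⊕ (J₁ ⊕ J₂)) (Fin n ⊕ Fin n) →ₗ[ℂ] ℂ)) :
    (TF J₀ (Fin n ⊕ Fin n) ⊗[ℂ] Fock n) ⊗[ℂ]
      ((TF J₁ (Fin n ⊕ Fin n) ⊗[ℂ] Fock n) ⊗[ℂ] TF J₂ (Fin n ⊕ Fin n)) →ₗ[ℂ] ℂ :=
  (TensorProduct.lift ((TensorProduct.lift Φ).flip ∘ₗ pr3L)) ∘ₗ
    ((TensorProduct.tensorTensorTensorComm ℂ (TF J₀ (Fin n ⊕ Fin n)) (Fock n)
      (TF J₁ (Fin n ⊕ Fin n) ⊗[ℂ] TF J₂ (Fin n ⊕ Fin n)) (Fock n)).toLinearMap ∘ₗ
      TensorProduct.map LinearMap.id
        (TensorProduct.rightComm ℂ (TF J₁ (Fin n ⊕ Fin n)) (Fock n)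
          (TF J₂ (Fin n ⊕ Fin n))).toLinearMap)

theorem tenF_apply (Φ : Fock n →ₗ[ℂ] Fock n →ₗ[ℂ] (TF (J₀ ⊕ (J₁ ⊕ J₂)) (Fin n ⊕ Fin n) →ₗ[ℂ] ℂ))
    (a₀ : TF J₀ (Fin n ⊕ Fin n)) (a₁ : TF J₁ (Fin n ⊕ Fin n)) (a₂ : TF J₂ (Fin n ⊕ Fin n))
    (φ ψ : Fock n) :
    tenF Φ ((a₀ ⊗ₜ[ℂ] φ) ⊗ₜ[ℂ] ((a₁ ⊗ₜ[ℂ] ψ) ⊗ₜ[ℂ] a₂)) = Φ φ ψ (pr3 a₀ a₁ a₂) := by
  simp [tenF, pr3L_tmul]

theorem tenF_inv (Φ : Fock n →ₗ[ℂ] Fock n →ₗ[ℂ] (TF (J₀ ⊕ (J₁ ⊕ J₂)) (Fin n ⊕ Fin n) →ₗ[ℂ] ℂ))
    (hΦ : ∀ (x : so n) (φ ψ : Fock n) h, Φ φ ψ (act x.1 h) + Φ (rho cl x.1 φ) ψ h +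
      Φ φ (rho cl x.1 ψ) h = 0) (x : so n) (u) : tenF Φ ⁅x, u⁆ = 0 := by
  induction u using TensorProduct.induction_on with
  | zero => simp
  | add u v hu hv => rw [lie_add, map_add, hu, hv, add_zero]
  | tmul p q =>
    induction p using TensorProduct.induction_on with
    | zero => simp
    | add p p' hp hp' => rw [TensorProduct.add_tmul, lie_add, map_add, hp, hp', add_zero]
    | tmul a₀ φ =>
      induction q using TensorProduct.induction_on with
      | zero => simp
      | add q q' hq hq' => rw [TensorProduct.tmul_add, lie_add, map_add, hq, hq', add_zero]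
      | tmul r a₂ =>
        induction r using TensorProduct.induction_on with
        | zero => simp
        | add r r' hr hr' =>
          rw [TensorProduct.add_tmul, TensorProduct.tmul_add, lie_add, map_add, hr, hr', add_zero]
        | tmul a₁ ψ =>
          have h1 := hΦ x φ ψ (pr3 a₀ a₁ a₂)
          rw [act_pr3, map_add, map_add] at h1
          simp only [TensorProduct.LieModule.lie_tmul_right, TensorProduct.tmul_add,
            TensorProduct.add_tmul, map_add, tenF_apply, tf_lie, fock_lie]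
          linear_combination h1

end tensor

end Vale.Agent.P182.H338
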