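import Vale.Agent.P182.H338.BigAdj

/-!
# Parity of spinors; the isotropic spaces of orthogonal frames
-/

namespace Vale.Agent.P182.H338

open scoped InnerProductSpace ComplexConjugate TensorProduct
open LieAlgebra.Orthogonal

attribute [local instance 100] LieRing.ofAssociativeRing

variable {n : ℕ}

/-! ### parity -/

/-- The parity operator. -/
noncomputable def par (n : ℕ) : Module.End ℂ (Fock n) where
  toFun f := WithLp.toLp 2 fun S => (-1 : ℂ) ^ S.card * f S
  map_add' f g := by
    apply fock_ext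
    intro S
    show (-1 : ℂ) ^ S.card * (f + g) S = (-1 : ℂ) ^ S.card * f S + (-1 : ℂ) ^ S.card * g S
    rw [PiLp.add_apply, mul_add]
  map_smul' c f := by
    apply fock_ext
    intro S
    show (-1 : ℂ) ^ S.card * (c • f) S = c * ((-1 : ℂ) ^ S.card * f S)
    rw [PiLp.smul_apply, smul_eq_mul]; ring

theorem par_apply (f : Fock n) (S : Finset (Fin n)) : par n f S = (-1 : ℂ) ^ S.card * f S := rfl

theorem par_cl (b : Fin n ⊕ Fin n) (f : Fock n) : par n (cl b f) = - cl b (par n f) := by
  apply fock_ext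
  intro S
  rw [par_apply]
  rcases b with i | i
  · show (-1 : ℂ) ^ S.card * cr i f S = - cr i (par n f) S
    rw [cr_apply, cr_apply]
    by_cases h : i ∈ S
    · rw [if_pos h, if_pos h, par_apply, Finset.card_erase_of_mem h]
      have h1 : S.card = (S.card - 1) + 1 := by
        have := Finset.card_pos.mpr ⟨i, h⟩
        omega
      conv_lhs => rw [h1]
      rw [pow_succ]
      ring
    · rw [if_neg h, if_neg h, mul_zero, neg_zero]
  · show (-1 : ℂ) ^ S.card * an i f S = - an i (par n f) S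
    rw [an_apply, an_apply]
    by_cases h : i ∈ S
    · rw [if_pos h, if_pos h, mul_zero, neg_zero]
    · rw [if_neg h, if_neg h, par_apply, Finset.card_insert_of_notMem h, pow_succ]
      ring

theorem par_rho (x : so n) (f : Fock n) : par n (rho cl x.1 f) = rho cl x.1 (par n f) := by
  simp only [rho, quad, LinearMap.smul_apply, LinearMap.sum_apply, map_sum, map_smul,
    Module.End.mul_apply, par_cl, map_neg, neg_neg]

theorem Lift.par {g : Matrix (Fin n ⊕ Fin n) (Fin n ⊕ Fin n) ℂ} {G : Module.End ℂ (Fock n)}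
    (h : Lift n g G) (f : Fock n) : H338.par n (G f) = G (H338.par n f) := by
  induction h with
  | one => rfl
  | mul x hx s g G _ ih =>
    rw [ex_root hx, Module.End.mul_apply, Module.End.mul_apply, LinearMap.add_apply,
      LinearMap.add_apply, LinearMap.smul_apply, LinearMap.smul_apply, map_add, map_smul,
      Module.End.one_apply, Module.End.one_apply, par_rho, ih]

theorem par_fv (S : Finset (Fin n)) : par n (fv S) = (-1 : ℂ) ^ S.card • fv S := by
  apply fock_ext
  intro T
  rw [par_apply, PiLp.smul_apply, fv_apply, smul_eq_mul]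
  split_ifs with h
  · rw [h]
  · rw [mul_zero, mul_zero]

theorem BF_par (f g : Fock n) : BF n (par n f) g = (-1 : ℂ) ^ n * BF n f (par n g) := by
  rw [BF_apply, BF_apply, Finset.mul_sum]
  refine Finset.sum_congr rfl fun S _ => ?_
  rw [par_apply, par_apply]
  have h1 : S.card + Sᶜ.card = n := by
    rw [Finset.card_add_card_compl, Fintype.card_fin]
  have h2 : (-1 : ℂ) ^ n = (-1 : ℂ) ^ S.card * (-1 : ℂ) ^ Sᶜ.card := by rw [← pow_add, h1]
  have h3 : (-1 : ℂ) ^ Sᶜ.card * (-1 : ℂ) ^ Sᶜ.card = 1 := by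
    rw [← pow_add, ← two_mul, pow_mul]
    norm_num
  rw [h2]
  linear_combination (-((-1 : ℂ) ^ S.card * eps S * f S * g Sᶜ)) * h3

/-- The spinor pairing respects parity. -/
theorem even_of_BF {g₀ g₁ : Matrix (Fin n ⊕ Fin n) (Fin n ⊕ Fin n) ℂ}
    {G₀ G₁ : Module.End ℂ (Fock n)} (h₀ : Lift n g₀ G₀) (h₁ : Lift n g₁ G₁)
    (S₀ S₁ : Finset (Fin n)) (h : BF n (G₀ (fv S₀)) (G₁ (fv S₁)) ≠ 0) :
    Even (S₀.card + S₁.card + n) := by
  have h2 := BF_par (G₀ (fv S₀)) (G₁ (fv S₁))
  rw [h₀.par, h₁.par, par_fv, par_fv, map_smul, map_smul, map_smul, LinearMap.smul_apply, map_smul,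
    smul_eq_mul, smul_eq_mul, ← mul_assoc] at h2
  have h3 := mul_right_cancel₀ h h2
  by_contra hodd
  rw [Nat.not_even_iff_odd] at hodd
  have h4 : (-1 : ℂ) ^ (S₀.card + S₁.card + n) = -1 := hodd.neg_one_pow
  have h5 : (-1 : ℂ) ^ (S₀.card + S₁.card + n) = 1 := by
    rw [pow_add, pow_add, h3]
    have : (-1 : ℂ) ^ n * (-1 : ℂ) ^ S₁.card * (-1 : ℂ) ^ S₁.card * (-1 : ℂ) ^ n =
        ((-1 : ℂ) ^ n * (-1 : ℂ) ^ n) * ((-1 : ℂ) ^ S₁.card * (-1 : ℂ) ^ S₁.card) := by ring
    rw [this, ← pow_add, ← pow_add, ← two_mul, ← two_mul, pow_mul, pow_mul]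
    norm_num
  rw [h4] at h5
  norm_num at h5

/-! ### orthogonal frames -/

theorem qf_InE {g : Matrix (Fin n ⊕ Fin n) (Fin n ⊕ Fin n) ℂ} (hg : InE n g) (u v : Vec n) :
    qf (g.mulVec u) (g.mulVec v) = qf u v := by
  induction hg with
  | one => rw [Matrix.one_mulVec, Matrix.one_mulVec]
  | mul x hx s g _ ih =>
    have key : ∀ a b : Vec n, qf ((1 + s • x.1).mulVec a) ((1 + s • x.1).mulVec b) = qf a b := by
      intro a b
      rw [Matrix.add_mulVec, Matrix.add_mulVec, Matrix.one_mulVec, Matrix.one_mulVec,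
        Matrix.smul_mulVec, Matrix.smul_mulVec]
      have h1 := qf_inv x a b
      have h2 := qf_inv x a (x.1.mulVec b)
      rw [Matrix.mulVec_mulVec, rootSet_sq hx, Matrix.zero_mulVec, qf_zero_right, add_zero] at h2
      rw [qf_add_left, qf_add_right, qf_add_right, qf_smul_left, qf_smul_right, qf_smul_left,
        qf_smul_right, h2]
      linear_combination s * h1
    rw [← Matrix.mulVec_mulVec, ← Matrix.mulVec_mulVec, key, ih]

theorem InE.exists_inv {g : Matrix (Fin n ⊕ Fin n) (Fin n ⊕ Fin n) ℂ} (hg : InE n g) :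
    ∃ h : Matrix (Fin n ⊕ Fin n) (Fin n ⊕ Fin n) ℂ, g * h = 1 := by
  induction hg with
  | one => exact ⟨1, one_mul 1⟩
  | mul x hx s g _ ih =>
    obtain ⟨h, hh⟩ := ih
    refine ⟨h * (1 - s • x.1), ?_⟩
    have h0 := rootSet_sq hx
    calc (1 + s • x.1) * g * (h * (1 - s • x.1)) = (1 + s • x.1) * (g * h) * (1 - s • x.1) := by
          noncomm_ring
      _ = 1 := by
          rw [hh, mul_one, add_mul, one_mul, mul_sub, mul_one, smul_mul_smul_comm, h0]
          simp

theorem mulVec_std' (g : Matrix (Fin n ⊕ Fin n) (Fin n ⊕ Fin n) ℂ) (b : Fin n ⊕ Fin n) :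
    g.mulVec (std b) = fun b' => g b' b := by
  funext b'
  rw [Matrix.mulVec, dotProduct, Finset.sum_eq_single b]
  · rw [show std b b = (1 : ℂ) from Matrix.one_apply_eq b, mul_one]
  · intro b'' _ hb
    rw [show std b b'' = (0 : ℂ) from Matrix.one_apply_ne hb, mul_zero]
  · intro h; exact absurd (Finset.mem_univ _) h

theorem qf_std (z : Vec n) (b : Fin n ⊕ Fin n) : qf z (std b) = z b.swap := by
  rw [qf, Finset.sum_eq_single b.swap, Finset.sum_eq_single b]
  · rw [JD_eq, if_pos (Sum.swap_swap b).symm, show std b b = (1 : ℂ) from Matrix.one_apply_eq b]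
    ring
  · intro b' _ hb'
    rw [show std b b' = (0 : ℂ) from Matrix.one_apply_ne hb', mul_zero]
  · intro h; exact absurd (Finset.mem_univ _) h
  · intro b' _ hb'
    refine Finset.sum_eq_zero fun b'' _ => ?_
    by_cases h2 : b'' = b
    · rw [JD_eq, if_neg, mul_zero, zero_mul]
      intro e
      apply hb'
      rw [← h2, e, Sum.swap_swap]
    · rw [show std b b'' = (0 : ℂ) from Matrix.one_apply_ne h2, mul_zero]
  · intro h; exact absurd (Finset.mem_univ _) h

theorem frS_swap_ne (S : Finset (Fin n)) (i i' : Fin n) : (frS S i').swap ≠ frS S i := by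
  intro h
  rw [frS, frS] at h
  split_ifs at h with h1 h2 h2
  · exact absurd h (by simp)
  · have := Sum.inr.inj h
    rw [this] at h1
    exact h2 h1
  · have := Sum.inl.inj h
    rw [this] at h1
    exact h1 h2
  · exact absurd h (by simp)

theorem frame_iso {g : Matrix (Fin n ⊕ Fin n) (Fin n ⊕ Fin n) ℂ} (hg : InE n g)
    (S : Finset (Fin n)) (i i' : Fin n) :
    qf (fun b => g b (frS S i)) (fun b => g b (frS S i')) = 0 := by
  rw [← mulVec_std', ← mulVec_std', qf_InE hg, qf_std]
  exact Matrix.one_apply_ne (frS_swap_ne S i i')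

theorem LS_iso {g : Matrix (Fin n ⊕ Fin n) (Fin n ⊕ Fin n) ℂ} (hg : InE n g)
    (S : Finset (Fin n)) {x y : Vec n} (hx : x ∈ LS g S) (hy : y ∈ LS g S) : qf x y = 0 :=
  qf_span _ _ (frame_iso hg S) hx hy

/-- The translated spaces are maximal isotropic. -/
theorem LS_perp {g : Matrix (Fin n ⊕ Fin n) (Fin n ⊕ Fin n) ℂ} (hg : InE n g)
    (S : Finset (Fin n)) {z : Vec n} (hz : ∀ x ∈ LS g S, qf z x = 0) : z ∈ LS g S := by
  obtain ⟨h, hh⟩ := InE.exists_inv hg
  set z' := h.mulVec z with hz'
  have h1 : g.mulVec z' = z := by rw [hz', Matrix.mulVec_mulVec, hh, Matrix.one_mulVec]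
  have h2 : ∀ i, z' (frS S i).swap = 0 := by
    intro i
    have h3 := hz (fun b => g b (frS S i)) (Submodule.subset_span ⟨i, rfl⟩)
    rwa [← mulVec_std', ← h1, qf_InE hg, qf_std] at h3
  have h3 : z' = ∑ i, z' (frS S i) • std (frS S i) := by
    funext b
    rw [Finset.sum_apply]
    have key : ∀ i, (z' (frS S i) • std (frS S i)) b = if b = frS S i then z' b else 0 := by
      intro i
      rw [Pi.smul_apply, smul_eq_mul]
      split_ifs with h4
      · rw [h4, show std (frS S i) (frS S i) = (1 : ℂ) from Matrix.one_apply_eq _, mul_one]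
      · rw [show std (frS S i) b = (0 : ℂ) from Matrix.one_apply_ne h4, mul_zero]
    simp only [key]
    have hb : ∃ i, b = frS S i ∨ b = (frS S i).swap := by
      rcases b with i | i
      · refine ⟨i, ?_⟩
        rw [frS]
        split_ifs
        · exact Or.inl rfl
        · exact Or.inr rfl
      · refine ⟨i, ?_⟩
        rw [frS]
        split_ifs
        · exact Or.inr rfl
        · exact Or.inl rfl
    have hinj : ∀ i i', frS S i = frS S i' → i = i' := by
      intro i i' h
      rw [frS, frS] at h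
      split_ifs at h
      · exact Sum.inl.inj h
      · exact Sum.inr.inj h
    obtain ⟨i, hi | hi⟩ := hb
    · rw [Finset.sum_eq_single i]
      · rw [if_pos hi]
      · intro i' _ hi'
        rw [if_neg]
        intro e
        exact hi' (hinj _ _ (e.symm.trans hi))
      · intro h; exact absurd (Finset.mem_univ _) h
    · rw [hi, h2 i]
      refine (Finset.sum_eq_zero fun i' _ => ?_).symm
      rw [if_neg]
      exact frS_swap_ne S i' i
  rw [← h1, h3]
  have h4 : g.mulVec (∑ i, z' (frS S i) • std (frS S i)) =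
      ∑ i, z' (frS S i) • fun b => g b (frS S i) := by
    rw [← Matrix.mulVecLin_apply, map_sum]
    refine Finset.sum_congr rfl fun i _ => ?_
    rw [map_smul, Matrix.mulVecLin_apply, mulVec_std']
  rw [h4]
  exact Submodule.sum_mem _ fun i _ => Submodule.smul_mem _ _ (Submodule.subset_span ⟨i, rfl⟩)

end Vale.Agent.P182.H338
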