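import Vale.Agent.P182.H338.Conc

/-!
# Parity when two maximal isotropic subspaces meet in a line
-/

namespace Vale.Agent.P182.H338

attribute [local instance 100] LieRing.ofAssociativeRing

variable {n : ℕ}

theorem par_gam (v : Vec n) (f : Fock n) : par n (gam v f) = - gam v (par n f) := by
  simp only [gam, LinearMap.sum_apply, LinearMap.smul_apply, map_sum, map_smul, par_cl,
    smul_neg, Finset.sum_neg_distrib]

/-- Two translated maximal isotropic subspaces which meet in a line: odd parity. -/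
theorem odd_of_line {g₀ g₁ : Matrix (Fin n ⊕ Fin n) (Fin n ⊕ Fin n) ℂ}
    (h₀ : InE n g₀) (h₁ : InE n g₁) (S₀ S₁ : Finset (Fin n)) {u : Vec n} (hu : u ≠ 0)
    (hu0 : u ∈ LS g₀ S₀) (hu1 : u ∈ LS g₁ S₁)
    (hd : ∀ x ∈ LS g₀ S₀, x ∈ LS g₁ S₁ → ∃ t : ℂ, x = t • u) :
    ¬ Even (S₀.card + S₁.card + n) := by
  obtain ⟨w, huw, hww⟩ := exists_dual_vec hu
  obtain ⟨P, hP0, hP1⟩ := exists_proj_odd (fun x hx y hy => LS_iso h₀ S₀ hx hy)
    (fun x hx y hy => LS_iso h₁ S₁ hx hy) (fun z hz => LS_perp h₀ _ hz)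
    (fun z hz => LS_perp h₁ _ hz) hu0 hu1 huw hd
  obtain ⟨G₀, hG₀⟩ := exists_lift h₀
  obtain ⟨G₁, hG₁⟩ := exists_lift h₁
  set s₀ := G₀ (fv S₀) with hs₀
  set s₁ := G₁ (fv S₁) with hs₁
  set s' := gam w s₁ with hs'
  have hvv' : gam w * gam w = 0 := by
    have h1 := gam_sq w
    rw [hww, zero_smul] at h1
    exact (smul_eq_zero.mp h1).resolve_left two_ne_zero
  have hus : gam u s' = s₁ := by
    have h1 := gam_anti u w
    rw [huw, map_one] at h1
    have h2 := congrArg (fun T : Module.End ℂ (Fock n) => T s₁) h1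
    simp only [LinearMap.add_apply, Module.End.mul_apply, Module.End.one_apply] at h2
    rw [hG₁.kill S₁ hu1, map_zero, add_zero] at h2
    exact h2
  have k₀ : ∀ x, gam (x - P x) s₀ = 0 := fun x => hG₀.kill S₀ (hP0 x)
  have k₁ : ∀ x, gam (P x) s' = 0 := by
    intro x
    obtain ⟨z, hz, hzv, hx⟩ := hP1 x
    rw [hx, gam_add, gam_smul, LinearMap.add_apply, LinearMap.smul_apply]
    have h1 := gam_anti z w
    rw [hzv, map_zero] at h1
    have h2 := congrArg (fun T : Module.End ℂ (Fock n) => T s₁) h1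
    simp only [LinearMap.add_apply, Module.End.mul_apply, LinearMap.zero_apply] at h2
    rw [hG₁.kill S₁ hz, map_zero, add_zero] at h2
    have h3 := congrArg (fun T : Module.End ℂ (Fock n) => T s₁) hvv'
    simp only [Module.End.mul_apply, LinearMap.zero_apply] at h3
    rw [hs', h2, h3, smul_zero, add_zero]
  have hcyc : Cyc s' := Cyc.of_gam (u := u) (by rw [hus]; exact hG₁.cyc S₁)
  have h : BF n s₀ s' ≠ 0 := BF_ne_zero (hG₀.ne_zero S₀) hcyc P k₀ k₁
  have h2 := BF_par s₀ s'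
  rw [hs', par_gam, hs₀, hs₁, hG₀.par, hG₁.par, par_fv, par_fv, map_smul, map_smul, map_smul,
    map_neg, map_smul, LinearMap.smul_apply, map_smul, smul_eq_mul, smul_eq_mul] at h2
  intro he
  have h4 : (-1 : ℂ) ^ (S₀.card + S₁.card + n) = 1 := he.neg_one_pow
  have h5 : ((-1 : ℂ) ^ S₀.card) * BF n s₀ s' = - ((-1 : ℂ) ^ n * (-1 : ℂ) ^ S₁.card) * BF n s₀ s' := by
    rw [hs', hs₀, hs₁]
    linear_combination h2
  have h3 := mul_right_cancel₀ h h5
  have h6 : (-1 : ℂ) ^ (S₀.card + S₁.card + n) = -1 := by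
    rw [pow_add, pow_add, h3]
    have : -((-1 : ℂ) ^ n * (-1 : ℂ) ^ S₁.card) * (-1 : ℂ) ^ S₁.card * (-1 : ℂ) ^ n =
        - (((-1 : ℂ) ^ n * (-1 : ℂ) ^ n) * ((-1 : ℂ) ^ S₁.card * (-1 : ℂ) ^ S₁.card)) := by ring
    rw [this, ← pow_add, ← pow_add, ← two_mul, ← two_mul, pow_mul, pow_mul]
    norm_num
  rw [h4] at h6
  norm_num at h6

end Vale.Agent.P182.H338
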