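import Vale.Agent.P182.H163.Base2
import Vale.Agent.P182.H338.AssemblySpin
import Vale.Agent.P182.H338.SDefs
import Vale.Agent.P182.H716.CIso1

/-!
# The numerical function of the doubled weights
-/

namespace Vale.Agent.P182.H338

open Module Matrix LieAlgebra.Orthogonal Vale.Agent.P182.H533 Vale.Agent.P182.B1
open Vale.Agent.P182.H62

variable {n : ℕ} {L : Type*} [Field L]

section col

theorem colTheta_congr {mu mu' : Fin n → ℤ} {c c' : ℕ}
    (hc : ∀ i, c < (mu i).natAbs ↔ c' < (mu' i).natAbs) (hf : ∀ i, fr mu i = fr mu' i)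
    (g : Matrix (Fin n ⊕ Fin n) (Fin n ⊕ Fin n) L) (S : Submodule L (Fin n ⊕ Fin n → L)) :
    colTheta mu g S c = colTheta mu' g S c' := by
  have hsp : fspan mu g c = fspan mu' g c' := by
    rw [fspan, fspan]
    congr 1
    ext v
    simp only [Set.mem_ofPred_eq, hc, hf]
  rw [colTheta, colTheta, hsp]
  simp only [hc]

theorem colTheta_zero {mu : Fin n → ℤ} {c : ℕ} (h : ncol mu ≤ c)
    (g : Matrix (Fin n ⊕ Fin n) (Fin n ⊕ Fin n) L) (S : Submodule L (Fin n ⊕ Fin n → L)) :
    colTheta mu g S c = 0 := by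
  have hc : ∀ i, ¬ c < (mu i).natAbs := fun i => not_lt.mpr
    ((Finset.le_sup (f := fun i => (mu i).natAbs) (Finset.mem_univ i)).trans h)
  have h1 : fspan mu g c = ⊥ := by
    rw [fspan, Submodule.span_eq_bot]
    rintro v ⟨i, hi, _⟩
    exact absurd hi (hc i)
  rw [colTheta, h1, bot_inf_eq, bot_inf_eq, finrank_bot,
    Finset.filter_false_of_mem (fun i _ => hc i)]
  simp

theorem sum_colTheta {mu : Fin n → ℤ} {M : ℕ} (h : ncol mu ≤ M)
    (g : Matrix (Fin n ⊕ Fin n) (Fin n ⊕ Fin n) L) (S : Submodule L (Fin n ⊕ Fin n → L)) :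
    ∑ c ∈ Finset.range (ncol mu), colTheta mu g S c = ∑ c ∈ Finset.range M, colTheta mu g S c := by
  refine Finset.sum_subset (fun x hx => ?_) fun c _ hc => colTheta_zero ?_ g S
  · rw [Finset.mem_range] at hx ⊢
    omega
  · rw [Finset.mem_range] at hc
    omega

theorem sum_half (f : ℕ → ℤ) (M : ℕ) :
    ∑ c ∈ Finset.range (2 * M), f ((c + 1) / 2) + f 0 = 2 * ∑ c ∈ Finset.range M, f c + f M := by
  induction M with
  | zero => simp
  | succ M ih =>
    rw [Nat.mul_succ, Finset.sum_range_succ, Finset.sum_range_succ, Finset.sum_range_succ]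
    have e1 : (2 * M + 1) / 2 = M := by omega
    have e2 : (2 * M + 1 + 1) / 2 = M + 1 := by omega
    rw [e1, e2]
    linarith

theorem arm_dbl {lam : Fin 3 → Fin n → ℤ} {s : Fin 3} (hs : s ≠ 2) (h0 : ∀ i, lam s i ≠ 0)
    (g : Matrix (Fin n ⊕ Fin n) (Fin n ⊕ Fin n) L) (S : Submodule L (Fin n ⊕ Fin n → L)) :
    ∑ c ∈ Finset.range (ncol (dbl lam s)), colTheta (dbl lam s) g S c + colTheta (lam s) g S 0 =
      2 * ∑ c ∈ Finset.range (ncol (lam s)), colTheta (lam s) g S c := by
  set M := max (ncol (lam s)) (ncol (dbl lam s)) with hM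
  rw [sum_colTheta (M := 2 * M) (by omega), sum_colTheta (mu := lam s) (M := M) (by omega)]
  have h1 : ∀ c, colTheta (dbl lam s) g S c = colTheta (lam s) g S ((c + 1) / 2) := by
    intro c
    refine colTheta_congr (fun i => ?_) (fun i => ?_) g S
    · have := h0 i
      rw [dbl, if_neg hs]
      split_ifs with h2
      · omega
      · omega
    · have := h0 i
      rw [fr, fr, dbl, if_neg hs]
      by_cases h2 : 0 < lam s i
      · rw [if_pos h2, if_neg (by omega), if_neg (by omega)]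
      · rw [if_neg h2, if_pos (by omega), if_pos (by omega)]
  rw [Finset.sum_congr rfl fun c _ => h1 c, sum_half]
  rw [colTheta_zero (c := M) (by omega), add_zero]

theorem arm_dbl_two (lam : Fin 3 → Fin n → ℤ)
    (g : Matrix (Fin n ⊕ Fin n) (Fin n ⊕ Fin n) L) (S : Submodule L (Fin n ⊕ Fin n → L)) :
    ∑ c ∈ Finset.range (ncol (dbl lam 2)), colTheta (dbl lam 2) g S c =
      2 * ∑ c ∈ Finset.range (ncol (lam 2)), colTheta (lam 2) g S c := by
  set M := max (ncol (lam 2)) (ncol (dbl lam 2)) with hM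
  rw [sum_colTheta (M := 2 * M) (by omega), sum_colTheta (mu := lam 2) (M := M) (by omega)]
  have h1 : ∀ c, colTheta (dbl lam 2) g S c = colTheta (lam 2) g S (c / 2) := by
    intro c
    refine colTheta_congr (fun i => ?_) (fun i => ?_) g S
    · rw [dbl, if_pos rfl]
      omega
    · rw [fr, fr, dbl, if_pos rfl]
      by_cases h2 : lam 2 i < 0
      · rw [if_pos h2, if_pos (by omega)]
      · rw [if_neg h2, if_neg (by omega)]
  rw [Finset.sum_congr rfl fun c _ => h1 c, sum_range_div 2 M (by norm_num)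
    (fun c => colTheta (lam 2) g S c)]
  norm_num

end col

section full

variable {lam : Fin 3 → Fin n → ℤ} {g : Fin 3 → Matrix (Fin n ⊕ Fin n) (Fin n ⊕ Fin n) L}

theorem fspan_full {s : Fin 3} (h0 : ∀ i, lam s i ≠ 0) :
    fspan (lam s) (g s) 0 = Fl (frm lam g s) n := by
  rw [fspan, Fl]
  congr 1
  ext v
  constructor
  · rintro ⟨i, hi, rfl⟩
    exact ⟨i, i.2, rfl⟩
  · rintro ⟨i, hi, rfl⟩
    exact ⟨i, Int.natAbs_pos.mpr (h0 i), rfl⟩

theorem colTheta_full (hg : ∀ s, (g s).transpose * JD (Fin n) L * g s = JD (Fin n) L)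
    {s : Fin 3} (h0 : ∀ i, lam s i ≠ 0) (S : Submodule L (Fin n ⊕ Fin n → L)) :
    colTheta (lam s) (g s) S 0 =
      2 * (finrank L (S ⊓ Fl (frm lam g s) n : Submodule L _) : ℤ) - finrank L S := by
  have h1 : fspan (lam s) (g s) 0 = Fl (frm lam g s) n := fspan_full h0
  have h2 := dim_swap (H922.isForm_qB (n := n) (L := L)) (Fl (frm lam g s) n) S
  have h3 := finrank_Fl (frm_indep (lam := lam) hg s) (le_refl n)
  rw [perp_Fl_top (frm_indep (lam := lam) hg s) (frm_iso hg s) rfl] at h2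
  rw [colTheta, h1, qperp_eq]
  have h4 : ((Finset.univ.filter fun i : Fin n => 0 < (lam s i).natAbs).card) = n := by
    rw [Finset.filter_true_of_mem fun i _ => Int.natAbs_pos.mpr (h0 i), Finset.card_univ,
      Fintype.card_fin]
  rw [h4, inf_comm (Fl _ _) S]
  omega

variable (h0 : ∀ i, lam 0 i ≠ 0) (h1 : ∀ i, lam 1 i ≠ 0) (hn : 0 < n)

theorem ht_C0 : ht lam (C0 h0 hn) = n := by
  rw [ht]
  have : (Finset.univ.filter fun i : Fin n =>
      ((C0 h0 hn : ColT lam).2 : ℕ) < (lam (C0 h0 hn : ColT lam).1 i).natAbs) = Finset.univ :=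
    Finset.filter_true_of_mem fun i _ => Int.natAbs_pos.mpr (h0 i)
  rw [this, Finset.card_univ, Fintype.card_fin]

theorem ht_C1 : ht lam (C1 h1 hn) = n := by
  rw [ht]
  have : (Finset.univ.filter fun i : Fin n =>
      ((C1 h1 hn : ColT lam).2 : ℕ) < (lam (C1 h1 hn : ColT lam).1 i).natAbs) = Finset.univ :=
    Finset.filter_true_of_mem fun i _ => Int.natAbs_pos.mpr (h1 i)
  rw [this, Finset.card_univ, Fintype.card_fin]

theorem wCfg_C0 (Ω : ColT lam → ColT lam → L) :
    (wCfg lam g Ω).C (C0 h0 hn) = Fl (frm lam g 0) n := by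
  show Fl (frm lam g 0) (ht lam (C0 h0 hn)) = _
  rw [ht_C0]

theorem wCfg_C1 (Ω : ColT lam → ColT lam → L) :
    (wCfg lam g Ω).C (C1 h1 hn) = Fl (frm lam g 1) n := by
  show Fl (frm lam g 1) (ht lam (C1 h1 hn)) = _
  rw [ht_C1]

/-- **The numerical function of the doubled weights is twice the special one.** -/
theorem theta_dbl (hl : ∀ s, DomZ (lam s))
    (hg : ∀ s, (g s).transpose * JD (Fin n) L * g s = JD (Fin n) L)
    (Ω : ColT lam → ColT lam → L) (S : Submodule L (Fin n ⊕ Fin n → L)) :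
    theta (dbl lam) g S = 2 * thetaS (wCfg lam g Ω) (C0 h0 hn) (C1 h1 hn) S := by
  rw [thetaS, wCfg_theta hl hg, wCfg_C0, wCfg_C1, theta, theta, Fin.sum_univ_three,
    Fin.sum_univ_three]
  have a0 := arm_dbl (lam := lam) (s := 0) (by decide) h0 (g 0) S
  have a1 := arm_dbl (lam := lam) (s := 1) (by decide) h1 (g 1) S
  have a2 := arm_dbl_two lam (g 2) S
  have b0 := colTheta_full hg h0 S
  have b1 := colTheta_full hg h1 S
  linarith

end full

section iso

universe u v v' w

theorem thetaS_ciso {L : Type u} {V : Type v} {V' : Type v'} {J : Type w} [Field L]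
    [AddCommGroup V] [Module L V] [AddCommGroup V'] [Module L V'] [Fintype J] {D : Cfg L V J}
    {D' : Cfg L V' J} (i : CIso D D') (c0 c1 : J) (S : Submodule L V) :
    thetaS D' c0 c1 (S.map i.e.toLinearMap) = thetaS D c0 c1 S := by
  rw [thetaS, thetaS, H716.cIso_theta, H716.ciso_C' i, H716.ciso_C' i, H716.cIso_finrank_inf i,
    H716.cIso_finrank_inf i]
  have h1 : finrank L (S.map i.e.toLinearMap) = finrank L S := LinearEquiv.finrank_map_eq i.e S
  rw [h1]

end iso

end Vale.Agent.P182.H338
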