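import Mathlib.LinearAlgebra.Matrix.ToLinearEquiv
import Mathlib.LinearAlgebra.Matrix.Adjugate

/-!
# The adjugate and the dimension of the kernel
-/

namespace Vale.Agent.P182.H338

open Matrix

section adj

variable {ι K : Type*} [Fintype ι] [DecidableEq ι] [Field K]

/-- A matrix with kernel of dimension at most one has a nonzero adjugate. -/
theorem adjugate_ne_zero_of_ker [Nonempty ι] {M : Matrix ι ι K}
    (h : ∀ x y : ι → K, M *ᵥ x = 0 → M *ᵥ y = 0 → x ≠ 0 → ∃ t : K, y = t • x) :
    M.adjugate ≠ 0 := by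
  by_cases hd : M.det = 0
  · obtain ⟨z, hz, hMz⟩ := Matrix.exists_mulVec_eq_zero_iff.mpr hd
    obtain ⟨y, hy, hyM⟩ := Matrix.exists_vecMul_eq_zero_iff.mpr hd
    obtain ⟨i, hi⟩ := Function.ne_iff.mp hz
    obtain ⟨j, hj⟩ := Function.ne_iff.mp hy
    intro h0
    have h1 : (M.updateRow j (Pi.single i 1)).det = 0 := by
      rw [← adjugate_apply, h0]; rfl
    obtain ⟨v, hv, hMv⟩ := Matrix.exists_mulVec_eq_zero_iff.mpr h1
    have hvi : v i = 0 := by
      have := congrFun hMv j
      simpa [mulVec, updateRow_self] using this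
    have hrow : ∀ k, k ≠ j → (M *ᵥ v) k = 0 := by
      intro k hk
      have := congrFun hMv k
      simpa [mulVec, updateRow_ne hk] using this
    have hMv0 : M *ᵥ v = 0 := by
      funext k
      by_cases hk : k = j
      · subst hk
        have h2 : y ⬝ᵥ (M *ᵥ v) = 0 := by rw [dotProduct_mulVec, hyM, zero_dotProduct]
        rw [dotProduct, Finset.sum_eq_single k] at h2
        · exact (mul_eq_zero.mp h2).resolve_left hj
        · intro l _ hl; rw [hrow l hl, mul_zero]
        · intro h; exact absurd (Finset.mem_univ _) h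
      · exact hrow k hk
    obtain ⟨t, ht⟩ := h z v hMz hMv0 hz
    have ht0 : t = 0 := by
      have h3 := congrFun ht i
      rw [hvi, Pi.smul_apply, smul_eq_mul] at h3
      exact (mul_eq_zero.mp h3.symm).resolve_right hi
    apply hv
    rw [ht, ht0, zero_smul]
  · intro h0
    have h1 := Matrix.mul_adjugate M
    rw [h0, mul_zero] at h1
    obtain ⟨i⟩ := ‹Nonempty ι›
    have := congrFun (congrFun h1 i) i
    simp at this
    exact hd this.symm

/-- A matrix with nonzero adjugate has a left kernel of dimension at most one. -/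
theorem prop_of_adjugate {M : Matrix ι ι K} (h : M.adjugate ≠ 0) {x y : ι → K}
    (hx : x ᵥ* M = 0) (hy : y ᵥ* M = 0) (hx0 : x ≠ 0) : ∃ t : K, y = t • x := by
  obtain ⟨i, j, hij⟩ : ∃ i j, M.adjugate i j ≠ 0 := by
    by_contra hcon
    push Not at hcon
    exact h (Matrix.ext fun i j => hcon i j)
  rw [adjugate_apply] at hij
  have h1 : ∀ z : ι → K, z ᵥ* M = 0 → z j = 0 → z = 0 := by
    intro z hz hzj
    by_contra hz0
    apply hij
    rw [← Matrix.exists_vecMul_eq_zero_iff]
    refine ⟨z, hz0, ?_⟩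
    funext k
    have h2 := congrFun hz k
    rw [vecMul, dotProduct] at h2 ⊢
    rw [← h2]
    refine Finset.sum_congr rfl fun l _ => ?_
    by_cases hl : l = j
    · subst hl; rw [hzj, zero_mul, zero_mul]
    · rw [updateRow_ne hl]
  have hxj : x j ≠ 0 := fun h => hx0 (h1 x hx h)
  refine ⟨y j / x j, ?_⟩
  have h2 := h1 (y - (y j / x j) • x) (by rw [sub_vecMul, smul_vecMul, hx, hy]; simp)
    (by simp [hxj])
  exact sub_eq_zero.mp h2

end adj

end Vale.Agent.P182.H338
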