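import Vale.Agent.P182.H163.Base2
import Vale.Agent.P182.H338.SLin

/-!
# The kernel of the Gram matrix and the kernel of the configuration
-/

namespace Vale.Agent.P182.H338

open Module Matrix LieAlgebra.Orthogonal Vale.Agent.P182.H533

variable {n : ℕ} {L : Type*} [Field L]

/-- the family attached to a vector of coefficients -/
def fam (lam : Fin 3 → Fin n → ℤ) (g : Fin 3 → Matrix (Fin n ⊕ Fin n) (Fin n ⊕ Fin n) L)
    (z : CellT lam → L) (l : ColT lam) : Fin n ⊕ Fin n → L :=
  ∑ i : RowT lam l, z ⟨l, i⟩ • cv lam g ⟨l, i⟩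

variable {lam : Fin 3 → Fin n → ℤ} {g : Fin 3 → Matrix (Fin n ⊕ Fin n) (Fin n ⊕ Fin n) L}

theorem fam_smul (a : L) (z : CellT lam → L) : fam lam g (a • z) = a • fam lam g z := by
  funext l
  rw [Pi.smul_apply, fam, fam, Finset.smul_sum]
  exact Finset.sum_congr rfl fun i _ => by rw [Pi.smul_apply, smul_eq_mul, mul_smul]

theorem fam_sub (z z' : CellT lam → L) : fam lam g (z - z') = fam lam g z - fam lam g z' := by
  funext l
  rw [Pi.sub_apply, fam, fam, fam, ← Finset.sum_sub_distrib]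
  exact Finset.sum_congr rfl fun i _ => by rw [Pi.sub_apply, sub_smul]

theorem fam_eq_zero (hg : ∀ s, (g s).transpose * JD (Fin n) L * g s = JD (Fin n) L)
    {z : CellT lam → L} (h : fam lam g z = 0) : z = 0 := by
  funext ⟨l, i⟩
  have h1 := congrFun h l
  have h2 := congrArg (fun v => qf v (fun b => g l.1 b (Sum.swap (fr (lam l.1) i.1)))) h1
  have h3 : ∀ i' : RowT lam l, qf (cv lam g ⟨l, i'⟩)
      (fun b => g l.1 b (Sum.swap (fr (lam l.1) i.1))) = if i' = i then 1 else 0 := by
    intro i'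
    have := frm_dual (lam := lam) hg l.1 i'.1 i.1
    refine this.trans ?_
    simp only [Subtype.ext_iff]
  simp only [fam, qf_sum_left, h3] at h2
  simpa [← qB_apply] using h2

theorem fam_mem_K (hl : ∀ s, DomZ (lam s)) (Ω : ColT lam → ColT lam → L) {z : CellT lam → L}
    (hz0 : gramT lam g Ω *ᵥ z = 0) : fam lam g z ∈ (wCfg lam g Ω).K := by
  have hom : ∀ l, (wCfg lam g Ω).om (fam lam g z) l =
      ∑ j : CellT lam, (Ω l j.1 * z j) • cv lam g j := by
    intro l
    rw [B1.Cfg.om]
    conv_rhs => rw [Fintype.sum_sigma]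
    refine Finset.sum_congr rfl fun k _ => ?_
    show Ω l k • ∑ i : RowT lam k, z ⟨k, i⟩ • cv lam g ⟨k, i⟩ = _
    rw [Finset.smul_sum]
    exact Finset.sum_congr rfl fun i _ => by rw [smul_smul]
  rw [B1.Cfg.mem_K]
  constructor
  · intro l
    refine Submodule.sum_mem _ fun i _ => Submodule.smul_mem _ _ ?_
    exact Submodule.subset_span ⟨i.1, (lt_ht hl l i.1).mpr i.2, rfl⟩
  · intro l
    show (wCfg lam g Ω).om (fam lam g z) l ∈ perp (qB n L) (Fl (frm lam g l.1) (ht lam l))
    have key : ∀ v ∈ Fl (frm lam g l.1) (ht lam l),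
        qB n L ((wCfg lam g Ω).om (fam lam g z) l) v = 0 := by
      intro v hv
      induction hv using Submodule.span_induction with
      | mem v hv =>
        obtain ⟨i, hi, rfl⟩ := hv
        have h1 := congrFun hz0 ⟨l, ⟨i, (lt_ht hl l i).mp hi⟩⟩
        rw [Pi.zero_apply] at h1
        rw [hom, map_sum, LinearMap.sum_apply, ← h1, Matrix.mulVec, dotProduct]
        refine Finset.sum_congr rfl fun j _ => ?_
        rw [map_smul, LinearMap.smul_apply, qB_apply, qf_symm, gramT, Matrix.of_apply,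
          smul_eq_mul]
        show _ = Ω l j.1 * qf (frm lam g l.1 i) (cv lam g j) * z j
        ring
      | zero => rw [map_zero]
      | add w w' _ _ h1 h2 => rw [map_add, h1, h2, add_zero]
      | smul x w _ h1 => rw [map_smul, h1, smul_zero]
    exact key

/-- A configuration with kernel of dimension at most one: the adjugate of the Gram matrix is
nonzero. -/
theorem adj_of_K [Nonempty (CellT lam)] (hl : ∀ s, DomZ (lam s))
    (hg : ∀ s, (g s).transpose * JD (Fin n) L * g s = JD (Fin n) L)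
    (Ω : ColT lam → ColT lam → L) (hK : finrank L (wCfg lam g Ω).K ≤ 1) :
    (gramT lam g Ω).adjugate ≠ 0 := by
  refine adjugate_ne_zero_of_ker fun x y hx hy hx0 => ?_
  obtain ⟨⟨u, hu⟩, hu'⟩ := (finrank_le_one_iff (K := L) (V := (wCfg lam g Ω).K)).mp hK
  obtain ⟨a, ha⟩ := hu' ⟨_, fam_mem_K hl Ω hx⟩
  obtain ⟨b, hb⟩ := hu' ⟨_, fam_mem_K hl Ω hy⟩
  have ha' : a • u = fam lam g x := congrArg Subtype.val ha
  have hb' : b • u = fam lam g y := congrArg Subtype.val hb
  have ha0 : a ≠ 0 := by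
    rintro rfl
    rw [zero_smul] at ha'
    exact hx0 (fam_eq_zero hg ha'.symm)
  refine ⟨b / a, ?_⟩
  have h1 : fam lam g (y - (b / a) • x) = 0 := by
    rw [fam_sub, fam_smul, ← ha', ← hb', smul_smul, div_mul_cancel₀ _ ha0, sub_self]
  exact sub_eq_zero.mp (fam_eq_zero hg h1)

end Vale.Agent.P182.H338
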