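import Vale.Agent.P182.H163.Base3
import Vale.Agent.P182.H338.SLin
import Vale.Agent.P182.H338.ParOdd
import Vale.Agent.P182.H338.AssemblySpin

/-!
# The parity of the intersection of two generic Lagrangian subspaces
-/

namespace Vale.Agent.P182.H338

open Module Matrix LieAlgebra.Orthogonal Vale.Agent.P182.H533

attribute [local instance 100] LieRing.ofAssociativeRing

variable {n : ℕ}

/-- the pairing of two frames -/
def pm {K : Type*} [CommRing K] (lam : Fin 3 → Fin n → ℤ)
    (g : Fin 3 → Matrix (Fin n ⊕ Fin n) (Fin n ⊕ Fin n) K) : Matrix (Fin n) (Fin n) K :=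
  Matrix.of fun i j => qf (fun b => g 0 b (fr (lam 0) i)) (fun b => g 1 b (fr (lam 1) j))

theorem pm_map {K K' : Type*} [CommRing K] [CommRing K'] (φ : K →+* K') (lam : Fin 3 → Fin n → ℤ)
    (g : Fin 3 → Matrix (Fin n ⊕ Fin n) (Fin n ⊕ Fin n) K) :
    pm lam (fun s => (g s).map φ) = (pm lam g).map φ := by
  ext i j
  show qf (fun b => φ (g 0 b (fr (lam 0) i))) (fun b => φ (g 1 b (fr (lam 1) j))) =
    φ (qf (fun b => g 0 b (fr (lam 0) i)) (fun b => g 1 b (fr (lam 1) j)))
  rw [qf, qf, map_sum]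
  refine Finset.sum_congr rfl fun b _ => ?_
  rw [map_sum]
  refine Finset.sum_congr rfl fun b' _ => ?_
  rw [map_mul, map_mul, JD_map]

section fld

variable {K : Type*} [Field K] {lam : Fin 3 → Fin n → ℤ}
  {g : Fin 3 → Matrix (Fin n ⊕ Fin n) (Fin n ⊕ Fin n) K}

/-- the top stage -/
theorem Fl_top (e : Fin n → Fin n ⊕ Fin n → K) : Fl e n = Submodule.span K (Set.range e) := by
  rw [Fl]
  congr 1
  ext v
  constructor
  · rintro ⟨i, _, rfl⟩
    exact ⟨i, rfl⟩
  · rintro ⟨i, rfl⟩
    exact ⟨i, i.2, rfl⟩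

theorem pm_vec (a : Fin n → K) (j : Fin n) :
    (a ᵥ* pm lam g) j = qf (∑ i, a i • frm lam g 0 i) (frm lam g 1 j) := by
  rw [qf_sum_left, vecMul, dotProduct]
  rfl

theorem pm_zero_iff (hg : ∀ s, (g s).transpose * JD (Fin n) K * g s = JD (Fin n) K)
    (a : Fin n → K) : a ᵥ* pm lam g = 0 ↔
      ∑ i, a i • frm lam g 0 i ∈ Fl (frm lam g 0) n ⊓ Fl (frm lam g 1) n := by
  have h0 : ∑ i, a i • frm lam g 0 i ∈ Fl (frm lam g 0) n :=
    Submodule.sum_mem _ fun i _ => Submodule.smul_mem _ _ (Submodule.subset_span ⟨i, i.2, rfl⟩)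
  constructor
  · intro h
    refine ⟨h0, ?_⟩
    rw [← perp_Fl_top (frm_indep (lam := lam) hg 1) (frm_iso hg 1) rfl]
    have key : ∀ v ∈ Fl (frm lam g 1) n, qB n K (∑ i, a i • frm lam g 0 i) v = 0 := by
      intro v hv
      induction hv using Submodule.span_induction with
      | mem v hv =>
        obtain ⟨j, _, rfl⟩ := hv
        have h1 := congrFun h j
        rw [pm_vec] at h1
        exact h1
      | zero => rw [map_zero]
      | add w w' _ _ h1 h2 => rw [map_add, h1, h2, add_zero]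
      | smul x w _ h1 => rw [map_smul, h1, smul_zero]
    exact key
  · rintro ⟨-, h⟩
    funext j
    rw [pm_vec]
    exact Fl_iso (frm_iso hg 1) _ h _ (Submodule.subset_span ⟨j, j.2, rfl⟩)

theorem exists_coef {x : Fin n ⊕ Fin n → K} (hx : x ∈ Fl (frm lam g 0) n) :
    ∃ a : Fin n → K, x = ∑ i, a i • frm lam g 0 i := by
  rw [Fl_top] at hx
  obtain ⟨a, ha⟩ := (Submodule.mem_span_range_iff_exists_fun K).mp hx
  exact ⟨a, ha.symm⟩

theorem coef_unique (hg : ∀ s, (g s).transpose * JD (Fin n) K * g s = JD (Fin n) K)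
    {a : Fin n → K} (h : ∑ i, a i • frm lam g 0 i = 0) : a = 0 :=
  funext (Fintype.linearIndependent_iff.mp (frm_indep (lam := lam) hg 0) a h)

/-- a line: the adjugate of the pairing is nonzero, the determinant vanishes -/
theorem pm_of_line (hn : 0 < n) (hg : ∀ s, (g s).transpose * JD (Fin n) K * g s = JD (Fin n) K)
    (h : finrank K (Fl (frm lam g 0) n ⊓ Fl (frm lam g 1) n : Submodule K _) = 1) :
    (pm lam g).det = 0 ∧ (pm lam g).adjugate ≠ 0 := by
  have : Nonempty (Fin n) := ⟨⟨0, hn⟩⟩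
  obtain ⟨⟨u, hu⟩, hu'⟩ := (finrank_le_one_iff (K := K)
    (V := (Fl (frm lam g 0) n ⊓ Fl (frm lam g 1) n : Submodule K _))).mp h.le
  have hu0 : u ≠ 0 := by
    rintro rfl
    have h1 : (Fl (frm lam g 0) n ⊓ Fl (frm lam g 1) n : Submodule K _) = ⊥ := by
      rw [eq_bot_iff]
      intro x hx
      obtain ⟨c, hc⟩ := hu' ⟨x, hx⟩
      have h2 := congrArg Subtype.val hc
      rw [Submodule.mem_bot]
      have h3 : c • (0 : Fin n ⊕ Fin n → K) = x := h2
      rw [← h3, smul_zero]
    rw [h1, finrank_bot] at h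
    exact absurd h (by norm_num)
  constructor
  · obtain ⟨a, ha⟩ := exists_coef hu.1
    rw [← Matrix.exists_vecMul_eq_zero_iff]
    refine ⟨a, ?_, ?_⟩
    · rintro rfl
      apply hu0
      rw [ha]
      simp
    · rw [pm_zero_iff hg, ← ha]
      exact hu
  · have h1 : (pm lam g)ᵀ.adjugate ≠ 0 := by
      refine adjugate_ne_zero_of_ker fun x y hx hy hx0 => ?_
      rw [Matrix.mulVec_transpose, pm_zero_iff hg] at hx hy
      obtain ⟨a, ha⟩ := hu' ⟨_, hx⟩
      obtain ⟨b, hb⟩ := hu' ⟨_, hy⟩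
      have ha' : a • u = ∑ i, x i • frm lam g 0 i := congrArg Subtype.val ha
      have hb' : b • u = ∑ i, y i • frm lam g 0 i := congrArg Subtype.val hb
      have ha0 : a ≠ 0 := by
        rintro rfl
        rw [zero_smul] at ha'
        exact hx0 (coef_unique hg ha'.symm)
      refine ⟨b / a, ?_⟩
      have h1 : y - (b / a) • x = 0 := by
        refine coef_unique (lam := lam) hg ?_
        have h2 : ∑ i, (y - (b / a) • x) i • frm lam g 0 i =
            ∑ i, y i • frm lam g 0 i - (b / a) • ∑ i, x i • frm lam g 0 i := by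
          rw [Finset.smul_sum, ← Finset.sum_sub_distrib]
          refine Finset.sum_congr rfl fun i _ => ?_
          rw [Pi.sub_apply, Pi.smul_apply, smul_eq_mul, sub_smul, mul_smul]
        rw [h2, ← ha', ← hb', smul_smul, div_mul_cancel₀ _ ha0, sub_self]
      exact sub_eq_zero.mp h1
    intro h0
    apply h1
    rw [← adjugate_transpose, h0]
    rfl

end fld

/-- **Parity at the generic point**: if the number `|S₀| + |S₁| + n` is even, the two generic
Lagrangian spaces do not meet in a line. -/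
theorem not_line (hn : 0 < n) {lam : Fin 3 → Fin n → ℤ} (h0 : ∀ i, lam 0 i ≠ 0)
    (h1 : ∀ i, lam 1 i ≠ 0) {C : Type} {l : List (so n)} (hlr : ∀ x ∈ l, x ∈ rootSet n)
    (hg : ∀ s, (gF C l s).transpose * JD (Fin n) (GF C) * gF C l s = JD (Fin n) (GF C))
    (he : Even ((posS (lam 0)).card + (posS (lam 1)).card + n)) :
    finrank (GF C) (Fl (frm lam (gF C l) 0) n ⊓ Fl (frm lam (gF C l) 1) n :
      Submodule (GF C) _) ≠ 1 := by
  intro hline
  obtain ⟨hd, ha⟩ := pm_of_line hn hg hline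
  have hmap : pm lam (gF C l) = (pm lam (genG C l)).map (toGF C).toRingHom :=
    pm_map (toGF C).toRingHom lam (genG C l)
  have hd' : (pm lam (genG C l)).det = 0 := by
    rw [hmap, ← RingHom.mapMatrix_apply, ← RingHom.map_det] at hd
    exact toGF_injective (hd.trans (map_zero _).symm)
  have ha' : (pm lam (genG C l)).adjugate ≠ 0 := by
    intro h
    apply ha
    rw [hmap, adjugate_map, h]
    ext i j
    simp
  obtain ⟨i, j, hij⟩ : ∃ i j, (pm lam (genG C l)).adjugate i j ≠ 0 := by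
    by_contra hcon
    push Not at hcon
    exact ha' (Matrix.ext fun i j => hcon i j)
  obtain ⟨ev, hev⟩ := exists_ev hij
  let g : Fin 3 → Matrix (Fin n ⊕ Fin n) (Fin n ⊕ Fin n) ℂ := fun s => (genG C l s).map ev
  have hmap2 : pm lam g = (pm lam (genG C l)).map ev.toRingHom :=
    pm_map ev.toRingHom lam (genG C l)
  have hE : ∀ s, InE n (g s) := fun s => genG_ev hlr ev s
  have hgo : ∀ s, (g s).transpose * JD (Fin n) ℂ * g s = JD (Fin n) ℂ := by
    intro s
    have h := genG_orth (C := C) hlr s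
    have h1 := congrArg (fun M : Matrix _ _ (GR C) => M.map ev.toRingHom) h
    simp only [Matrix.map_mul] at h1
    have h2 : (genG C l s).transpose.map ev.toRingHom = (g s).transpose := rfl
    have h3 : (JD (Fin n) (GR C)).map ev.toRingHom = JD (Fin n) ℂ := by
      ext b b'
      exact JD_map ev.toRingHom b b'
    rw [h2, h3] at h1
    exact h1
  have hd2 : (pm lam g).det = 0 := by
    rw [hmap2, ← RingHom.mapMatrix_apply, ← RingHom.map_det, hd', map_zero]
  have ha2 : (pm lam g).adjugate ≠ 0 := by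
    rw [hmap2, adjugate_map]
    intro h
    apply hev
    have := congrFun (congrFun h i) j
    simpa using this
  have hLS : ∀ s : Fin 3, (∀ i, lam s i ≠ 0) → LS (g s) (posS (lam s)) = Fl (frm lam g s) n := by
    intro s hs
    rw [Fl_top, LS]
    congr 2
    funext i b
    show g s b (frS (posS (lam s)) i) = g s b (fr (lam s) i)
    rw [fr_eq_frS (hs i)]
  obtain ⟨a, ha0, haM⟩ := Matrix.exists_vecMul_eq_zero_iff.mpr hd2
  have hu := (pm_zero_iff hgo a).mp haM
  have hu0 : ∑ i, a i • frm lam g 0 i ≠ 0 := fun h => ha0 (coef_unique hgo h)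
  refine odd_of_line (hE 0) (hE 1) (posS (lam 0)) (posS (lam 1)) hu0 (by rw [hLS 0 h0]; exact hu.1)
    (by rw [hLS 1 h1]; exact hu.2) (fun x hx hx' => ?_) he
  rw [hLS 0 h0] at hx
  rw [hLS 1 h1] at hx'
  obtain ⟨b, rfl⟩ := exists_coef hx
  have hb := (pm_zero_iff hgo b).mpr ⟨hx, hx'⟩
  obtain ⟨t, ht⟩ := prop_of_adjugate ha2 haM hb ha0
  refine ⟨t, ?_⟩
  rw [ht, Finset.smul_sum]
  exact Finset.sum_congr rfl fun i _ => by rw [Pi.smul_apply, smul_eq_mul, mul_smul]

end Vale.Agent.P182.H338
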