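import Vale.Agent.P182.H588.Full
import Vale.Agent.P182.H338.SDbl
import Vale.Agent.P182.H338.SKer
import Vale.Agent.P182.H338.SPar

/-!
# The special base point, and the spin core from `T` for special configurations
-/

namespace Vale.Agent.P182.H338

open Module Matrix TensorProduct LieAlgebra.Orthogonal Vale.Agent.P182.H533 Vale.Agent.P182.B1
open Vale.Agent.P182.H62

attribute [local instance 100] LieRing.ofAssociativeRing

variable {n : ℕ}

theorem gF_orth {C : Type} {l : List (so n)} (hl : ∀ x ∈ l, x ∈ rootSet n) (s : Fin 3) :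
    (gF C l s).transpose * JD (Fin n) (GF C) * gF C l s = JD (Fin n) (GF C) :=
  H588.map_orth (toGF C).toRingHom (genG_orth hl s)

section special

variable {lam : Fin 3 → Fin n → ℤ} (h0 : ∀ i, lam 0 i ≠ 0) (h1 : ∀ i, lam 1 i ≠ 0) (hn : 0 < n)

open Classical in
/-- replacement of the full columns against the column `k` -/
noncomputable def rD (k l : ColT lam) : ColT lam :=
  if (l = C0 h0 hn ∨ l = C1 h1 hn) ∧ k ≠ C0 h0 hn ∧ k ≠ C1 h1 hn then
    (if k.1 = 0 then C1 h1 hn else C0 h0 hn) else l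

theorem rD_other {k l : ColT lam} (e0 : l ≠ C0 h0 hn) (e1 : l ≠ C1 h1 hn) :
    rD h0 h1 hn k l = l := if_neg fun h => h.1.elim e0 e1

theorem rD_in0 (l : ColT lam) : rD h0 h1 hn (C0 h0 hn) l = l := if_neg fun h => h.2.1 rfl

theorem rD_in1 (l : ColT lam) : rD h0 h1 hn (C1 h1 hn) l = l := if_neg fun h => h.2.2 rfl

theorem rD_C0 {k : ColT lam} (e0 : k ≠ C0 h0 hn) (e1 : k ≠ C1 h1 hn) :
    rD h0 h1 hn k (C0 h0 hn) = if k.1 = 0 then C1 h1 hn else C0 h0 hn :=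
  if_pos ⟨Or.inl rfl, e0, e1⟩

theorem rD_C1 {k : ColT lam} (e0 : k ≠ C0 h0 hn) (e1 : k ≠ C1 h1 hn) :
    rD h0 h1 hn k (C1 h1 hn) = if k.1 = 0 then C1 h1 hn else C0 h0 hn :=
  if_pos ⟨Or.inr rfl, e0, e1⟩

theorem rD_cases (k l : ColT lam) : rD h0 h1 hn k l = l ∨
    ((l = C0 h0 hn ∨ l = C1 h1 hn) ∧ (rD h0 h1 hn k l = C0 h0 hn ∨ rD h0 h1 hn k l = C1 h1 hn)) := by
  by_cases h : (l = C0 h0 hn ∨ l = C1 h1 hn) ∧ k ≠ C0 h0 hn ∧ k ≠ C1 h1 hn
  · right
    refine ⟨h.1, ?_⟩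
    rw [rD, if_pos h]
    split_ifs
    · exact Or.inr rfl
    · exact Or.inl rfl
  · left
    exact if_neg h

/-- the special skew matrix in normal form -/
noncomputable def nfΩ (l l' : ColT lam) : GF (ColT lam) :=
  gΩ (rD h0 h1 hn l' l) (rD h0 h1 hn l l')

theorem gΩ_skew' {C : Type} (c c' : C) : (gΩ c c' : GF C) = - gΩ c' c := by
  rw [gΩ, gΩ, genΩ_skew, map_neg]

theorem nfΩ_skew (l l' : ColT lam) : nfΩ h0 h1 hn l l' = - nfΩ h0 h1 hn l' l := gΩ_skew' _ _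

theorem nfΩ_sp (l : ColT lam) (e0 : l ≠ C0 h0 hn) (e1 : l ≠ C1 h1 hn) :
    nfΩ h0 h1 hn (C0 h0 hn) l = nfΩ h0 h1 hn (C1 h1 hn) l := by
  rw [nfΩ, nfΩ, rD_C0 h0 h1 hn e0 e1, rD_C1 h0 h1 hn e0 e1, rD_in0, rD_in1]

theorem nfΩ_ne : nfΩ h0 h1 hn (C0 h0 hn) (C1 h1 hn) ≠ 0 := by
  have h2 := spΩ_ne h0 h1 hn
  rw [spΩ, rC_of_ne h0 h1 hn (C0_ne_C1 h0 h1 hn), rC, if_neg (by
    rintro ⟨-, h2⟩
    exact absurd h2 (by decide : ¬ ((0 : Fin 3) = 2)))] at h2
  rw [nfΩ, rD_in0, rD_in1, gΩ]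
  intro h
  exact h2 (toGF_injective (h.trans (map_zero _).symm))

theorem spF_eq (l l' : ColT lam) :
    spF h0 h1 hn l l' = gΩ (rC h0 h1 hn l' l) (rC h0 h1 hn l l') := rfl

/-- the visible entries agree -/
theorem spF_eq_nfΩ {l l' : ColT lam} (h : l.1 ≠ l'.1) :
    spF h0 h1 hn l l' = nfΩ h0 h1 hn l l' := by
  -- the case of a full column on the left
  have key0 : ∀ k : ColT lam, k.1 ≠ 0 →
      spF h0 h1 hn (C0 h0 hn) k = nfΩ h0 h1 hn (C0 h0 hn) k := by
    intro k hk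
    rw [spF_eq, nfΩ, rC_of_ne h0 h1 hn (C0_ne_C1 h0 h1 hn), rD_in0]
    have e1 : rC h0 h1 hn (C0 h0 hn) k = k := by
      rw [rC, if_neg]
      rintro ⟨-, h2⟩
      exact absurd h2 (by decide : ¬ ((0 : Fin 3) = 2))
    rw [e1]
    by_cases hk1 : k = C1 h1 hn
    · rw [hk1, rD_in1]
    · rw [rD_C0 h0 h1 hn (by rintro rfl; exact hk rfl) hk1, if_neg hk]
  have key1 : ∀ k : ColT lam, k.1 ≠ 1 →
      spF h0 h1 hn (C1 h1 hn) k = nfΩ h0 h1 hn (C1 h1 hn) k := by
    intro k hk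
    have hk1 : k ≠ C1 h1 hn := by rintro rfl; exact hk rfl
    rw [spF_eq, nfΩ, rC_of_ne h0 h1 hn hk1, rD_in1]
    by_cases hk0 : k = C0 h0 hn
    · rw [hk0, rD_in0, rC, if_neg]
      rintro ⟨-, h2⟩
      exact absurd h2 (by decide : ¬ ((0 : Fin 3) = 2))
    · rw [rD_C1 h0 h1 hn hk0 hk1, rC]
      by_cases hk2 : k.1 = 2
      · rw [if_pos ⟨rfl, hk2⟩, if_neg (by rw [hk2]; decide)]
      · have hk3 : k.1 = 0 := by
          have : ∀ s : Fin 3, s ≠ 1 → s ≠ 2 → s = 0 := by decide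
          exact this _ hk hk2
        rw [if_neg (fun h => hk2 h.2), if_pos hk3]
  have sk : ∀ k k' : ColT lam, spF h0 h1 hn k k' = - spF h0 h1 hn k' k := fun k k' => gΩ_skew' _ _
  by_cases a0 : l = C0 h0 hn
  · subst a0
    exact key0 _ fun h2 => h h2.symm
  by_cases a1 : l = C1 h1 hn
  · subst a1
    exact key1 _ fun h2 => h h2.symm
  by_cases b0 : l' = C0 h0 hn
  · subst b0
    rw [sk, nfΩ_skew, key0 _ fun h2 => h h2]
  by_cases b1 : l' = C1 h1 hn
  · subst b1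
    rw [sk, nfΩ_skew, key1 _ fun h2 => h h2]
  rw [spF_eq, nfΩ, rD_other h0 h1 hn a0 a1, rD_other h0 h1 hn b0 b1, rC_of_ne h0 h1 hn a1,
    rC_of_ne h0 h1 hn b1]

/-- the special configuration -/
noncomputable def sCfg (l : List (so n)) :
    B1.Cfg (GF (ColT lam)) (Fin n ⊕ Fin n → GF (ColT lam)) (ColT lam) :=
  wCfg lam (gF (ColT lam) (gword l)) (nfΩ h0 h1 hn)

variable {l : List (so n)} (hlr : ∀ x ∈ l, x ∈ rootSet n)

include hlr in
theorem sCfg_good : (sCfg h0 h1 hn l).Good :=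
  frCfg_good (fun c c' => nfΩ_skew h0 h1 hn c c') (frm_iso fun s => gF_orth (gword_root hlr) s)

include hlr in
theorem sCfg_spin : SpinC (sCfg h0 h1 hn l) (C0 h0 hn) (C1 h1 hn) where
  arm0 := rfl
  arm1 := rfl
  lag0 := perp_Fl_top (frm_indep (lam := lam) (fun s => gF_orth (gword_root hlr) s) 0)
    (frm_iso (fun s => gF_orth (gword_root hlr) s) 0) (ht_C0 h0 hn)
  lag1 := perp_Fl_top (frm_indep (lam := lam) (fun s => gF_orth (gword_root hlr) s) 1)
    (frm_iso (fun s => gF_orth (gword_root hlr) s) 1) (ht_C1 h1 hn)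
  sp := fun l e0 e1 => nfΩ_sp h0 h1 hn l e0 e1
  ne := nfΩ_ne h0 h1 hn

include hlr in
theorem sCfg_versal (hn2 : 2 ≤ n) : SVersal (sCfg h0 h1 hn l) (C0 h0 hn) (C1 h1 hn) := by
  intro Y hY η hη hs
  have hη' : ∀ a b, η a b = - η b a := fun a b => by
    have := congrFun (congrFun hη b) a
    rwa [Matrix.transpose_apply, Matrix.neg_apply] at this
  have hYm : ∀ s a, (LinearMap.toMatrix' (Y s)).mulVec a = Y s a := fun s a => by
    rw [← Matrix.toLin'_apply, Matrix.toLin'_toMatrix']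
  obtain ⟨D, hD, hη2⟩ := versal_gF (lam := lam) hn2 hlr (fun s => LinearMap.toMatrix' (Y s))
    (fun s => H922.isSo_of_skew fun a b => by
      rw [hYm, hYm]; exact hY s a b) (fun l l' => η l l') hη'
  have h2 : ∀ k a b, η (rD h0 h1 hn k a) b = η a b := by
    intro k a b
    rcases rD_cases h0 h1 hn k a with h | ⟨h | h, h' | h'⟩
    · rw [h]
    · rw [h', h]
    · rw [h', h, hs b]
    · rw [h', h, hs b]
    · rw [h', h]
  refine ⟨dConn n D, fun s i v hv => ?_, fun a b => ?_⟩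
  · have h := Dv_mem (hD s) hv
    rw [hYm] at h
    exact h
  · show D (gΩ (rD h0 h1 hn b a) (rD h0 h1 hn a b)) = η a b
    rw [hη2, h2, hη', h2, ← hη']

include hlr in
theorem sCfg_uSemi (hl : ∀ s, DomZ (lam s))
    (h : H588.USemiF (dbl lam) (gF (ColT lam) (gword l))) :
    USemiS (sCfg h0 h1 hn l) (C0 h0 hn) (C1 h1 hn) := by
  intro L' _ _ S hS
  let i := H588.bcIso lam (gF (ColT lam) (gword l)) (nfΩ h0 h1 hn) L'
  have hg : ∀ s, ((gF (ColT lam) (gword l) s).map (algebraMap (GF (ColT lam)) L')).transpose *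
      JD (Fin n) L' * (gF (ColT lam) (gword l) s).map (algebraMap (GF (ColT lam)) L') =
        JD (Fin n) L' := fun s => H588.map_orth _ (gF_orth (gword_root hlr) s)
  have hS' : ∀ u ∈ S.map i.e.toLinearMap, ∀ v ∈ S.map i.e.toLinearMap, qf u v = 0 :=
    (H716.cIso_iso i).mpr hS
  have a1 := h L' (S.map i.e.toLinearMap) hS'
  rw [theta_dbl h0 h1 hn hl hg (fun c c' => algebraMap (GF (ColT lam)) L' (nfΩ h0 h1 hn c c'))] at a1
  have a2 := thetaS_ciso i (C0 h0 hn) (C1 h1 hn) S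
  have a3 : thetaS (bcC (sCfg h0 h1 hn l) L') (C0 h0 hn) (C1 h1 hn) S = thetaS
      (wCfg lam (fun s => (gF (ColT lam) (gword l) s).map (algebraMap (GF (ColT lam)) L'))
        fun c c' => algebraMap (GF (ColT lam)) L' (nfΩ h0 h1 hn c c')) (C0 h0 hn) (C1 h1 hn)
      (S.map i.e.toLinearMap) := a2.symm
  rw [a3]
  omega

include hlr in
theorem sCfg_sum : ∑ c, finrank (GF (ColT lam)) ((sCfg h0 h1 hn l).C c) =
    Fintype.card (CellT lam) := by
  have h2 : ∀ c, finrank (GF (ColT lam)) ((sCfg h0 h1 hn l).C c) = ht lam c := fun c =>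
    finrank_Fl (frm_indep (lam := lam) (fun s => gF_orth (gword_root hlr) s) c.1) (ht_le lam c)
  rw [Finset.sum_congr rfl fun c _ => h2 c, Fintype.card_sigma]
  refine Finset.sum_congr rfl fun c _ => ?_
  rw [Fintype.card_subtype, ht]

end special

/-- **The spin core, from `T` for special configurations.** -/
theorem coreSpinU_of_TSpin (hn2 : 2 ≤ n)
    (T : ∀ lam : Fin 3 → Fin n → ℤ, TSpin.{0, 0} (ColT lam)) : H588.CoreSpinU n := by
  intro lam hl h0 h1 hn hroot l hlr hU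
  have g := sCfg_good h0 h1 hn hlr
  have hs := sCfg_spin h0 h1 hn hlr
  have hV := sCfg_versal h0 h1 hn hlr hn2
  have b1 := T lam (GF (ColT lam)) _ (sCfg h0 h1 hn l) (C0 h0 hn) (C1 h1 hn) hs g hV
    (sCfg_uSemi h0 h1 hn hlr hl hU)
  have b2 := finrank_K_le hs g
  have b3 := finrank_inf_le_one hs g hV
  have b4 := even_sum_add_K g (two_ne_zero (α := GF (ColT lam)))
  rw [sCfg_sum h0 h1 hn hlr] at b4
  have hK : finrank (GF (ColT lam)) (sCfg h0 h1 hn l).K ≤ 1 := by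
    by_cases he : Even (Fintype.card (CellT lam))
    · have c1 := not_line hn h0 h1 (C := ColT lam) (gword_root hlr)
        (fun s => gF_orth (gword_root hlr) s) ((parity_card hroot).mp he)
      have c2 : finrank (GF (ColT lam)) ((sCfg h0 h1 hn l).C (C0 h0 hn) ⊓
          (sCfg h0 h1 hn l).C (C1 h1 hn) : Submodule (GF (ColT lam)) _) ≠ 1 := by
        rw [sCfg, wCfg_C0, wCfg_C1]
        exact c1
      omega
    · have c1 : ¬ Even (finrank (GF (ColT lam)) (sCfg h0 h1 hn l).K) := fun h =>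
        he ((Nat.even_add.mp b4).mpr h)
      rw [Nat.not_even_iff_odd] at c1
      obtain ⟨m, hm⟩ := c1
      omega
  have hne : Nonempty (CellT lam) := ⟨A0 h0 hn ⟨0, hn⟩⟩
  have h2 : gramT lam (gF (ColT lam) (gword l)) (spF h0 h1 hn) =
      gramT lam (gF (ColT lam) (gword l)) (nfΩ h0 h1 hn) := by
    ext j j'
    rw [gramT, gramT, Matrix.of_apply, Matrix.of_apply]
    by_cases h : j.1.1 = j'.1.1
    · have h3 : qf (cv lam (gF (ColT lam) (gword l)) j) (cv lam (gF (ColT lam) (gword l)) j') =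
          0 := by
        obtain ⟨⟨s, c⟩, i⟩ := j
        obtain ⟨⟨s', c'⟩, i'⟩ := j'
        simp only at h
        subst h
        exact frm_iso (lam := lam) (fun s => gF_orth (gword_root hlr) s) s i.1 i'.1
      rw [h3, mul_zero, mul_zero]
    · rw [spF_eq_nfΩ h0 h1 hn h]
  rw [h2]
  exact adj_of_K hl (fun s => gF_orth (gword_root hlr) s) (nfΩ h0 h1 hn) hK

end Vale.Agent.P182.H338
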