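import Vale.Agent.P182.H338.SN2
import Vale.Agent.P182.H338.STFrame
import Vale.Agent.P182.H887.MTJ

/-!
# The maximal rank theorem MT'_s for special configurations
-/

set_option linter.unusedSectionVars false

namespace Vale.Agent.P182.H338

open Module Matrix TensorProduct Vale.Agent.P182.H533 Vale.Agent.P182.B1 Vale.Agent.P182.H62

universe u v w

section rr

variable {L V : Type*} {J : Type*} [Field L] [AddCommGroup V] [Module L V] [Fintype J]
  {Ω : Matrix J J L} {c0 c1 : J} {u : J → L} [FiniteDimensional L V]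

theorem HomNu_add_le (h : NF Ω c0 c1 u) (hg : Ω c0 c1 ≠ 0) {A B : J → Submodule L V}
    (hA0 : A c0 = B c0) (hA1 : A c1 = B c1) (h2 : (2 : L) ≠ 0) :
    finrank L (HomNu Ω u A B) + finrank L (A c0 ⊓ A c1 : Submodule L V) ≤
      finrank L (H887.HomN Ω A B) := by
  classical
  let W : Submodule L V := A c0 ⊓ A c1
  let φ : (HomNu Ω u A B × W) →ₗ[L] (J → V) :=
    LinearMap.coprod (HomNu Ω u A B).subtype
      { toFun := fun w : W => dif c0 c1 (w : V)
        map_add' := fun a b => by
          funext l
          rw [Pi.add_apply, dif, dif, dif]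
          split_ifs <;> simp [add_comm]
        map_smul' := fun a b => by
          funext l
          rw [Pi.smul_apply, dif, dif]
          split_ifs <;> simp }
  have hφ : ∀ x : HomNu Ω u A B, ∀ w : W, φ (x, w) = (x : J → V) + dif c0 c1 (w : V) :=
    fun x w => by
      rw [LinearMap.coprod_apply]
      rfl
  have hinj : Function.Injective φ := by
    rw [← LinearMap.ker_eq_bot, LinearMap.ker_eq_bot']
    rintro ⟨x, w⟩ hx
    rw [hφ] at hx
    have h4 := congrArg (uM V u) hx
    rw [map_add, map_zero, LinearMap.mem_ker.mp x.2.2, zero_add, uM_apply, sum_dif h.ne,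
      h.hu c1 h.ne.symm, h.hu0, h.skew c1 c0, sub_neg_eq_add, ← two_mul] at h4
    have hw : (w : V) = 0 := (smul_eq_zero.mp h4).resolve_left (mul_ne_zero h2 hg)
    have hw' : w = 0 := Subtype.ext hw
    subst hw'
    have h5 : dif c0 c1 ((0 : W) : V) = 0 := by
      funext l
      rw [dif]
      split_ifs <;> simp
    rw [h5, add_zero] at hx
    have hx' : x = 0 := Subtype.ext hx
    rw [hx']
    rfl
  have hle : LinearMap.range φ ≤ H887.HomN Ω A B := by
    rintro _ ⟨⟨x, w⟩, rfl⟩
    rw [hφ]
    exact add_mem x.2.1 (dif_mem h hA0 hA1 w.2)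
  have h4 := Submodule.finrank_mono hle
  rw [LinearMap.finrank_range_of_inj hinj, Module.finrank_prod] at h4
  exact h4

theorem HomN_le_add (h : NF Ω c0 c1 u) {A B : J → Submodule L V}
    (hA0 : A c0 = B c0) (hA1 : A c1 = B c1) (h2 : (2 : L) ≠ 0) :
    finrank L (H887.HomN Ω A B) ≤
      finrank L (HomNu Ω u A B) + finrank L (A c0 ⊓ A c1 : Submodule L V) := by
  have h1 := H887.finrank_map_add (uM V u) (H887.HomN Ω A B)
  have h6 : (H887.HomN Ω A B).map (uM V u) ≤ A c0 ⊓ A c1 := by
    rintro _ ⟨y, hy', rfl⟩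
    have hy := H887.mem_HomN.mp hy'
    have e0 : uM V u y = ∑ k, Ω c0 k • y k - Ω c0 c1 • y c0 := h.uM0 h2 y
    have e1 : uM V u y = ∑ k, Ω c1 k • y k + Ω c0 c1 • y c1 := h.uM1 h2 y
    constructor
    · rw [SetLike.mem_coe, e0]
      have h7 := hy.2 c0
      rw [H887.omM_apply, ← hA0] at h7
      exact sub_mem h7 (Submodule.smul_mem _ _ (hy.1 c0))
    · rw [SetLike.mem_coe, e1]
      have h7 := hy.2 c1
      rw [H887.omM_apply, ← hA1] at h7
      exact add_mem h7 (Submodule.smul_mem _ _ (hy.1 c1))
  have h7 := Submodule.finrank_mono h6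
  have h8 : HomNu Ω u A B = H887.HomN Ω A B ⊓ LinearMap.ker (uM V u) := rfl
  rw [h8]
  omega

/-- the other inequality of Riemann-Roch -/
theorem rr_s' (h : NF Ω c0 c1 u) (hg : Ω c0 c1 ≠ 0) {A B : J → Submodule L V} (hA0 : A c0 = B c0)
    (hA1 : A c1 = B c1) (h2 : (2 : L) ≠ 0) :
    H887.theta A B ⊤ - (finrank L (A c0) + finrank L (A c1) - finrank L V) +
      finrank L (HomDu Ω u A B) ≤ (finrank L (HomNu Ω u A B) : ℤ) := by
  have hRR := H887.hom_sub_ext h.skew A B
  have h3 := HomN_le_add (A := A) (B := B) h hA0 hA1 h2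
  have h4 := HomNu_add_le (V := Dual L V) (A := fun l => (B l).dualAnnihilator)
    (B := fun l => (A l).dualAnnihilator) h hg (by show _ = _; rw [hA0]) (by show _ = _; rw [hA1]) h2
  have h5 : HomNu Ω u (fun l => (B l).dualAnnihilator) (fun l => (A l).dualAnnihilator) =
    HomDu Ω u A B := rfl
  have h6 : H887.HomN Ω (fun l => (B l).dualAnnihilator) (fun l => (A l).dualAnnihilator) =
    H887.HomD Ω A B := rfl
  have h7 : ((B c0).dualAnnihilator ⊓ (B c1).dualAnnihilator : Submodule L (Dual L V)) =
      (A c0 ⊔ A c1).dualAnnihilator := by rw [hA0, hA1, Submodule.dualAnnihilator_sup_eq]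
  rw [h5, h6, h7] at h4
  have h8 := Subspace.finrank_add_finrank_dualAnnihilator_eq (A c0 ⊔ A c1)
  have h9 := Submodule.finrank_sup_add_finrank_inf_eq (A c0) (A c1)
  omega

end rr

section pair

variable {L : Type*} [Field L] {J ι κ : Type*} [Fintype J] [DecidableEq J] [DecidableEq ι]
  {V : Type*} [AddCommGroup V] [Module L V]

/-- square-zero N1 for special matrices -/
def N1sqS (arm : J → ι) (ord : J → J → Prop) (Ω : Matrix J J L) (c0 c1 : J) (u : J → L) : Prop :=
  ∀ C : Matrix J J L, Cᵀ = C → C *ᵥ u = 0 → (∀ l k, arm l = arm k → C l k = 0) →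
    (∀ l k, l ≠ c0 → l ≠ c1 → k ≠ c0 → k ≠ c1 → arm l = arm k → ord l k → (C * Ω) l k = 0) →
    (∀ s, C * H533.Gm arm Ω s * C = 0) → C = 0

/-- special versality of the chains -/
def GLVersalS (F : ι → κ → Submodule L V) (Ω : Matrix J J L) (c0 c1 : J) : Prop :=
  ∀ (r : ι → End L V) (η : Matrix J J L), SpecEta η c0 c1 →
    ∃ c : H887.GConn L V, (∀ s i, ∀ v ∈ F s i, c.δ v - r s v ∈ F s i) ∧
      ∀ l k, c.d (Ω l k) = η l k

variable {arm : J → ι} {ord : J → J → Prop}
  {F : ι → κ → Submodule L V} {a b : J → κ} {Ω : Matrix J J L} {c0 c1 : J} {u : J → L}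

omit [DecidableEq J] [DecidableEq ι] in
theorem mem_HomNu {A B : J → Submodule L V} {x : J → V} : x ∈ HomNu Ω u A B ↔
    x ∈ H887.HomN Ω A B ∧ ∑ l, u l • x l = 0 := Iff.rfl

omit [DecidableEq J] [DecidableEq ι] in
theorem mem_HomDu {A B : J → Submodule L V} {y : J → Dual L V} : y ∈ HomDu Ω u A B ↔
    y ∈ H887.HomD Ω A B ∧ ∑ l, u l • y l = 0 := Iff.rfl

/-- **Vanishing of the pairing**. -/
theorem pair_zero_s (h2 : (2 : L) ≠ 0) (nf : NF Ω c0 c1 u) (hg : Ω c0 c1 ≠ 0)
    (hN : N1sqS arm ord Ω c0 c1 u) (hV : GLVersalS F Ω c0 c1)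
    (hAB : ∀ l k, arm l = arm k → F (arm k) (a k) ≤ F (arm l) (b l))
    (hBB : ∀ l k, arm l = arm k → ord l k → F (arm k) (b k) ≤ F (arm l) (b l))
    {x : J → V}
    (hx : x ∈ HomNu Ω u (fun l => F (arm l) (a l)) (fun l => F (arm l) (b l))) {y : J → Dual L V}
    (hy : y ∈ HomDu Ω u (fun l => F (arm l) (a l)) (fun l => F (arm l) (b l))) (l k : J) :
    y l (x k) = 0 := by
  have hΩ := nf.skew
  have hx' := H887.mem_HomN.mp hx.1
  have hy' := H887.mem_HomD.mp hy.1
  have hxu : ∑ l, u l • x l = 0 := hx.2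
  have hyu : ∑ l, u l • y l = 0 := hy.2
  have hxu' : ∀ m, ∑ k, u k * y m (x k) = 0 := by
    intro m
    have h1 := congrArg (y m) hxu
    rw [map_zero, map_sum] at h1
    rw [← h1]
    exact Finset.sum_congr rfl fun k _ => by rw [map_smul, smul_eq_mul]
  have hyu' : ∀ m, ∑ k, u k * y k (x m) = 0 := by
    intro m
    have h1 := LinearMap.congr_fun hyu (x m)
    rw [LinearMap.zero_apply, LinearMap.sum_apply] at h1
    rw [← h1]
    exact Finset.sum_congr rfl fun k _ => by rw [LinearMap.smul_apply, smul_eq_mul]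
  have hCΩ : ∀ m k, (Matrix.of (fun l k => y l (x k)) * Ω) m k = - y m (H887.omM Ω x k) := by
    intro m k
    rw [Matrix.mul_apply, H887.omM_apply, map_sum, ← Finset.sum_neg_distrib]
    refine Finset.sum_congr rfl fun j _ => ?_
    rw [Matrix.of_apply, map_smul, smul_eq_mul, hΩ k j]
    ring
  have hsym : ∀ m j, y m (x j) = y j (x m) := by
    have key := symm_of_spec (a := Matrix.of fun m j => y m (x j) - y j (x m)) h2 nf hg
      (fun l k => by rw [Matrix.of_apply, Matrix.of_apply]; ring) ?_ ?_
    · intro m j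
      have := key m j
      rw [Matrix.of_apply] at this
      exact sub_eq_zero.mp this
    · intro η hη
      have h1 : ∀ l k, η l k = - η k l := by
        intro l k
        have := congrFun (congrFun hη.1 k) l
        rwa [Matrix.transpose_apply, Matrix.neg_apply] at this
      obtain ⟨c, hc, hcη⟩ := hV (fun _ => 0) η hη
      have h := H887.pair_rel hΩ hx.1 hy.1 hc hcη
      simp only [LinearMap.zero_apply] at h
      have h0 : ∀ l, H887.omM Ω (fun _ : J => (0 : V)) l = 0 := fun l => by
        rw [H887.omM_apply]; simp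
      simp only [h0, map_zero, Finset.sum_const_zero, add_zero, sub_zero] at h
      have h3 : ∑ l, ∑ k, η l k * y l (x k) = 0 := by
        rw [← h]
        refine Finset.sum_congr rfl fun l _ => ?_
        rw [H887.omM_apply, map_sum]
        exact Finset.sum_congr rfl fun k _ => by rw [map_smul, smul_eq_mul]
      have h4 : ∑ l, ∑ k, η l k * y k (x l) = 0 := by
        rw [Finset.sum_comm, ← neg_eq_zero, ← h3, ← Finset.sum_neg_distrib]
        refine Finset.sum_congr rfl fun l _ => ?_
        rw [← Finset.sum_neg_distrib]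
        refine Finset.sum_congr rfl fun k _ => ?_
        rw [h1 k l]
        ring
      have h5 : ∑ l, ∑ k, η l k * y l (x k) - ∑ l, ∑ k, η l k * y k (x l) = 0 := by
        rw [h3, h4, sub_zero]
      rw [← h5, ← Finset.sum_sub_distrib]
      refine Finset.sum_congr rfl fun l _ => ?_
      rw [← Finset.sum_sub_distrib]
      refine Finset.sum_congr rfl fun k _ => ?_
      rw [Matrix.of_apply]
      ring
    · intro l
      have h5 : ∑ k, u k * y l (x k) - ∑ k, u k * y k (x l) = 0 := by
        rw [hxu', hyu', sub_zero]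
      rw [← h5, ← Finset.sum_sub_distrib]
      refine Finset.sum_congr rfl fun k _ => ?_
      rw [Matrix.of_apply]
      ring
  have hC := hN (Matrix.of fun l k => y l (x k)) ?_ ?_ ?_ ?_ ?_
  · have := congrFun (congrFun hC l) k
    simpa using this
  · ext m j
    rw [Matrix.transpose_apply, Matrix.of_apply, Matrix.of_apply]
    exact hsym j m
  · funext m
    show ∑ k, _ * u k = 0
    rw [← hxu' m]
    exact Finset.sum_congr rfl fun k _ => by rw [Matrix.of_apply, mul_comm]
  · intro m j hmj
    exact hy'.1 m _ (hAB m j hmj (hx'.1 j))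
  · intro m j _ _ _ _ hmj ho
    rw [hCΩ, neg_eq_zero]
    exact hy'.1 m _ (hBB m j hmj ho (hx'.2 j))
  · -- `C G_s C = 0`
    intro s
    ext m j
    obtain ⟨c, hc, hη⟩ := hV (fun s' => if s' = s then (y m).smulRight (x j) else 0) 0
      ⟨by simp, fun l => rfl⟩
    have h := H887.pair_rel hΩ hx.1 hy.1 hc hη
    have h0 : ∀ l, H887.omM (0 : Matrix J J L) x l = 0 := fun l => by
      rw [H887.omM_apply]; simp
    simp only [h0, map_zero, Finset.sum_const_zero, zero_add] at h
    rw [H887.pairing_om hΩ] at h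
    have e1 : ∀ l : J, H887.omM Ω y l
        ((if arm l = s then (y m).smulRight (x j) else 0 : End L V) (x l)) =
        (if arm l = s then 1 else 0) * (y m (x l) * H887.omM Ω y l (x j)) := by
      intro l
      split_ifs
      · rw [LinearMap.smulRight_apply, map_smul, smul_eq_mul, one_mul]
      · rw [LinearMap.zero_apply, map_zero, zero_mul]
    have e2 : ∀ l : J, y l ((if arm l = s then (y m).smulRight (x j) else 0 : End L V)
        (H887.omM Ω x l)) = (if arm l = s then 1 else 0) *
          (y m (H887.omM Ω x l) * y l (x j)) := by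
      intro l
      split_ifs
      · rw [LinearMap.smulRight_apply, map_smul, smul_eq_mul, one_mul]
      · rw [LinearMap.zero_apply, map_zero, zero_mul]
    simp only [e1, e2] at h
    have e3 : (Matrix.of (fun l k => y l (x k)) * H533.Gm arm Ω s *
        Matrix.of (fun l k => y l (x k))) m j
        = ∑ l, (if arm l = s then 1 else 0) * (y m (x l) * H887.omM Ω y l (x j)) +
          ∑ l, (if arm l = s then 1 else 0) * (y m (H887.omM Ω x l) * y l (x j)) := by
      rw [H533.Gm, Matrix.mul_sub, Matrix.sub_mul, Matrix.sub_apply, ← Matrix.mul_assoc,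
        ← Matrix.mul_assoc, Matrix.mul_assoc (_ * H533.Em arm s) Ω, Matrix.mul_apply,
        Matrix.mul_apply, sub_eq_add_neg, ← Finset.sum_neg_distrib]
      congr 1
      · refine Finset.sum_congr rfl fun l _ => ?_
        rw [H533.Em, Matrix.mul_diagonal, Matrix.of_apply, Matrix.mul_apply, H887.om_dual_apply]
        simp only [Matrix.of_apply]
        ring
      · refine Finset.sum_congr rfl fun l _ => ?_
        rw [H533.Em, Matrix.mul_diagonal, hCΩ, Matrix.of_apply]
        ring
    rw [e3, Matrix.zero_apply]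
    linear_combination -h

end pair

section main

variable {L : Type*} [Field L] {J ι κ : Type*} [Fintype J] [DecidableEq J] [DecidableEq ι]

/-- the numerical function of special objects -/
noncomputable def thetaJ {V : Type*} [AddCommGroup V] [Module L V] (A B : J → Submodule L V)
    (c0 c1 : J) (T : Submodule L V) : ℤ :=
  H887.theta A B T - (finrank L (A c0 ⊓ T : Submodule L V) +
    finrank L (A c1 ⊓ T : Submodule L V) - finrank L T)

omit [DecidableEq J] in
theorem thetaJ_bot {V : Type*} [AddCommGroup V] [Module L V] (A B : J → Submodule L V)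
    (c0 c1 : J) : thetaJ A B c0 c1 ⊥ = 0 := by
  rw [thetaJ, H887.theta_bot, inf_bot_eq, inf_bot_eq, finrank_bot]
  norm_num

omit [DecidableEq J] in
theorem thetaJ_top {V : Type*} [AddCommGroup V] [Module L V] (A B : J → Submodule L V)
    (c0 c1 : J) : thetaJ A B c0 c1 ⊤ = H887.theta A B ⊤ -
      (finrank L (A c0) + finrank L (A c1) - finrank L V) := by
  rw [thetaJ, inf_top_eq, inf_top_eq, finrank_top]

omit [DecidableEq J] in
theorem thetaJ_quo {V : Type*} [AddCommGroup V] [Module L V] [FiniteDimensional L V]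
    (A B : J → Submodule L V) (c0 c1 : J) (R : Submodule L V) (T' : Submodule L (V ⧸ R)) :
    thetaJ (fun l => (A l).map R.mkQ) (fun l => (B l).map R.mkQ) c0 c1 T' =
      thetaJ A B c0 c1 (T'.comap R.mkQ) - thetaJ A B c0 c1 R := by
  have key : ∀ A : Submodule L V, (finrank L (A.map R.mkQ ⊓ T' : Submodule L (V ⧸ R)) : ℤ) =
      finrank L (A ⊓ T'.comap R.mkQ : Submodule L V) - finrank L (A ⊓ R : Submodule L V) := by
    intro A
    have h1 := H887.finrank_map_add R.mkQ (A ⊓ T'.comap R.mkQ)
    have h2 : (A ⊓ T'.comap R.mkQ).map R.mkQ = A.map R.mkQ ⊓ T' := by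
      ext w
      constructor
      · rintro ⟨x, hx, rfl⟩
        exact ⟨⟨x, hx.1, rfl⟩, hx.2⟩
      · rintro ⟨⟨x, hx, rfl⟩, hw⟩
        exact ⟨x, ⟨hx, hw⟩, rfl⟩
    have h3 : (A ⊓ T'.comap R.mkQ ⊓ LinearMap.ker R.mkQ : Submodule L V) = A ⊓ R := by
      rw [Submodule.ker_mkQ]
      ext w
      simp only [Submodule.mem_inf, Submodule.mem_comap]
      constructor
      · rintro ⟨⟨h, _⟩, h'⟩; exact ⟨h, h'⟩
      · rintro ⟨h, h'⟩
        exact ⟨⟨h, by rw [H887.mkQ_eq_zero.mpr h']; exact Submodule.zero_mem _⟩, h'⟩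
    rw [h2, h3] at h1
    omega
  have key2 : (finrank L T' : ℤ) = finrank L (T'.comap R.mkQ) - finrank L R := by
    have h := key ⊤
    rw [Submodule.map_top, Submodule.range_mkQ, top_inf_eq, top_inf_eq, top_inf_eq] at h
    exact h
  rw [thetaJ, thetaJ, thetaJ, H887.theta_quo, key, key, key2]
  ring

/-- **MT'_s.** -/
theorem mt_s [Finite κ] {arm : J → ι} {ord : J → J → Prop} {Ω : Matrix J J L} {c0 c1 : J}
    {u : J → L} (h2 : (2 : L) ≠ 0) (nf : NF Ω c0 c1 u) (hg : Ω c0 c1 ≠ 0)
    (hN : N1sqS arm ord Ω c0 c1 u) {a b : J → κ} (n : ℕ) :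
    ∀ {V : Type*} [AddCommGroup V] [Module L V] [FiniteDimensional L V]
      {F : ι → κ → Submodule L V}, finrank L V = n → GLVersalS F Ω c0 c1 →
      (∀ s i j, F s i ≤ F s j ∨ F s j ≤ F s i) →
      (∀ l k, arm l = arm k → F (arm k) (a k) ≤ F (arm l) (b l)) →
      (∀ l k, arm l = arm k → ord l k → F (arm k) (b k) ≤ F (arm l) (b l)) →
      F (arm c0) (a c0) = F (arm c0) (b c0) → F (arm c1) (a c1) = F (arm c1) (b c1) →
      (∀ T : Submodule L V, thetaJ (fun l => F (arm l) (a l)) (fun l => F (arm l) (b l)) c0 c1 T ≤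
        thetaJ (fun l => F (arm l) (a l)) (fun l => F (arm l) (b l)) c0 c1 ⊤) →
      HomDu Ω u (fun l => F (arm l) (a l)) (fun l => F (arm l) (b l)) = ⊥ := by
  induction n using Nat.strong_induction_on with
  | _ n ih =>
  intro V _ _ _ F hn hV hch hAB hBB hF0 hF1 hT
  have hΩ := nf.skew
  set A : J → Submodule L V := fun l => F (arm l) (a l) with hA
  set B : J → Submodule L V := fun l => F (arm l) (b l) with hB
  -- the span of all images
  set R : Submodule L V := Submodule.span L {v | ∃ x ∈ HomNu Ω u A B, ∃ l, v = x l} with hR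
  have hxR : ∀ x ∈ HomNu Ω u A B, ∀ l, x l ∈ R :=
    fun x hx l => Submodule.subset_span ⟨x, hx, l, rfl⟩
  have hyR : ∀ y ∈ HomDu Ω u A B, ∀ l, ∀ v ∈ R, y l v = 0 := by
    intro y hy l v hv
    induction hv using Submodule.span_induction with
    | mem v hv =>
      obtain ⟨x, hx, k, rfl⟩ := hv
      exact pair_zero_s h2 nf hg hN hV hAB hBB hx hy l k
    | zero => exact map_zero _
    | add u v _ _ hu hv => rw [map_add, hu, hv, add_zero]
    | smul c u _ hu => rw [map_smul, hu, smul_zero]
  by_cases hR0 : R = ⊥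
  · -- no homomorphisms
    have h1 : HomNu Ω u A B = ⊥ := by
      rw [Submodule.eq_bot_iff]
      intro x hx
      funext l
      have := hxR x hx l
      rwa [hR0, Submodule.mem_bot] at this
    have h4 := rr_s' (A := A) (B := B) nf hg hF0 hF1 h2
    rw [h1, finrank_bot] at h4
    have h3 := hT ⊥
    rw [thetaJ_bot, thetaJ_top] at h3
    have h5 : finrank L (HomDu Ω u A B) = 0 := by omega
    exact Submodule.finrank_eq_zero.mp h5
  · obtain ⟨g, hg'⟩ := H887.exists_retr R
    obtain ⟨σ, hσ⟩ := H887.exists_section R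
    -- the quotient is versal
    have hQ : GLVersalS (fun s i => (F s i).map R.mkQ) Ω c0 c1 := by
      intro rb η hη
      obtain ⟨n1, hc1, hη1⟩ := hV (fun _ => 0) η hη
      let n0 : H887.GConn L R := n1.res R g hg'
      have hcs : ∀ s, ∃ c' : H887.GConn L R, c'.d = n0.d ∧
          ∀ i, ∀ v ∈ (F s i).comap R.subtype, c'.δ v ∈ (F s i).comap R.subtype := fun s =>
        n0.adapt (fun i => (F s i).comap R.subtype) fun i j =>
          (hch s i j).imp (fun h => Submodule.comap_mono h) fun h => Submodule.comap_mono h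
      choose cs hcsd hcsF using hcs
      let r' : ι → End L R := fun s => n0.diff (cs s) (hcsd s).symm
      let r : ι → End L V := fun s => R.subtype ∘ₗ r' s ∘ₗ g + σ ∘ₗ rb s ∘ₗ R.mkQ
      have hr1 : ∀ s, ∀ v : R, r s v = r' s v := by
        intro s v
        show R.subtype (r' s (g v)) + σ (rb s (R.mkQ v)) = r' s v
        rw [hg', H887.mkQ_eq_zero.mpr v.2, map_zero, map_zero, add_zero]
        rfl
      have hr2 : ∀ s v, R.mkQ (r s v) = rb s (R.mkQ v) := by
        intro s v
        show R.mkQ (R.subtype (r' s (g v)) + σ (rb s (R.mkQ v))) = _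
        rw [map_add, hσ, Submodule.subtype_apply, H887.mkQ_eq_zero.mpr (r' s (g v)).2, zero_add]
      obtain ⟨c, hc, hηc⟩ := hV r η hη
      -- the derivatives of `u`
      have hdu : ∀ d : L →+ L, (∀ l k, d (Ω l k) = η l k) → ∀ l, d (u l) = η c0 l := by
        intro d hd l
        by_cases hl : l = c0
        · subst hl
          rw [nf.hu0, hd, hη.2]
        · rw [nf.hu l hl, hd]
      -- `c` preserves `R`
      have hcR : ∀ x ∈ HomNu Ω u A B, ∀ l, c.δ (x l) ∈ R := by
        intro x hx l
        have hx' := H887.mem_HomN.mp hx.1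
        have hxu : ∑ l, u l • x l = 0 := hx.2
        have hu : ∀ l, H887.omM Ω x l ∈ R := fun l => by
          rw [H887.omM_apply]
          exact Submodule.sum_mem _ fun k _ => R.smul_mem _ (hxR x hx k)
        let xR : J → R := fun l => ⟨x l, hxR x hx l⟩
        let x' : J → R := fun l => (cs (arm l)).δ (xR l)
        have hx'A : ∀ l, (x' l : V) ∈ A l := fun l => hcsF (arm l) (a l) (xR l) (hx'.1 l)
        have huR : ∀ l, H887.omM Ω xR l = ⟨H887.omM Ω x l, hu l⟩ := by
          intro l
          apply Subtype.ext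
          show ((H887.omM Ω xR l : R) : V) = H887.omM Ω x l
          rw [H887.omM_apply, H887.omM_apply, ← R.subtype_apply, map_sum]
          exact Finset.sum_congr rfl fun k _ => by rw [map_smul]; rfl
        -- relation in `R`
        have h2' : ∀ s (v : R), n0.δ v - r' s v = (cs s).δ v := by
          intro s v
          show n0.δ v - (n0.δ v - (cs s).δ v) = _
          rw [sub_sub_cancel]
        have hrel : ∀ l, H887.omM η xR l + H887.omM Ω (fun k => r' (arm k) (xR k)) l -
            r' (arm l) (H887.omM Ω xR l) =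
            (cs (arm l)).δ (H887.omM Ω xR l) - H887.omM Ω x' l := by
          intro l
          have h1 := H887.der_id (arm := arm) n0 (Ω := Ω) (η := η) hη1 r' xR l
          rw [h1]
          simp only [h2']
          rfl
        have hcoe : ∀ (M : Matrix J J L) (z : J → R) (l : J),
            ((H887.omM M z l : R) : V) = H887.omM M (fun k => (z k : V)) l := by
          intro M z l
          rw [H887.omM_apply, H887.omM_apply, ← R.subtype_apply, map_sum]
          exact Finset.sum_congr rfl fun k _ => by rw [map_smul]; rfl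
        -- the corrected element
        let z : J → V := fun l => (c.δ (x l) - r (arm l) (x l)) - x' l
        have hz1 : z ∈ H887.HomN Ω A B := by
          rw [H887.mem_HomN]
          refine ⟨fun l => (A l).sub_mem (hc _ _ _ (hx'.1 l)) (hx'A l), fun l => ?_⟩
          have h1 := H887.der_id (arm := arm) c (Ω := Ω) (η := η) hηc r x l
          have h2 : H887.omM Ω z l = H887.omM Ω (fun k => c.δ (x k) - r (arm k) (x k)) l -
              H887.omM Ω (fun k => (x' k : V)) l := by
            rw [H887.omM_apply, H887.omM_apply, H887.omM_apply, ← Finset.sum_sub_distrib]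
            exact Finset.sum_congr rfl fun k _ => by rw [smul_sub]
          have h3 := congrArg (fun v : R => (v : V)) (hrel l)
          simp only [Submodule.coe_sub, Submodule.coe_add, hcoe] at h3
          have h4 : H887.omM Ω (fun k => r (arm k) (x k)) l =
              H887.omM Ω (fun k => ((r' (arm k) (xR k) : R) : V)) l := by
            rw [H887.omM_apply, H887.omM_apply]
            exact Finset.sum_congr rfl fun k _ => by rw [hr1 (arm k) (xR k)]
          have h5 : r (arm l) (H887.omM Ω x l) =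
              ((r' (arm l) (H887.omM Ω xR l) : R) : V) := by
            rw [huR, ← hr1]
          have h6 : H887.omM Ω z l = (c.δ (H887.omM Ω x l) - r (arm l) (H887.omM Ω x l)) -
              (((cs (arm l)).δ (H887.omM Ω xR l) : R) : V) := by
            rw [h2]
            rw [h4, h5] at h1
            have h7 : H887.omM η (fun k => ((xR k : R) : V)) l = H887.omM η x l := rfl
            rw [h7] at h3
            rw [h5]
            have h8 := h1.symm.trans h3
            rw [sub_eq_sub_iff_add_eq_add] at h8 ⊢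
            rw [h8, add_comm]
          rw [h6]
          refine (B l).sub_mem (hc _ _ _ (hx'.2 l)) ?_
          exact hcsF (arm l) (b l) _ (by
            rw [huR]
            exact hx'.2 l)
        -- the equation with `u`
        have hz2 : ∑ l, u l • z l = 0 := by
          have e1 : ∑ l, u l • c.δ (x l) = - ∑ l, η c0 l • x l := by
            have h3 := congrArg c.δ hxu
            rw [map_zero, map_sum] at h3
            rw [eq_neg_iff_add_eq_zero, ← h3, ← Finset.sum_add_distrib]
            refine Finset.sum_congr rfl fun l _ => ?_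
            rw [c.smul, hdu c.d hηc, add_comm]
          have e2 : ∑ l, u l • n0.δ (xR l) = - ∑ l, η c0 l • xR l := by
            have h3 : ∑ l, u l • xR l = 0 := by
              apply Subtype.ext
              rw [Submodule.coe_sum]
              exact hxu
            have h4 := congrArg n0.δ h3
            rw [map_zero, map_sum] at h4
            rw [eq_neg_iff_add_eq_zero, ← h4, ← Finset.sum_add_distrib]
            refine Finset.sum_congr rfl fun l _ => ?_
            rw [n0.smul, hdu n0.d hη1, add_comm]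
          have e3 : ∀ l, z l = c.δ (x l) - ((n0.δ (xR l) : R) : V) := by
            intro l
            show (c.δ (x l) - r (arm l) (x l)) - ((cs (arm l)).δ (xR l) : R) = _
            rw [← h2', Submodule.coe_sub, show x l = ((xR l : R) : V) from rfl, hr1]
            abel
          have e4 : ∑ l, u l • z l = ∑ l, u l • c.δ (x l) - ((∑ l, u l • n0.δ (xR l) : R) : V) := by
            rw [Submodule.coe_sum, ← Finset.sum_sub_distrib]
            refine Finset.sum_congr rfl fun l _ => ?_
            rw [e3, smul_sub]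
            rfl
          rw [e4, e1, e2, Submodule.coe_neg, Submodule.coe_sum]
          exact sub_self _
        have hz : z ∈ HomNu Ω u A B := ⟨hz1, hz2⟩
        have h1 := hxR z hz l
        have h2 : c.δ (x l) = z l + x' l + r (arm l) (x l) := by
          show c.δ (x l) = (c.δ (x l) - r (arm l) (x l)) - x' l + x' l + r (arm l) (x l)
          abel
        rw [h2]
        refine R.add_mem (R.add_mem h1 (x' l).2) ?_
        rw [show x l = ((xR l : R) : V) from rfl, hr1]
        exact (r' (arm l) (xR l)).2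
      have hcR' : ∀ v ∈ R, c.δ v ∈ R := by
        intro v hv
        induction hv using Submodule.span_induction with
        | mem v hv =>
          obtain ⟨x, hx, k, rfl⟩ := hv
          exact hcR x hx k
        | zero => rw [map_zero]; exact R.zero_mem
        | add u v _ _ hu hv => rw [map_add]; exact R.add_mem hu hv
        | smul e u hu' hu => rw [c.smul]; exact R.add_mem (R.smul_mem _ hu') (R.smul_mem _ hu)
      refine ⟨c.quo R σ hσ, ?_, hηc⟩
      rintro s i _ ⟨v, hv, rfl⟩
      rw [H887.GConn.quo_mkQ c hσ hcR', ← hr2, ← map_sub]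
      exact Submodule.mem_map_of_mem (hc s i v hv)
    have hlt : finrank L (V ⧸ R) < n := by
      have h1 := Submodule.finrank_quotient_add_finrank R
      have h2 : 0 < finrank L R := by
        rw [Module.finrank_pos_iff]
        exact Submodule.nontrivial_iff_ne_bot.mpr hR0
      omega
    have h0 := ih _ hlt (V := V ⧸ R) (F := fun s i => (F s i).map R.mkQ) rfl hQ
      (fun s i j => (hch s i j).imp (fun h => Submodule.map_mono h) fun h => Submodule.map_mono h)
      (fun l k h => Submodule.map_mono (hAB l k h))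
      (fun l k h h' => Submodule.map_mono (hBB l k h h'))
      (congrArg (Submodule.map R.mkQ) hF0) (congrArg (Submodule.map R.mkQ) hF1) (by
        intro T'
        rw [thetaJ_quo A B c0 c1 R T', thetaJ_quo A B c0 c1 R ⊤, Submodule.comap_top]
        have := hT (T'.comap R.mkQ)
        linarith)
    rw [Submodule.eq_bot_iff]
    intro y hy
    have hy' := H887.mem_HomD.mp hy.1
    have hyu : ∑ l, u l • y l = 0 := hy.2
    have hyk : ∀ l, R ≤ LinearMap.ker (y l) := fun l v hv => hyR y hy l v hv
    let yb : J → Dual L (V ⧸ R) := fun l => R.liftQ (y l) (hyk l)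
    have hyb : ∀ l v, yb l (R.mkQ v) = y l v := fun l v => Submodule.liftQ_apply _ _ _
    have h1 : yb ∈ HomDu Ω u (fun l => (A l).map R.mkQ) fun l => (B l).map R.mkQ := by
      refine ⟨?_, ?_⟩
      · rw [SetLike.mem_coe, H887.mem_HomD]
        constructor
        · rintro l _ ⟨v, hv, rfl⟩
          rw [hyb]
          exact hy'.1 l v hv
        · rintro l _ ⟨v, hv, rfl⟩
          rw [H887.om_dual_apply]
          simp only [hyb]
          rw [← H887.om_dual_apply]
          exact hy'.2 l v hv
      · rw [SetLike.mem_coe, LinearMap.mem_ker, uM_apply]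
        refine LinearMap.ext fun w => ?_
        obtain ⟨v, rfl⟩ := Submodule.mkQ_surjective R w
        rw [LinearMap.sum_apply, LinearMap.zero_apply]
        have h3 := LinearMap.congr_fun hyu v
        rw [LinearMap.sum_apply, LinearMap.zero_apply] at h3
        rw [← h3]
        refine Finset.sum_congr rfl fun l _ => ?_
        rw [LinearMap.smul_apply, LinearMap.smul_apply, hyb]
    rw [h0, Submodule.mem_bot] at h1
    funext l
    ext v
    rw [← hyb, h1]
    rfl

end main

section pack

variable {L : Type u} {S : Type v} {J : Type w} [Field L] [AddCommGroup S] [Module L S]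
  [Fintype J] [DecidableEq J]

/-- special versality of the object `(S, A, B)` -/
def GLVersalJ (Ω : Matrix J J L) (arm : J → Fin 3) (A B : J → Submodule L S) (c0 c1 : J) : Prop :=
  ∀ (r : Fin 3 → End L S) (η : Matrix J J L), SpecEta η c0 c1 → ∃ n : B1.GConn L S,
    (∀ l, ∀ v ∈ A l, n.δ v - r (arm l) v ∈ A l) ∧ (∀ l, ∀ v ∈ B l, n.δ v - r (arm l) v ∈ B l) ∧
      ∀ l k, n.d (Ω l k) = η l k

/-- **MT'_s in the common language.** -/
theorem mtJ_s [FiniteDimensional L S] {arm : J → Fin 3} {ord : J → J → Prop} {Ω : Matrix J J L}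
    {c0 c1 : J} {u : J → L} (h2 : (2 : L) ≠ 0) (nf : NF Ω c0 c1 u) (hg : Ω c0 c1 ≠ 0)
    (hN : N1sqS arm ord Ω c0 c1 u) {A B : J → Submodule L S}
    (hAA : ∀ l k, arm l = arm k → A l ≤ A k ∨ A k ≤ A l)
    (hBB : ∀ l k, arm l = arm k → B l ≤ B k ∨ B k ≤ B l)
    (hAB : ∀ l k, arm l = arm k → A k ≤ B l)
    (hord : ∀ l k, arm l = arm k → ord l k → B k ≤ B l)
    (h0 : A c0 = B c0) (h1 : A c1 = B c1)
    (hV : GLVersalJ Ω arm A B c0 c1) (hT : ∀ T, thetaJ A B c0 c1 T ≤ thetaJ A B c0 c1 ⊤) :
    HomDu Ω u A B = ⊥ := by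
  have hA : (fun l => H887.chn arm A B (arm l) (Sum.inl l)) = A := by
    funext l
    simp [H887.chn]
  have hB : (fun l => H887.chn arm A B (arm l) (Sum.inr l)) = B := by
    funext l
    simp [H887.chn]
  have key := mt_s (κ := J ⊕ J) (a := Sum.inl) (b := Sum.inr) h2 nf hg hN _
    (F := H887.chn arm A B) rfl ?_ ?_ ?_ ?_ ?_ ?_ ?_
  · rwa [hA, hB] at key
  · intro r η hη
    obtain ⟨c, h1, h2, h3⟩ := hV r η hη
    refine ⟨⟨c.d, c.δ, c.leib, c.smul⟩, ?_, h3⟩
    rintro s (l | l) v hv
    · by_cases hl : arm l = s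
      · simp only [H887.chn, if_pos hl] at hv ⊢
        rw [← hl]
        exact h1 l v hv
      · simp only [H887.chn, if_neg hl, Submodule.mem_bot] at hv ⊢
        rw [hv, map_zero, map_zero, sub_zero]
    · by_cases hl : arm l = s
      · simp only [H887.chn, if_pos hl] at hv ⊢
        rw [← hl]
        exact h2 l v hv
      · simp only [H887.chn, if_neg hl, Submodule.mem_bot] at hv ⊢
        rw [hv, map_zero, map_zero, sub_zero]
  · rintro s (i | i) (j | j) <;> by_cases hi : arm i = s <;> by_cases hj : arm j = s <;>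
      simp only [H887.chn, if_pos, if_neg, hi, hj, bot_le, true_or, or_true, not_false_eq_true]
    · exact hAA i j (hi.trans hj.symm)
    · exact Or.inl (hAB j i (hj.trans hi.symm))
    · exact Or.inr (hAB i j (hi.trans hj.symm))
    · exact hBB i j (hi.trans hj.symm)
  · intro l k hlk
    simp only [H887.chn, if_true]
    exact hAB l k hlk
  · intro l k hlk ho
    simp only [H887.chn, if_true]
    exact hord l k hlk ho
  · simp only [H887.chn, if_true]
    exact h0
  · simp only [H887.chn, if_true]
    exact h1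
  · rw [hA, hB]
    exact hT

end pack

section mts

variable {J : Type w} [Fintype J] {L V : Type u} [Field L] [AddCommGroup V] [Module L V]
  {D : Cfg L V J} {c0 c1 : J} {S : Submodule L V}

omit [Fintype J] in
theorem SVersal.svder [Fintype J] (hV : SVersal D c0 c1) : SVDer D.Ω c0 c1 := by
  intro η hη
  obtain ⟨n, -, hn⟩ := hV 0 (fun s u v => by simp) η hη.1 hη.2
  exact ⟨n.d, n.leib, hn⟩

/-- `(N, S)` is versal (special case) -/
theorem Gen.glVersalJ [FiniteDimensional L V] (hG : H62.Gen D S) (g : D.Good) (h2 : (2 : L) ≠ 0)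
    (hs : SpinC1 D c0 c1) (hV : SVersal D c0 c1) (hS : D.Iso S) :
    GLVersalJ D.Ω D.arm (objA D S) (objB D S) c0 c1 := by
  intro r η hη
  choose Y hY hYr _ using fun s => exists_skew S g.form hS h2 (r s) 0 (fun u v => by simp)
  obtain ⟨n, hn, hnΩ, hst⟩ := Gen.conn ((gen_st g h2 hs S).mpr hG) (st_good g c1) h2
    (hV.st hs.c_ne) hS Y hY
    (fun s v hv => by rw [hYr s ⟨v, hv⟩]; exact (r s _).2)
    (η.submatrix Subtype.val Subtype.val) (by
      ext l k
      exact congrFun (congrFun hη.1 l) k)
  have hnΩ' : ∀ l k, n.d (D.Ω l k) = η l k := dΩ_ext g h2 hs n.leib hη.1 hη.2 hnΩ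
  refine ⟨⟨n.d, ⟨⟨fun v => ⟨n.δ v, hst v v.2⟩, ?_⟩, ?_⟩, n.leib, ?_⟩, ?_, ?_, hnΩ'⟩
  · exact Subtype.ext (map_zero _)
  · intro u v
    exact Subtype.ext (map_add _ _ _)
  · intro a v
    exact Subtype.ext (n.smul a v)
  · intro l v hv
    have h1 := hn (D.arm l) (D.c l) v hv
    show ((⟨n.δ v, _⟩ - r (D.arm l) v : S) : V) ∈ D.C l
    rw [Submodule.coe_sub, ← hYr]
    exact h1
  · intro l v hv
    have h1 := Cfg.conn_perp n (hY (D.arm l)) (hn (D.arm l) (D.c l)) v hv
    show ((⟨n.δ v, _⟩ - r (D.arm l) v : S) : V) ∈ perp D.q (D.C l)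
    rw [Submodule.coe_sub, ← hYr]
    exact h1

theorem thetaJ_obj (T : Submodule L ↥S) :
    thetaJ (objA D S) (objB D S) c0 c1 T = thetaS D c0 c1 (T.map S.subtype) := by
  have key : ∀ l, finrank L (objA D S l ⊓ T : Submodule L ↥S) =
      finrank L (T.map S.subtype ⊓ D.C l : Submodule L V) := by
    intro l
    have h : (objA D S l ⊓ T).map S.subtype = T.map S.subtype ⊓ D.C l := by
      ext v
      constructor
      · rintro ⟨x, ⟨h1, h2⟩, rfl⟩
        exact ⟨⟨x, h2, rfl⟩, h1⟩
      · rintro ⟨⟨x, h2, rfl⟩, h1⟩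
        exact ⟨x, ⟨h1, h2⟩, rfl⟩
    rw [← Submodule.finrank_map_subtype_eq S, h]
  rw [thetaJ, thetaS, theta_obj, key, key, Submodule.finrank_map_subtype_eq]

theorem thetaJ_obj_top :
    thetaJ (objA D S) (objB D S) c0 c1 ⊤ = thetaS D c0 c1 S := by
  rw [thetaJ_obj, Submodule.map_top, Submodule.range_subtype]

end mts

/-- **The maximal rank theorem MT'_s.** -/
theorem mts (J : Type w) [Fintype J] : MTS.{u, w} J := by
  classical
  intro L V _ _ _ _ _ D c0 c1 S g hs hV hS hG hmax
  have hC : ∀ l k, D.arm l = D.arm k → D.c l ≤ D.c k → D.C l ≤ D.C k := by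
    intro l k h h'
    rw [Cfg.C, Cfg.C, h]
    exact g.mono _ h'
  have harm : D.arm c0 ≠ D.arm c1 := by rw [hs.arm0, hs.arm1]; decide
  have hN : N1sqS D.arm (fun l k => D.c l ≤ D.c k) D.Ω c0 c1 (uz D c0 c1) :=
    fun C h1 h2 h3 h4 h5 => n1sq_s two_ne_zero D.arm D.c g.skew (hs.toSpinC.nf g) hs.ne harm
      hV.svder h1 h2 h3 h4 h5
  have hE := mtJ_s (S := S) two_ne_zero (hs.toSpinC.nf g) hs.ne hN (A := objA D S)
    (B := objB D S) ?_ ?_ ?_ ?_ (by rw [objA, objB, hs.lag0]) (by rw [objA, objB, hs.lag1])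
    (Gen.glVersalJ hG g two_ne_zero hs hV hS) ?_
  · intro y hy hyu
    have h1 : y ∈ HomDu D.Ω (uz D c0 c1) (objA D S) (objB D S) := ⟨hy, hyu⟩
    rw [hE] at h1
    exact (Submodule.mem_bot L).mp h1
  · intro l k h
    rcases le_total (D.c l) (D.c k) with h' | h'
    · exact Or.inl (Submodule.comap_mono (hC l k h h'))
    · exact Or.inr (Submodule.comap_mono (hC k l h.symm h'))
  · intro l k h
    rcases le_total (D.c l) (D.c k) with h' | h'
    · exact Or.inr (Submodule.comap_mono (perp_anti (hC l k h h')))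
    · exact Or.inl (Submodule.comap_mono (perp_anti (hC k l h.symm h')))
  · intro l k h
    refine Submodule.comap_mono ?_
    rcases le_total (D.c l) (D.c k) with h' | h'
    · exact (g.iso (D.arm k) (D.c k)).trans (perp_anti (hC l k h h'))
    · exact (hC k l h.symm h').trans (g.iso (D.arm l) (D.c l))
  · intro l k h h'
    exact Submodule.comap_mono (perp_anti (hC l k h h'))
  · intro T
    rw [thetaJ_obj_top, thetaJ_obj]
    refine hmax _ ?_
    rintro _ ⟨x, _, rfl⟩
    exact x.2

/-- **`TSpin`**, if there are no critical special configurations -/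
theorem tSpin_of_hyp {J : Type w} [Fintype J] (hyp : HypTS.{u, w} J) : TSpin.{u, w} J :=
  tSpin_of_hypTS (mts J) hyp

end Vale.Agent.P182.H338
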