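import Vale.Agent.P182.H588.Ctx
import Vale.Agent.P182.H588.SF1
import Vale.Agent.P182.H532.SNConst
import Vale.Agent.P182.H532.SHyp
import Vale.Agent.P182.H62.RichBC
import Vale.Agent.P182.H338.SMT
import Vale.Agent.P182.H338.SBase

/-!
# T-SPIN: the top assembly

Critical special configurations over an algebraically closed rich field are critical in the sense
of `H588.CritU`; hence `HypTS` follows from the null case and from (R1).
-/

namespace Vale.Agent.P182.H338

open Module Matrix TensorProduct Vale.Agent.P182.H533 Vale.Agent.P182.B1 Vale.Agent.P182.H62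

universe u w

section crit

variable {L V : Type u} {J : Type w} [Field L] [AddCommGroup V] [Module L V]
  [Fintype J] {D : Cfg L V J} {c0 c1 : J}

/-- strict special configurations, over the field itself -/
theorem uStrictS_self (h : UStrictS D c0 c1) {S : Submodule L V} (hS : D.Iso S)
    (h0 : S ≠ ⊥) : thetaS D c0 c1 S ≤ -1 := by
  have i := H716.cIsoSelf D
  have j := cIsoSymm i
  have h1 := h L (S.map j.e.toLinearMap) ((H716.cIso_iso j).mpr hS) (H716.map_ne_bot j h0)
  rwa [thetaS_ciso] at h1

theorem semiS_of_uStrictS (h : UStrictS D c0 c1) (S : Submodule L V) (hS : D.Iso S) :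
    thetaS D c0 c1 S ≤ 0 := by
  by_cases h0 : S = ⊥
  · rw [h0, thetaS_bot]
  · have := uStrictS_self h hS h0
    omega

/-- the special kernel after base change -/
theorem mem_Ks_bc_one {L' : Type u} [Field L'] [Algebra L L'] {t : J → V}
    (ht : t ∈ Ks D c0 c1) : (fun l => (1 : L') ⊗ₜ[L] t l) ∈ Ks (bcC D L') c0 c1 := by
  rw [mem_Ks]
  refine ⟨mem_K_bc_one ht.1, ?_⟩
  have h1 : ∀ l, uz (bcC D L') c0 c1 l • ((1 : L') ⊗ₜ[L] t l) = (1 : L') ⊗ₜ[L] (uz D c0 c1 l • t l) := by
    intro l
    rw [uz_bcC, algebraMap_smul, TensorProduct.tmul_smul]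
  rw [Finset.sum_congr rfl fun l _ => h1 l, ← TensorProduct.tmul_sum, (mem_Ks.mp ht).2,
    TensorProduct.tmul_zero]

variable [CharZero L] [FiniteDimensional L V]

/-- critical special configurations stay critical after base change -/
theorem CritS.bc (h : CritS.{u, w} D c0 c1) (L' : Type u) [Field L'] [Algebra L L'] :
    CritS.{u, w} (bcC D L') c0 c1 where
  good := good_bcC h.good
  spin := spin1_bcC h.spin
  versal := sversal_bcC h.good h.spin h.versal
  strict := uStrictS_bc h.strict L'
  ih := by rw [finrank_baseChange]; exact h.ih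
  ihc := by rw [finrank_baseChange]; exact h.ihc
  finrank_Ks := by rw [finrank_Ks_bcC]; exact h.finrank_Ks
  corner := fun l h0 h1 hl => by
    obtain ⟨t, ht, htl⟩ := h.corner l h0 h1 hl
    refine ⟨_, mem_Ks_bc_one ht, fun h2 => htl ?_⟩
    exact mem_bc_one.mp h2

/-- the standing hypotheses of (R1) -/
theorem CritS.hypS (h : CritS.{u, w} D c0 c1) : H588.SP.HypS.{u, w} D c0 c1 :=
  ⟨h.good, h.spin, h.versal, h.strict, h.ih, h.finrank_Ks⟩

end crit

section asm

variable (J : Type u) [Fintype J]

/-- **(R1)**: there are no nonzero isotropic elements in the special kernel -/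
def IsoZeroS : Prop :=
  ∀ (L V : Type u) [Field L] [CharZero L] [AddCommGroup V] [Module L V] [FiniteDimensional L V]
    (D : Cfg L V J) (c0 c1 : J), H588.SP.HypS.{u, u} D c0 c1 →
    ∀ w ∈ Ks D c0 c1, (∀ l k, D.q (w l) (w k) = 0) → w = 0

variable {J}

/-- critical special configurations over a rich algebraically closed field are critical in the
sense of `CritU` -/
theorem critU_of_critS [DecidableEq J] {L V : Type u} [Field L] [CharZero L] [IsAlgClosed L]
    [AddCommGroup V] [Module L V] [FiniteDimensional L V] {D : Cfg L V J} {c0 c1 : J}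
    (hI : IsoZeroS J) (hr : D.Rich) (h : CritS.{u, u} D c0 c1) :
    H588.CritU D (uz D c0 c1) where
  ctx := H588.ctx_spin h.spin.toSpinC h.good h.versal
  rich := hr
  dim := by rw [H588.Ku_uz]; exact h.finrank_Ks
  f1 := by
    rw [H588.Ku_uz]
    intro x hx hn
    refine hI L V D c0 c1 h.hypS x hx fun l k => ?_
    exact H588.F1_s H588.n1s h.spin.toSpinC h.good h.versal (semiS_of_uStrictS h.strict) hx hx
      hn l k
  noIso := by
    rw [H588.Ku_uz]
    exact hI L V D c0 c1 h.hypS

/-- **`HypTS` from (R1) and the null case.** -/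
theorem hypTS_of_null (hI : IsoZeroS J)
    (h4 : ∀ (L : Type u) [Field L] [CharZero L] [IsAlgClosed L] [DecidableEq J],
      H588.HypNullU.{u, u, u} L J) : HypTS.{u, u} J := by
  classical
  intro L V _ _ _ _ _ D c0 c1 hc
  obtain ⟨L', _, _, _, τ, d, h1, h2, h3⟩ := exists_rich_field L
  have hL' : CharZero L' := charZero_ext L L'
  exact H588.not_critU (h4 L') (H588.hypGenU L' J) (bcC D L') _
    (critU_of_critS hI (rich_of_field h1 h2 h3 D) (hc.bc L'))

/-- **`TSpin` from (R1) and the null case.** -/
theorem tSpin_of_null (hI : IsoZeroS J)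
    (h4 : ∀ (L : Type u) [Field L] [CharZero L] [IsAlgClosed L] [DecidableEq J],
      H588.HypNullU.{u, u, u} L J) : TSpin.{u, u} J :=
  tSpin_of_hyp (hypTS_of_null hI h4)

end asm

/-- **The spin core from (R1) and the null case.** -/
theorem coreSpinU_of_null {n : ℕ} (hn2 : 2 ≤ n)
    (hI : ∀ (J : Type) [Fintype J], IsoZeroS J)
    (h4 : ∀ (J : Type) [Fintype J] (L : Type) [Field L] [CharZero L] [IsAlgClosed L]
      [DecidableEq J], H588.HypNullU.{0, 0, 0} L J) : H588.CoreSpinU n :=
  coreSpinU_of_TSpin hn2 fun _ => tSpin_of_null (hI _) (h4 _)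

end Vale.Agent.P182.H338
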