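import Vale.Agent.P182.H338.SStar

/-!
# Riemann-Roch for the special kernel, and the passage to `S^⊥ / S`
-/

namespace Vale.Agent.P182.H338

open Module Matrix TensorProduct Vale.Agent.P182.H533 Vale.Agent.P182.B1 Vale.Agent.P182.H62

universe u v w

section jmodel

variable {L V : Type*} {J : Type*} [Field L] [AddCommGroup V] [Module L V] [Fintype J]

/-- the map `x ↦ ∑ u_l x_l` -/
def uM (V : Type*) [AddCommGroup V] [Module L V] (u : J → L) : (J → V) →ₗ[L] V where
  toFun t := ∑ l, u l • t l
  map_add' t t' := by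
    rw [← Finset.sum_add_distrib]
    exact Finset.sum_congr rfl fun l _ => by rw [Pi.add_apply, smul_add]
  map_smul' a t := by
    rw [RingHom.id_apply, Finset.smul_sum]
    exact Finset.sum_congr rfl fun l _ => by rw [Pi.smul_apply, smul_comm]

theorem uM_apply (u : J → L) (t : J → V) : uM V u t = ∑ l, u l • t l := rfl

/-- a matrix in normal form with respect to `c0`, `c1`; `u` is the vector `u₀` -/
structure NF (Ω : Matrix J J L) (c0 c1 : J) (u : J → L) : Prop where
  ne : c0 ≠ c1
  skew : ∀ l k, Ω l k = - Ω k l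
  sp : ∀ l, l ≠ c0 → l ≠ c1 → Ω c0 l = Ω c1 l
  hu : ∀ l, l ≠ c0 → u l = Ω c0 l
  hu0 : u c0 = Ω c1 c0

variable {Ω : Matrix J J L} {c0 c1 : J} {u : J → L}

theorem NF.uM0 (h : NF Ω c0 c1 u) (h2 : (2 : L) ≠ 0) (y : J → V) :
    uM V u y = ∑ k, Ω c0 k • y k - Ω c0 c1 • y c0 := by
  classical
  have h00 : Ω c0 c0 = 0 := by
    have h1 := h.skew c0 c0
    have h3 : 2 * Ω c0 c0 = 0 := by linear_combination h1
    exact (mul_eq_zero.mp h3).resolve_left h2
  rw [uM_apply, ← Finset.add_sum_erase _ _ (Finset.mem_univ c0),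
    ← Finset.add_sum_erase (a := c0) Finset.univ (fun k => Ω c0 k • y k) (Finset.mem_univ c0),
    h00, h.hu0, h.skew c1 c0, zero_smul, zero_add]
  have h3 : ∑ x ∈ Finset.univ.erase c0, u x • y x = ∑ x ∈ Finset.univ.erase c0, Ω c0 x • y x :=
    Finset.sum_congr rfl fun l hl => by rw [h.hu l (Finset.ne_of_mem_erase hl)]
  rw [h3, neg_smul]
  abel

theorem NF.uM1 (h : NF Ω c0 c1 u) (h2 : (2 : L) ≠ 0) (y : J → V) :
    uM V u y = ∑ k, Ω c1 k • y k + Ω c0 c1 • y c1 := by
  classical
  have h11 : Ω c1 c1 = 0 := by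
    have h1 := h.skew c1 c1
    have h3 : 2 * Ω c1 c1 = 0 := by linear_combination h1
    exact (mul_eq_zero.mp h3).resolve_left h2
  rw [uM_apply, ← Finset.add_sum_erase _ _ (Finset.mem_univ c1),
    ← Finset.add_sum_erase (a := c1) Finset.univ (fun k => Ω c1 k • y k) (Finset.mem_univ c1),
    h11, h.hu c1 h.ne.symm, zero_smul, zero_add]
  have h3 : ∑ x ∈ Finset.univ.erase c1, u x • y x = ∑ x ∈ Finset.univ.erase c1, Ω c1 x • y x := by
    refine Finset.sum_congr rfl fun l hl => ?_
    by_cases hl0 : l = c0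
    · subst hl0
      rw [h.hu0]
    · rw [h.hu l hl0, h.sp l hl0 (Finset.ne_of_mem_erase hl)]
  rw [h3]
  abel

/-- `Hom(N_s, S)` -/
def HomNu (Ω : Matrix J J L) (u : J → L) (A B : J → Submodule L V) : Submodule L (J → V) :=
  H887.HomN Ω A B ⊓ LinearMap.ker (uM V u)

/-- `Hom(N_s, S^*)`, dual to `Ext(N_s, S)` -/
def HomDu (Ω : Matrix J J L) (u : J → L) (A B : J → Submodule L V) :
    Submodule L (J → Dual L V) :=
  H887.HomD Ω A B ⊓ LinearMap.ker (uM (Dual L V) u)

open Classical in
/-- the family `(w, -w)` -/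
noncomputable def dif (c0 c1 : J) (w : V) : J → V := fun l => if l = c1 then w else if l = c0 then -w else 0

omit [Fintype J] in
theorem dif_c1 (c0 c1 : J) (w : V) : dif c0 c1 w c1 = w := if_pos rfl

omit [Fintype J] in
theorem dif_c0 {c0 c1 : J} (h : c0 ≠ c1) (w : V) : dif c0 c1 w c0 = -w := by
  rw [dif, if_neg h, if_pos rfl]

omit [Fintype J] in
theorem dif_ne {c0 c1 l : J} (h0 : l ≠ c0) (h1 : l ≠ c1) (w : V) : dif c0 c1 w l = 0 := by
  rw [dif, if_neg h1, if_neg h0]

theorem sum_dif {c0 c1 : J} (h : c0 ≠ c1) (f : J → L) (w : V) :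
    ∑ k, f k • dif c0 c1 w k = (f c1 - f c0) • w := by
  classical
  rw [← Finset.add_sum_erase _ _ (Finset.mem_univ c1),
    ← Finset.add_sum_erase _ _ (Finset.mem_erase.mpr ⟨h, Finset.mem_univ c0⟩), dif_c1, dif_c0 h,
    Finset.sum_eq_zero, add_zero, smul_neg, sub_smul, sub_eq_add_neg]
  intro l hl
  have h1 := Finset.ne_of_mem_erase hl
  have h2 := Finset.ne_of_mem_erase (Finset.mem_of_mem_erase hl)
  rw [dif_ne h1 h2, smul_zero]

theorem dif_mem (h : NF Ω c0 c1 u) {A B : J → Submodule L V} (hA0 : A c0 = B c0)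
    (hA1 : A c1 = B c1) {w : V} (hw : w ∈ A c0 ⊓ A c1) :
    dif c0 c1 w ∈ H887.HomN Ω A B := by
  rw [H887.mem_HomN]
  constructor
  · intro l
    by_cases h1 : l = c1
    · subst h1; rw [dif_c1]; exact hw.2
    · by_cases h0 : l = c0
      · subst h0; rw [dif_c0 h.ne]; exact Submodule.neg_mem _ hw.1
      · rw [dif_ne h0 h1]; exact Submodule.zero_mem _
  · intro l
    rw [H887.omM_apply, sum_dif h.ne]
    by_cases h1 : l = c1
    · subst h1
      rw [← hA1]
      exact Submodule.smul_mem _ _ hw.2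
    · by_cases h0 : l = c0
      · subst h0
        rw [← hA0]
        exact Submodule.smul_mem _ _ hw.1
      · rw [h.skew l c1, h.skew l c0, h.sp l h0 h1, sub_self, zero_smul]
        exact Submodule.zero_mem _

variable [FiniteDimensional L V]

/-- **Riemann-Roch for the special kernel** (one inequality). -/
theorem rr_s (h : NF Ω c0 c1 u) (hg : Ω c0 c1 ≠ 0) {A B : J → Submodule L V} (hA0 : A c0 = B c0)
    (hA1 : A c1 = B c1) (h2 : (2 : L) ≠ 0) : (finrank L (HomNu Ω u A B) : ℤ) ≤
      H887.theta A B ⊤ - (finrank L (A c0) + finrank L (A c1) - finrank L V) +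
        finrank L (HomDu Ω u A B) := by
  classical
  have hRR := H887.hom_sub_ext h.skew A B
  -- the first inequality
  have h3 : finrank L (HomNu Ω u A B) + finrank L (A c0 ⊓ A c1 : Submodule L V) ≤
      finrank L (H887.HomN Ω A B) := by
    let W : Submodule L V := A c0 ⊓ A c1
    let φ : (HomNu Ω u A B × W) →ₗ[L] (J → V) :=
      LinearMap.coprod (HomNu Ω u A B).subtype
        { toFun := fun w : W => dif c0 c1 (w : V)
          map_add' := fun a b => by
            funext l
            rw [Pi.add_apply, dif, dif, dif]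
            split_ifs <;> simp [add_comm]
          map_smul' := fun a b => by
            funext l
            rw [Pi.smul_apply, dif, dif]
            split_ifs <;> simp }
    have hφ : ∀ x : HomNu Ω u A B, ∀ w : W, φ (x, w) = (x : J → V) + dif c0 c1 (w : V) :=
      fun x w => by
        rw [LinearMap.coprod_apply]
        rfl
    have hinj : Function.Injective φ := by
      rw [← LinearMap.ker_eq_bot, LinearMap.ker_eq_bot']
      rintro ⟨x, w⟩ hx
      rw [hφ] at hx
      have h4 := congrArg (uM V u) hx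
      rw [map_add, map_zero, LinearMap.mem_ker.mp x.2.2, zero_add, uM_apply, sum_dif h.ne,
        h.hu c1 h.ne.symm, h.hu0, h.skew c1 c0, sub_neg_eq_add, ← two_mul] at h4
      have hw : (w : V) = 0 := (smul_eq_zero.mp h4).resolve_left (mul_ne_zero h2 hg)
      have hw' : w = 0 := Subtype.ext hw
      subst hw'
      have h5 : dif c0 c1 ((0 : W) : V) = 0 := by
        funext l
        rw [dif]
        split_ifs <;> simp
      rw [h5, add_zero] at hx
      have hx' : x = 0 := Subtype.ext hx
      rw [hx']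
      rfl
    have hle : LinearMap.range φ ≤ H887.HomN Ω A B := by
      rintro _ ⟨⟨x, w⟩, rfl⟩
      rw [hφ]
      exact add_mem x.2.1 (dif_mem h hA0 hA1 w.2)
    have h4 := Submodule.finrank_mono hle
    rw [LinearMap.finrank_range_of_inj hinj, Module.finrank_prod] at h4
    exact h4
  -- the second inequality
  have h4 : finrank L (H887.HomD Ω A B) ≤ finrank L (HomDu Ω u A B) +
      finrank L (A c0 ⊔ A c1 : Submodule L V).dualAnnihilator := by
    have h1 := H887.finrank_map_add (uM (Dual L V) u) (H887.HomD Ω A B)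
    have h6 : (H887.HomD Ω A B).map (uM (Dual L V) u) ≤
        (A c0 ⊔ A c1 : Submodule L V).dualAnnihilator := by
      rintro _ ⟨y, hy', rfl⟩
      have hy := H887.mem_HomD.mp hy'
      have e0 : uM (Dual L V) u y = ∑ k, Ω c0 k • y k - Ω c0 c1 • y c0 := h.uM0 h2 y
      have e1 : uM (Dual L V) u y = ∑ k, Ω c1 k • y k + Ω c0 c1 • y c1 := h.uM1 h2 y
      rw [Submodule.dualAnnihilator_sup_eq]
      constructor
      · rw [SetLike.mem_coe, Submodule.mem_dualAnnihilator]
        intro v hv
        rw [e0]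
        have h7 := hy.2 c0 v hv
        rw [H887.omM_apply] at h7
        rw [LinearMap.sub_apply, h7, LinearMap.smul_apply, hy.1 c0 v (hA0 ▸ hv), smul_zero,
          sub_zero]
      · rw [SetLike.mem_coe, Submodule.mem_dualAnnihilator]
        intro v hv
        rw [e1]
        have h7 := hy.2 c1 v hv
        rw [H887.omM_apply] at h7
        rw [LinearMap.add_apply, h7, LinearMap.smul_apply, hy.1 c1 v (hA1 ▸ hv), smul_zero,
          add_zero]
    have h7 := Submodule.finrank_mono h6
    have h8 : HomDu Ω u A B = H887.HomD Ω A B ⊓ LinearMap.ker (uM (Dual L V) u) := rfl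
    rw [h8]
    omega
  have h5 := Subspace.finrank_add_finrank_dualAnnihilator_eq (A c0 ⊔ A c1)
  have h6 := Submodule.finrank_sup_add_finrank_inf_eq (A c0) (A c1)
  omega

end jmodel

end Vale.Agent.P182.H338
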