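import Vale.Agent.P182.H338.SExt
import Vale.Agent.P182.H338.SDbl

/-!
# The special kernel: base change, isomorphisms and subquotients
-/

namespace Vale.Agent.P182.H338

open Module Matrix TensorProduct Vale.Agent.P182.H533 Vale.Agent.P182.B1 Vale.Agent.P182.H62

universe u v w

section nf

variable {L : Type u} {V : Type v} {J : Type w} [Field L] [AddCommGroup V] [Module L V]
  {D : Cfg L V J} {c0 c1 : J}

theorem SpinC.nf (hs : SpinC D c0 c1) (g : D.Good) : NF D.Ω c0 c1 (uz D c0 c1) where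
  ne := hs.c_ne
  skew := skewΩ g
  sp := hs.sp
  hu := fun l h => by
    rw [uz]
    split_ifs with h1
    · exact (hs.sp l h (by rintro rfl; rw [hs.arm1] at h1; exact absurd h1 (by decide))).symm
    · rfl
  hu0 := by rw [uz, if_pos hs.arm0]

variable [Fintype J]

theorem uzM_eq : uzM D c0 c1 = uM V (uz D c0 c1) := rfl

theorem mem_Ks {t : J → V} : t ∈ Ks D c0 c1 ↔ t ∈ D.K ∧ ∑ l, uz D c0 c1 l • t l = 0 := Iff.rfl

variable {L' : Type u} [Field L'] [Algebra L L']

omit [Fintype J] in
theorem uz_bcC (l : J) : uz (bcC D L') c0 c1 l = algebraMap L L' (uz D c0 c1 l) := by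
  rw [uz, uz]
  show (if D.arm l = 0 then algebraMap L L' (D.Ω c1 l) else algebraMap L L' (D.Ω c0 l)) = _
  split_ifs <;> rfl

/-- the special kernel and base change -/
theorem finrank_Ks_bcC : finrank L' (Ks (bcC D L') c0 c1) = finrank L (Ks D c0 c1) := by
  classical
  have key : ∀ x : L' ⊗[L] (J → V), x ∈ (Ks D c0 c1).baseChange L' ↔
      piE J L L' V x ∈ Ks (bcC D L') c0 c1 := by
    intro x
    have e1 : x ∈ D.K.baseChange L' ↔ piE J L L' V x ∈ (bcC D L').K := by
      rw [← K_bcC]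
      constructor
      · intro h
        exact ⟨x, h, rfl⟩
      · rintro ⟨y, hy, h⟩
        have : y = x := (piE J L L' V).injective h
        rwa [← this]
    have e2 : ∀ f : L' →ₗ[L] L, ev f (∑ l, uz (bcC D L') c0 c1 l • piE J L L' V x l) =
        ∑ l, uz D c0 c1 l • ev f x l := by
      intro f
      rw [map_sum]
      refine Finset.sum_congr rfl fun l _ => ?_
      rw [uz_bcC, algebraMap_smul, map_smul, ev_piE]
    rw [mem_bc_iff, mem_Ks, ← e1, mem_bc_iff]
    constructor
    · intro h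
      refine ⟨fun f => (h f).1, ev_sep fun f => ?_⟩
      rw [e2]
      exact (h f).2
    · rintro ⟨h1, h2⟩ f
      refine ⟨h1 f, ?_⟩
      show ∑ l, uz D c0 c1 l • ev f x l = 0
      rw [← e2, h2, map_zero]
  have h : ((Ks D c0 c1).baseChange L').map (piE J L L' V).toLinearMap = Ks (bcC D L') c0 c1 := by
    ext t
    constructor
    · rintro ⟨x, hx, rfl⟩
      exact (key x).mp hx
    · intro ht
      refine ⟨(piE J L L' V).symm t, ?_, (piE J L L' V).apply_symm_apply t⟩
      rw [SetLike.mem_coe, key, LinearEquiv.apply_symm_apply]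
      exact ht
  rw [← h, LinearEquiv.finrank_map_eq, finrank_bc]

end nf

section iso

variable {L : Type u} {V V' : Type v} {J : Type w} [Field L] [AddCommGroup V]
  [Module L V] [AddCommGroup V'] [Module L V'] {D : Cfg L V J} {D' : Cfg L V' J} {c0 c1 : J}

theorem uz_ciso (i : CIso D D') (l : J) : uz D' c0 c1 l = uz D c0 c1 l := by
  rw [uz, uz, i.arm, i.Ω]

variable [Fintype J]

theorem ciso_mem_Ks (i : CIso D D') (t : J → V) :
    (fun l => i.e (t l)) ∈ Ks D' c0 c1 ↔ t ∈ Ks D c0 c1 := by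
  rw [mem_Ks, mem_Ks, H258.ciso_mem_K]
  refine and_congr Iff.rfl ?_
  have e1 : ∑ l, uz D' c0 c1 l • i.e (t l) = i.e (∑ l, uz D c0 c1 l • t l) := by
    rw [map_sum]
    exact Finset.sum_congr rfl fun l _ => by rw [uz_ciso i, map_smul]
  rw [e1]
  exact i.e.map_eq_zero_iff

theorem ciso_finrank_Ks (i : CIso D D') :
    finrank L (Ks D' c0 c1) = finrank L (Ks D c0 c1) := by
  let E : (J → V) ≃ₗ[L] (J → V') := LinearEquiv.piCongrRight fun _ => i.e
  have h1 : (Ks D c0 c1).map E.toLinearMap = Ks D' c0 c1 := by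
    ext t
    constructor
    · rintro ⟨t, ht, rfl⟩
      exact (ciso_mem_Ks i t).mpr ht
    · intro ht
      refine ⟨E.symm t, ?_, E.apply_symm_apply t⟩
      rw [SetLike.mem_coe, ← ciso_mem_Ks i]
      have : (fun l => i.e ((E.symm t) l)) = t := E.apply_symm_apply t
      rwa [this]
  rw [← h1, LinearEquiv.finrank_map_eq]

end iso

section ext

variable {L : Type u} {V : Type v} {J : Type w} [Field L] [AddCommGroup V] [Module L V]
  [Fintype J] {D : Cfg L V J} {c0 c1 : J} {S : Submodule L V}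

/-- `Ext(N_s, S) = 0` -/
def ExtZeroS (D : Cfg L V J) (c0 c1 : J) (S : Submodule L V) : Prop :=
  ∀ y ∈ H887.HomD D.Ω (objA D S) (objB D S), ∑ l, uz D c0 c1 l • y l = 0 → y = 0

theorem extZeroS_iff : ExtZeroS D c0 c1 S ↔ ∀ y : J → Dual L ↥S,
    (∀ l, ∀ v : ↥S, (v : V) ∈ perp D.q (D.C l) → y l v = 0) →
    (∀ l, ∀ v : ↥S, (v : V) ∈ D.C l → ∑ k, D.Ω l k * y k v = 0) →
    (∀ v : ↥S, ∑ l, uz D c0 c1 l * y l v = 0) → y = 0 := by
  refine forall_congr' fun y => ?_
  rw [H887.mem_HomD]
  have e3 : (∑ l, uz D c0 c1 l • y l = 0) ↔ ∀ v : ↥S, ∑ l, uz D c0 c1 l * y l v = 0 := by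
    constructor
    · intro h v
      have := LinearMap.congr_fun h v
      rw [LinearMap.sum_apply] at this
      exact this
    · intro h
      refine LinearMap.ext fun v => ?_
      rw [LinearMap.sum_apply]
      exact h v
  rw [e3]
  constructor
  · intro h h1 h2
    refine h ⟨h1, fun l v hv => ?_⟩
    rw [H887.om_dual_apply]
    exact h2 l v hv
  · rintro h ⟨h1, h2⟩
    refine h h1 fun l v hv => ?_
    rw [← H887.om_dual_apply]
    exact h2 l v hv

variable [FiniteDimensional L V]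

omit [FiniteDimensional L V] in
/-- if `Ext(N_s, S) = 0` then `K_s ⊆ (S^⊥)^J` -/
theorem mem_perp_of_extS (g : D.Good) (hE : ExtZeroS D c0 c1 S) {t : J → V}
    (ht : t ∈ Ks D c0 c1) (l : J) : t l ∈ perp D.q S := by
  let y : J → Dual L ↥S := fun l => (D.q (t l)).comp S.subtype
  have hy : y ∈ H887.HomD D.Ω (objA D S) (objB D S) := by
    rw [H887.mem_HomD]
    refine ⟨fun l v hv => ?_, fun l v hv => ?_⟩
    · show D.q (t l) v = 0
      rw [g.form.symm]
      exact hv _ (ht.1.1 l)
    · rw [H887.om_dual_apply]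
      have h1 : ∑ k, D.Ω l k * y k v = D.q (D.om t l) v := by
        rw [Cfg.om, map_sum, LinearMap.sum_apply]
        refine Finset.sum_congr rfl fun k _ => ?_
        rw [map_smul, LinearMap.smul_apply, smul_eq_mul]
        rfl
      rw [h1]
      exact ht.1.2 l _ hv
  have h0 : y = 0 := by
    refine hE y hy ?_
    refine LinearMap.ext fun v => ?_
    rw [LinearMap.sum_apply, LinearMap.zero_apply]
    have h1 := congrArg (fun w => D.q w v) (mem_Ks.mp ht).2
    simp only [map_sum, map_smul, LinearMap.sum_apply, LinearMap.smul_apply, map_zero,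
      LinearMap.zero_apply] at h1
    exact h1
  intro s hs
  exact LinearMap.congr_fun (congrFun h0 l) ⟨s, hs⟩

/-- the map `K_s(V) → K_s(S^⊥ / S)` -/
def toSQS (g : D.Good) (hE : ExtZeroS D c0 c1 S) : Ks D c0 c1 →ₗ[L] (J → SQ D.q S) where
  toFun := fun t l => SQmk S ⟨t.1 l, mem_perp_of_extS g hE t.2 l⟩
  map_add' := fun a b => by funext l; exact map_add (SQmk S) ⟨a.1 l, _⟩ ⟨b.1 l, _⟩
  map_smul' := fun x a => by funext l; exact map_smul (SQmk S) x ⟨a.1 l, _⟩

theorem toSQS_mem (g : D.Good) (hS : D.Iso S) (hE : ExtZeroS D c0 c1 S) (t : Ks D c0 c1) :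
    toSQS g hE t ∈ Ks (sq D g S) c0 c1 := by
  have hsum : ∀ (f : J → L), ∑ k, f k • toSQS g hE t k =
      SQmk S (∑ k, f k • ⟨t.1 k, mem_perp_of_extS g hE t.2 k⟩) := by
    intro f
    rw [map_sum]
    refine Finset.sum_congr rfl fun k _ => ?_
    rw [map_smul]
    rfl
  rw [mem_Ks, Cfg.mem_K]
  refine ⟨⟨fun l => SQmk_mem_SQim S (t.2.1.1 l), fun l => ?_⟩, ?_⟩
  · rw [perp_sq_C g hS, Cfg.om]
    have h2 := hsum (fun k => D.Ω l k)
    have h3 : ∑ k, (sq D g S).Ω l k • toSQS g hE t k = ∑ k, D.Ω l k • toSQS g hE t k := rfl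
    rw [h3, h2]
    refine SQmk_mem_SQim S ?_
    rw [Submodule.coe_sum]
    exact t.2.1.2 l
  · have h3 : ∑ k, uz (sq D g S) c0 c1 k • toSQS g hE t k =
        ∑ k, uz D c0 c1 k • toSQS g hE t k := rfl
    rw [h3, hsum, SQmk_eq_zero, Submodule.coe_sum]
    have h4 := (mem_Ks.mp t.2).2
    have h5 : ∑ i, ((uz D c0 c1 i • (⟨t.1 i, mem_perp_of_extS g hE t.2 i⟩ : ↥(perp D.q S)) :
        ↥(perp D.q S)) : V) = ∑ l, uz D c0 c1 l • t.1 l := rfl
    rw [h5, h4]
    exact S.zero_mem

omit [FiniteDimensional L V] in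
/-- the numerical function of the object `S` -/
theorem thetaS_top : H887.theta (objA D S) (objB D S) ⊤ -
    (finrank L (objA D S c0) + finrank L (objA D S c1) - finrank L S) = thetaS D c0 c1 S := by
  have key : ∀ l, finrank L (objA D S l) = finrank L (S ⊓ D.C l : Submodule L V) := by
    intro l
    have h : (objA D S l).map S.subtype = S ⊓ D.C l := by
      ext v
      constructor
      · rintro ⟨x, h1, rfl⟩
        exact ⟨x.2, h1⟩
      · rintro ⟨h1, h2⟩
        exact ⟨⟨v, h1⟩, h2, rfl⟩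
    rw [← Submodule.finrank_map_subtype_eq S, h]
  rw [theta_obj_top, key, key, thetaS]

/-- **`K_s` and the subquotient**, if `Ext(N_s, S) = 0`. -/
theorem finrank_Ks_le (g : D.Good) (hs : SpinC D c0 c1) (h2 : (2 : L) ≠ 0) (hS : D.Iso S)
    (hE : ExtZeroS D c0 c1 S) :
    (finrank L (Ks D c0 c1) : ℤ) ≤ thetaS D c0 c1 S + finrank L (Ks (sq D g S) c0 c1) := by
  have h1 := LinearMap.finrank_range_add_finrank_ker (toSQS g hE)
  have h3 : finrank L (LinearMap.range (toSQS g hE)) ≤ finrank L (Ks (sq D g S) c0 c1) := by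
    refine Submodule.finrank_mono ?_
    rintro _ ⟨t, rfl⟩
    exact toSQS_mem g hS hE t
  have h4 : finrank L (LinearMap.ker (toSQS g hE)) ≤
      finrank L (HomNu D.Ω (uz D c0 c1) (objA D S) (objB D S)) := by
    have hk : ∀ t ∈ LinearMap.ker (toSQS g hE), ∀ l, t.1 l ∈ S := by
      intro t ht l
      exact (SQmk_eq_zero S).mp (congrFun (LinearMap.mem_ker.mp ht) l)
    let f : LinearMap.ker (toSQS g hE) →ₗ[L]
        HomNu D.Ω (uz D c0 c1) (objA D S) (objB D S) :=
      { toFun := fun t => ⟨fun l => ⟨t.1.1 l, hk t.1 t.2 l⟩, by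
          constructor
          · rw [SetLike.mem_coe, H887.mem_HomN]
            refine ⟨fun l => t.1.2.1.1 l, fun l => ?_⟩
            have h4 := t.1.2.1.2 l
            rw [H62.om_eq] at h4
            show S.subtype (H887.omM D.Ω (fun l => (⟨t.1.1 l, hk t.1 t.2 l⟩ : ↥S)) l) ∈
              perp D.q (D.C l)
            have h5 : S.subtype (H887.omM D.Ω (fun l => (⟨t.1.1 l, hk t.1 t.2 l⟩ : ↥S)) l) =
                H887.omM D.Ω t.1.1 l := by
              rw [H887.omM_apply, H887.omM_apply, map_sum]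
              rfl
            rw [h5]
            exact h4
          · rw [SetLike.mem_coe, LinearMap.mem_ker, uM_apply]
            apply Subtype.ext
            rw [Submodule.coe_sum]
            exact (mem_Ks.mp t.1.2).2⟩
        map_add' := fun a b => rfl
        map_smul' := fun x a => rfl }
    refine LinearMap.finrank_le_finrank_of_injective (f := f) ?_
    intro a b hab
    apply Subtype.ext
    apply Subtype.ext
    funext l
    have h6 := congrArg (fun z => ((z : J → ↥S) l : V)) (congrArg Subtype.val hab)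
    exact h6
  have hA0 : objA D S c0 = objB D S c0 := by rw [objA, objB, hs.lag0]
  have hA1 : objA D S c1 = objB D S c1 := by rw [objA, objB, hs.lag1]
  have h5 := rr_s (hs.nf g) hs.ne hA0 hA1 h2
  rw [thetaS_top] at h5
  have h6 : HomDu D.Ω (uz D c0 c1) (objA D S) (objB D S) = ⊥ := by
    rw [eq_bot_iff]
    intro y hy
    rw [Submodule.mem_bot]
    exact hE y hy.1 hy.2
  rw [h6, finrank_bot] at h5
  have h7 : (finrank L (LinearMap.ker (toSQS g hE)) : ℤ) ≤
    finrank L (HomNu D.Ω (uz D c0 c1) (objA D S) (objB D S)) := by exact_mod_cast h4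
  have h8 : (finrank L (LinearMap.range (toSQS g hE)) : ℤ) ≤
    finrank L (Ks (sq D g S) c0 c1) := by exact_mod_cast h3
  rw [← h1]
  push_cast at h5 ⊢
  linarith

end ext

end Vale.Agent.P182.H338
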