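import Vale.Agent.P182.H338.SProd4
import Vale.Agent.P182.H258.SProd6
import Vale.Agent.P182.H532.SHIn
import Vale.Agent.P182.H532.SR1

/-!
# T-SPIN: (R1) holds; the spin core from the null case alone
-/

namespace Vale.Agent.P182.H338

open Module Matrix TensorProduct Vale.Agent.P182.H533 Vale.Agent.P182.B1 Vale.Agent.P182.H62
open Vale.Agent.P182.H258 (fam)

universe u w

/-- the special situation (B2) does not occur -/
theorem hypB2S (J : Type u) [Fintype J] : H588.SP.HypB2S.{u, u} J := by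
  classical
  intro L _ _ V _ _ _ D c0 c1 h x y S b
  have hc : CharZero (AlgebraicClosure L) := charZero_ext L _
  have h0 : H258.HypS.{u, u} D c0 c1 := ⟨h.good, h.spin, h.versal, h.strict, h.ih, h.dim⟩
  have b0 : H258.B2S D h0.good c0 c1 x y S :=
    ⟨b.xK, b.x0, b.xx, b.dat, b.versal, b.strict, b.dimK, b.yK, b.yS, b.yn⟩
  have h1 := h0.bc (AlgebraicClosure L)
  have b1 := b0.bc h.spin (AlgebraicClosure L)
  have h2 : H588.SP.HypS.{u, u} (bcC D (AlgebraicClosure L)) c0 c1 :=
    ⟨h1.good, h1.spin, h1.versal, h1.strict, h1.ih, h1.dim⟩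
  have b2 : H588.SP.B2S (bcC D (AlgebraicClosure L)) h2.good c0 c1 _ _ _ :=
    ⟨b1.xK, b1.x0, b1.xx, b1.dat, b1.versal, b1.strict, b1.dimK, b1.yK, b1.yS, b1.yn⟩
  obtain ⟨S', x', hy, hS, hpre⟩ := h2.pre b2
  exact H588.noHInS J (AlgebraicClosure L) _ _ h2.good c0 c1 h2.spin.toSpinC h2.versal
    (semiS_of_uStrictS h2.strict) S' x' _ (hpre.hInS (h1.halt b1 hS hy))

/-- **(R1)**: there are no nonzero isotropic elements in the special kernel -/
theorem isoZeroS (J : Type u) [Fintype J] : IsoZeroS J := by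
  classical
  intro L V _ _ _ _ _ D c0 c1 h w hw hww
  exact h.iso_eq_zero (hypB2S J) hw hww

/-- **`HypTS` from the null case.** -/
theorem hypTS_of_nullU (J : Type u) [Fintype J]
    (h4 : ∀ (L : Type u) [Field L] [CharZero L] [IsAlgClosed L] [DecidableEq J],
      H588.HypNullU.{u, u, u} L J) : HypTS.{u, u} J :=
  hypTS_of_null (isoZeroS J) h4

/-- **The spin core from the null case.** -/
theorem coreSpinU_of_nullU {n : ℕ} (hn2 : 2 ≤ n)
    (h4 : ∀ (J : Type) [Fintype J] (L : Type) [Field L] [CharZero L] [IsAlgClosed L]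
      [DecidableEq J], H588.HypNullU.{0, 0, 0} L J) : H588.CoreSpinU n :=
  coreSpinU_of_null hn2 (fun J _ => isoZeroS J) h4

end Vale.Agent.P182.H338
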