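import Vale.Agent.P182.H922.N1sq
import Vale.Agent.P182.H338.SExt

/-!
# The square-zero vanishing lemma for special configurations: the count

The linear algebra of `H922.N1sq`, with general subspaces for the unknowns and for the test
vectors, and with the additional equation `∑ u_l t_l = 0`.
-/

namespace Vale.Agent.P182.H338

open Module Matrix Vale.Agent.P182.H533 Vale.Agent.P182.H922

section main

variable {L V J ι : Type*} [Field L] [AddCommGroup V] [Module L V]
  [Fintype J] [DecidableEq ι]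
  (arm : J → ι) (q : V →ₗ[L] V →ₗ[L] L) (Ω : Matrix J J L) (t : J → V) (u : J → L)
  (P Q : J → Submodule L V)

/-- the unknowns of the linearised problem -/
abbrev UUs (ι : Type*) {L V J : Type*} [Field L] [AddCommGroup V] [Module L V]
    (q : V →ₗ[L] V →ₗ[L] L) (P : J → Submodule L V) : Type _ := (ι → so q ∅) × (∀ l, P l)

/-- the dual of the equations of the linearised problem -/
abbrev WWs (ι : Type*) {L V J : Type*} [Field L] [AddCommGroup V] [Module L V]
    (q : V →ₗ[L] V →ₗ[L] L) (Q : J → Submodule L V) : Type _ :=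
  (∀ l, Q l) × (ι → sy q ∅) × V

variable {arm q t P Q u}

/-- the variation of the vectors `t` -/
def dts (arm : J → ι) (t : J → V) (x : UUs ι q P) (k : J) : V :=
  (x.1 (arm k) : End L V) (t k) + (x.2 k : V)

omit [Fintype J] [DecidableEq ι] in
theorem dts_add (x y : UUs ι q P) (k : J) : dts arm t (x + y) k = dts arm t x k + dts arm t y k := by
  show (((x.1 (arm k) : End L V) (t k) + (y.1 (arm k) : End L V) (t k)) +
      ((x.2 k : V) + (y.2 k : V))) = _
  rw [dts, dts]
  abel

omit [Fintype J] [DecidableEq ι] in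
theorem dts_smul (a : L) (x : UUs ι q P) (k : J) : dts arm t (a • x) k = a • dts arm t x k := by
  rw [dts, dts, smul_add]
  rfl

/-- the variation of the dual vectors -/
def dus (arm : J → ι) (Ω : Matrix J J L) (t : J → V) (x : UUs ι q P) (l : J) : V :=
  ∑ k, Ω l k • dts arm t x k - (x.1 (arm l) : End L V) (uu Ω t l)

omit [DecidableEq ι] in
theorem dus_add (x y : UUs ι q P) (l : J) :
    dus arm Ω t (x + y) l = dus arm Ω t x l + dus arm Ω t y l := by
  rw [dus, dus, dus, Finset.sum_congr rfl fun k _ => by rw [dts_add, smul_add],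
    Finset.sum_add_distrib]
  show _ - ((x.1 (arm l) : End L V) (uu Ω t l) + (y.1 (arm l) : End L V) (uu Ω t l)) = _
  abel

omit [DecidableEq ι] in
theorem dus_smul (a : L) (x : UUs ι q P) (l : J) :
    dus arm Ω t (a • x) l = a • dus arm Ω t x l := by
  rw [dus, dus, Finset.sum_congr rfl fun k _ => by rw [dts_smul, smul_comm (Ω l k) a],
    ← Finset.smul_sum, smul_sub]
  rfl

/-- the test vectors -/
def wws (arm : J → ι) (t : J → V) (y : WWs ι q Q) (l : J) : V :=
  (y.1 l : V) + (y.2.1 (arm l) : End L V) (t l)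

omit [Fintype J] [DecidableEq ι] in
theorem wws_add (x y : WWs ι q Q) (l : J) :
    wws arm t (x + y) l = wws arm t x l + wws arm t y l := by
  show ((x.1 l : V) + (y.1 l : V)) +
    ((x.2.1 (arm l) : End L V) (t l) + (y.2.1 (arm l) : End L V) (t l)) =
    ((x.1 l : V) + (x.2.1 (arm l) : End L V) (t l)) +
      ((y.1 l : V) + (y.2.1 (arm l) : End L V) (t l))
  abel

omit [Fintype J] [DecidableEq ι] in
theorem wws_smul (a : L) (x : WWs ι q Q) (l : J) :
    wws arm t (a • x) l = a • wws arm t x l := by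
  show (a • (x.1 l : V)) + (a • (x.2.1 (arm l) : End L V) (t l)) =
    a • ((x.1 l : V) + (x.2.1 (arm l) : End L V) (t l))
  rw [smul_add]

/-- the pairing -/
def PPs (arm : J → ι) (Ω : Matrix J J L) (t : J → V) (u : J → L) (P Q : J → Submodule L V) :
    UUs ι q P →ₗ[L] WWs ι q Q →ₗ[L] L := LinearMap.mk₂ L
  (fun x y => ∑ l, (q (wws arm t y l) (dus arm Ω t x l) +
    q ((y.2.1 (arm l) : End L V) (x.2 l)) (uu Ω t l)) + q y.2.2 (∑ l, u l • dts arm t x l))
  (fun x x' y => by
    have h1 : ∀ l, (q (wws arm t y l) (dus arm Ω t (x + x') l) +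
        q ((y.2.1 (arm l) : End L V) ((x + x').2 l)) (uu Ω t l)) =
        (q (wws arm t y l) (dus arm Ω t x l) + q ((y.2.1 (arm l) : End L V) (x.2 l)) (uu Ω t l)) +
        (q (wws arm t y l) (dus arm Ω t x' l) +
          q ((y.2.1 (arm l) : End L V) (x'.2 l)) (uu Ω t l)) := by
      intro l
      have : (((x + x').2 l : V)) = (x.2 l : V) + (x'.2 l : V) := rfl
      rw [dus_add, map_add, this, map_add, map_add, LinearMap.add_apply]
      ring
    have h3 : ∑ l, u l • dts arm t (x + x') l =
        ∑ l, u l • dts arm t x l + ∑ l, u l • dts arm t x' l := by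
      rw [← Finset.sum_add_distrib]
      exact Finset.sum_congr rfl fun l _ => by rw [dts_add, smul_add]
    rw [Finset.sum_congr rfl fun l _ => h1 l, Finset.sum_add_distrib, h3, map_add]
    ring)
  (fun a x y => by
    have h1 : ∀ l, (q (wws arm t y l) (dus arm Ω t (a • x) l) +
        q ((y.2.1 (arm l) : End L V) ((a • x).2 l)) (uu Ω t l)) =
        a * (q (wws arm t y l) (dus arm Ω t x l) +
          q ((y.2.1 (arm l) : End L V) (x.2 l)) (uu Ω t l)) := by
      intro l
      have : (((a • x).2 l : V)) = a • (x.2 l : V) := rfl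
      rw [dus_smul, map_smul, this, map_smul, map_smul, LinearMap.smul_apply, smul_eq_mul,
        smul_eq_mul]
      ring
    have h3 : ∑ l, u l • dts arm t (a • x) l = a • ∑ l, u l • dts arm t x l := by
      rw [Finset.smul_sum]
      exact Finset.sum_congr rfl fun l _ => by rw [dts_smul, smul_comm]
    rw [Finset.sum_congr rfl fun l _ => h1 l, ← Finset.mul_sum, h3, map_smul, smul_eq_mul,
      smul_eq_mul]
    ring)
  (fun x y y' => by
    have h1 : ∀ l, (q (wws arm t (y + y') l) (dus arm Ω t x l) +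
        q (((y + y').2.1 (arm l) : End L V) (x.2 l)) (uu Ω t l)) =
        (q (wws arm t y l) (dus arm Ω t x l) + q ((y.2.1 (arm l) : End L V) (x.2 l)) (uu Ω t l)) +
        (q (wws arm t y' l) (dus arm Ω t x l) +
          q ((y'.2.1 (arm l) : End L V) (x.2 l)) (uu Ω t l)) := by
      intro l
      have : (((y + y').2.1 (arm l) : End L V)) =
        (y.2.1 (arm l) : End L V) + (y'.2.1 (arm l) : End L V) := rfl
      rw [wws_add, map_add, LinearMap.add_apply, this, LinearMap.add_apply, map_add,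
        LinearMap.add_apply]
      ring
    have h3 : q (y + y').2.2 (∑ l, u l • dts arm t x l) =
        q y.2.2 (∑ l, u l • dts arm t x l) + q y'.2.2 (∑ l, u l • dts arm t x l) := by
      show q (y.2.2 + y'.2.2) _ = _
      rw [map_add, LinearMap.add_apply]
    rw [Finset.sum_congr rfl fun l _ => h1 l, Finset.sum_add_distrib, h3]
    ring)
  (fun a x y => by
    have h1 : ∀ l, (q (wws arm t (a • y) l) (dus arm Ω t x l) +
        q (((a • y).2.1 (arm l) : End L V) (x.2 l)) (uu Ω t l)) =
        a * (q (wws arm t y l) (dus arm Ω t x l) +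
          q ((y.2.1 (arm l) : End L V) (x.2 l)) (uu Ω t l)) := by
      intro l
      have : (((a • y).2.1 (arm l) : End L V)) = a • (y.2.1 (arm l) : End L V) := rfl
      rw [wws_smul, map_smul, LinearMap.smul_apply, this, LinearMap.smul_apply, map_smul,
        LinearMap.smul_apply, smul_eq_mul, smul_eq_mul]
      ring
    have h3 : q (a • y).2.2 (∑ l, u l • dts arm t x l) =
        a * q y.2.2 (∑ l, u l • dts arm t x l) := by
      show q (a • y.2.2) _ = _
      rw [map_smul, LinearMap.smul_apply, smul_eq_mul]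
    rw [Finset.sum_congr rfl fun l _ => h1 l, ← Finset.mul_sum, h3, smul_eq_mul]
    ring)

omit [DecidableEq ι] in
theorem PPs_apply (x : UUs ι q P) (y : WWs ι q Q) : PPs arm Ω t u P Q x y =
    ∑ l, (q (wws arm t y l) (dus arm Ω t x l) +
      q ((y.2.1 (arm l) : End L V) (x.2 l)) (uu Ω t l)) + q y.2.2 (∑ l, u l • dts arm t x l) := rfl

/-- the data of the count -/
structure Sdat (arm : J → ι) (q : V →ₗ[L] V →ₗ[L] L) (Ω : Matrix J J L) (t : J → V) (u : J → L)
    (P Q : J → Submodule L V) (c0 c1 : J) (Fc Gc : ι → Finset (Submodule L V)) : Prop where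
  hq : IsForm q
  span : Submodule.span L (Set.range t) = ⊤
  nf : NF Ω c0 c1 u
  ne : Ω c0 c1 ≠ 0
  ut : ∑ l, u l • t l = 0
  res : ∀ s v, ∑ l with arm l = s, (q (uu Ω t l) v • t l + q (t l) v • uu Ω t l) = 0
  Q0 : Q c0 = ⊥
  Q1 : Q c1 = ⊥
  Qu : ∀ l, ∀ v ∈ Q l, q (uu Ω t l) v = 0
  tP : ∀ l, t l ∈ P l
  soP : ∀ s, ∀ X ∈ so q (Fc s), ∀ l, arm l = s → X (t l) ∈ P l
  soQ : ∀ s, ∀ X ∈ so q (Fc s), ∀ l, arm l = s → ∀ v ∈ Q l, X v ∈ Q l
  chain : ∀ s, IsChain (· ≤ ·) (Gc s : Set (Submodule L V))
  iso : ∀ s, ∀ W ∈ Gc s, ∀ W' ∈ Gc s, ∀ w ∈ W, ∀ w' ∈ W', q w w' = 0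
  cnP : ∀ s, ∀ c : Conn q, (∀ W ∈ Gc s, ∀ w ∈ W, c.δ w ∈ W) → ∀ l, arm l = s → c.δ (t l) ∈ P l
  cnQ : ∀ s, ∀ c : Conn q, (∀ W ∈ Gc s, ∀ w ∈ W, c.δ w ∈ W) → ∀ l, arm l = s →
    ∀ v ∈ Q l, c.δ v ∈ Q l
  syG : ∀ s, ∀ X, IsSA q X → (∀ l, arm l = s → l ≠ c0 → l ≠ c1 → X (t l) ∈ Q l) →
    (arm c0 = s → ∀ v ∈ P c0, q (X (t c0)) v = 0) →
    (arm c1 = s → ∀ v ∈ P c1, q (X (t c1)) v = 0) → X ∈ sy q (Gc s)
  syQ : ∀ s, ∀ X ∈ sy q (Gc s), ∀ l, arm l = s → l ≠ c0 → l ≠ c1 → X (t l) ∈ Q l

/-- the trivial solutions -/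
def Ths {c0 c1 : J} {Fc Gc : ι → Finset (Submodule L V)}
    (D : Sdat arm q Ω t u P Q c0 c1 Fc Gc) :
    (so q ∅ × (∀ s, so q (Fc s)) × L) →ₗ[L] UUs ι q P where
  toFun := fun z => (fun s => ⟨(z.1 : End L V) + (z.2.1 s : End L V),
      (so q ∅).add_mem z.1.2 ⟨(z.2.1 s).2.1, fun W hW => absurd hW (Finset.notMem_empty W)⟩⟩,
    fun l => ⟨- (z.2.1 (arm l) : End L V) (t l) + z.2.2 • t l, Submodule.add_mem _
      (Submodule.neg_mem _ (D.soP _ _ (z.2.1 (arm l)).2 l rfl))
      (Submodule.smul_mem _ _ (D.tP l))⟩)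
  map_add' := fun z z' => by
    refine Prod.ext (funext fun s => Subtype.ext ?_) (funext fun l => Subtype.ext ?_)
    · show ((z.1 : End L V) + (z'.1 : End L V)) + ((z.2.1 s : End L V) + (z'.2.1 s : End L V)) =
        ((z.1 : End L V) + (z.2.1 s : End L V)) + ((z'.1 : End L V) + (z'.2.1 s : End L V))
      abel
    · show -((z.2.1 (arm l) : End L V) (t l) + (z'.2.1 (arm l) : End L V) (t l)) +
        (z.2.2 + z'.2.2) • t l = (- (z.2.1 (arm l) : End L V) (t l) + z.2.2 • t l) +
          (- (z'.2.1 (arm l) : End L V) (t l) + z'.2.2 • t l)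
      rw [add_smul]; abel
  map_smul' := fun a z => by
    refine Prod.ext (funext fun s => Subtype.ext ?_) (funext fun l => Subtype.ext ?_)
    · show (a • (z.1 : End L V)) + (a • (z.2.1 s : End L V)) =
        a • ((z.1 : End L V) + (z.2.1 s : End L V))
      rw [smul_add]
    · show -(a • (z.2.1 (arm l) : End L V) (t l)) + (a * z.2.2) • t l =
        a • (- (z.2.1 (arm l) : End L V) (t l) + z.2.2 • t l)
      rw [smul_add, smul_neg, smul_smul]

variable {Ω} {c0 c1 : J} {Fc Gc : ι → Finset (Submodule L V)}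

theorem dts_Ths (D : Sdat arm q Ω t u P Q c0 c1 Fc Gc) (z : so q ∅ × (∀ s, so q (Fc s)) × L)
    (k : J) : dts arm t (Ths Ω D z) k = (z.1 : End L V) (t k) + z.2.2 • t k := by
  show (((z.1 : End L V) (t k) + (z.2.1 (arm k) : End L V) (t k)) +
      (- (z.2.1 (arm k) : End L V) (t k) + z.2.2 • t k)) = _
  abel

theorem dus_Ths (D : Sdat arm q Ω t u P Q c0 c1 Fc Gc) (z : so q ∅ × (∀ s, so q (Fc s)) × L)
    (l : J) : dus arm Ω t (Ths Ω D z) l =
      z.2.2 • uu Ω t l - (z.2.1 (arm l) : End L V) (uu Ω t l) := by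
  have h1 : ∀ k, Ω l k • dts arm t (Ths Ω D z) k =
      (z.1 : End L V) (Ω l k • t k) + z.2.2 • (Ω l k • t k) := by
    intro k
    rw [dts_Ths, map_smul, smul_comm z.2.2 (Ω l k), ← smul_add]
  rw [dus, Finset.sum_congr rfl fun k _ => h1 k, Finset.sum_add_distrib, ← map_sum,
    ← Finset.smul_sum]
  show (z.1 : End L V) (uu Ω t l) + z.2.2 • uu Ω t l -
    ((z.1 : End L V) (uu Ω t l) + (z.2.1 (arm l) : End L V) (uu Ω t l)) = _
  abel

theorem sum_u_dts_Ths (D : Sdat arm q Ω t u P Q c0 c1 Fc Gc)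
    (z : so q ∅ × (∀ s, so q (Fc s)) × L) : ∑ l, u l • dts arm t (Ths Ω D z) l = 0 := by
  have h1 : ∀ k, u k • dts arm t (Ths Ω D z) k =
      (z.1 : End L V) (u k • t k) + z.2.2 • (u k • t k) := by
    intro k
    rw [dts_Ths, map_smul, smul_comm z.2.2 (u k), ← smul_add]
  rw [Finset.sum_congr rfl fun k _ => h1 k, Finset.sum_add_distrib, ← map_sum,
    ← Finset.smul_sum, D.ut, map_zero, smul_zero, add_zero]

variable [Fintype ι] [FiniteDimensional L V]

theorem PPs_Ths (h2 : (2 : L) ≠ 0) (D : Sdat arm q Ω t u P Q c0 c1 Fc Gc)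
    (z : so q ∅ × (∀ s, so q (Fc s)) × L) (y : WWs ι q Q) :
    PPs arm Ω t u P Q (Ths Ω D z) y = 0 := by
  rw [PPs_apply, sum_u_dts_Ths, map_zero, add_zero, ← Finset.sum_fiberwise Finset.univ arm]
  refine Finset.sum_eq_zero fun s _ => ?_
  have hZ := (z.2.1 s).2.1
  have hA := (y.2.1 s).2.1
  have hM : IsSA q ((2 * z.2.2) • (y.2.1 s : End L V) +
      ((z.2.1 s : End L V) * (y.2.1 s : End L V) -
      (y.2.1 s : End L V) * (z.2.1 s : End L V))) := by
    intro u v
    simp only [LinearMap.add_apply, LinearMap.sub_apply, LinearMap.smul_apply,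
      Module.End.mul_apply, map_add, map_sub, map_smul]
    rw [hA u v, hZ, hA u, hA, hZ u]
    ring
  have h1 := tr_sym0 D.hq h2 _ _ _ (D.res s) hM
  rw [← h1]
  refine Finset.sum_congr rfl fun l hl => ?_
  have hl' : arm l = s := (Finset.mem_filter.mp hl).2
  subst hl'
  have e1 : ((Ths Ω D z).2 l : V) = - (z.2.1 (arm l) : End L V) (t l) + z.2.2 • t l := rfl
  rw [dus_Ths, wws, e1]
  have hb : q (y.1 l : V) (uu Ω t l) = 0 := by
    rw [D.hq.symm]; exact D.Qu l _ (y.1 l).2
  have hZb : q (y.1 l : V) ((z.2.1 (arm l) : End L V) (uu Ω t l)) = 0 := by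
    have h3 := hZ (y.1 l : V) (uu Ω t l)
    have h4 : q ((z.2.1 (arm l) : End L V) (y.1 l : V)) (uu Ω t l) = 0 := by
      rw [D.hq.symm]; exact D.Qu l _ (D.soQ _ _ (z.2.1 (arm l)).2 l rfl _ (y.1 l).2)
    rw [h4] at h3
    exact neg_eq_zero.mp h3.symm
  simp only [LinearMap.add_apply, LinearMap.sub_apply, LinearMap.smul_apply,
    Module.End.mul_apply, map_add, map_sub, map_smul, map_neg, LinearMap.neg_apply, smul_eq_mul]
  rw [hb, hZb, hZ ((y.2.1 (arm l) : End L V) (t l)) (uu Ω t l)]
  ring

omit [Fintype ι] in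
theorem Ths_injective (h2 : (2 : L) ≠ 0) (D : Sdat arm q Ω t u P Q c0 c1 Fc Gc)
    (hV : 0 < finrank L V) : Function.Injective (Ths Ω D) := by
  rw [injective_iff_map_eq_zero]
  rintro ⟨Z0, Z, a⟩ h
  have h1 : ∀ s, (Z0 : End L V) + (Z s : End L V) = 0 := fun s =>
    congrArg Subtype.val (congrFun (congrArg Prod.fst h) s)
  have h3 : ∀ l, - (Z (arm l) : End L V) (t l) + a • t l = 0 := fun l =>
    congrArg Subtype.val (congrFun (congrArg Prod.snd h) l)
  have h4 : ∀ l, (Z0 : End L V) (t l) = - (a • t l) := by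
    intro l
    have h5 := LinearMap.congr_fun (h1 (arm l)) (t l)
    rw [LinearMap.add_apply, LinearMap.zero_apply] at h5
    rw [eq_neg_of_add_eq_zero_left h5, neg_eq_of_add_eq_zero_left (h3 l)]
  have h5 : ∀ v, (Z0 : End L V) v = - (a • v) := by
    intro v
    have hv : v ∈ Submodule.span L (Set.range t) := by rw [D.span]; trivial
    induction hv using Submodule.span_induction with
    | mem v hv =>
      obtain ⟨k, rfl⟩ := hv
      exact h4 k
    | zero => rw [map_zero, smul_zero, neg_zero]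
    | add w w' _ _ h1 h2 => rw [map_add, h1, h2, smul_add]; abel
    | smul x w _ h1 => rw [map_smul, h1, smul_neg, smul_comm]
  have ha : a = 0 := by
    by_contra ha
    obtain ⟨v, hv⟩ := Module.finrank_pos_iff_exists_ne_zero.mp hV
    apply hv
    apply D.hq.nondeg
    intro w
    have h6 := Z0.2.1 v w
    rw [h5, h5, map_neg, LinearMap.neg_apply, map_neg, map_smul, map_smul, LinearMap.smul_apply,
      smul_eq_mul, neg_neg] at h6
    have h7 : (2 * a) * q v w = 0 := by linear_combination -h6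
    exact (mul_eq_zero.mp h7).resolve_left (mul_ne_zero h2 ha)
  have hZ0 : Z0 = 0 := by
    apply Subtype.ext
    refine LinearMap.ext fun v => ?_
    rw [h5, ha, zero_smul, neg_zero]; rfl
  refine Prod.ext hZ0 (Prod.ext (funext fun s => Subtype.ext ?_) ha)
  have := h1 s
  rw [hZ0, Submodule.coe_zero, zero_add] at this
  exact this

/-- **The linearised problem is solvable for every variation of `Ω`.** -/
theorem exists_reals (h2 : (2 : L) ≠ 0) (D : Sdat arm q Ω t u P Q c0 c1 Fc Gc)
    {η : Matrix J J L} (d : L →+ L) (hd : ∀ a b, d (a * b) = d a * b + a * d b)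
    (hη : ∀ i j, d (Ω i j) = η i j) :
    ∃ x : UUs ι q P, ∀ y : WWs ι q Q,
      PPs arm Ω t u P Q x y + (∑ l, q (wws arm t y l) (∑ k, η l k • t k) +
        q y.2.2 (∑ l, d (u l) • t l)) = 0 := by
  classical
  obtain ⟨n0, hn0, -⟩ := exists_metric_conn D.hq h2 d hd (ℱ := ∅) (by simp [IsChain]) (by simp)
  choose cs hcs hcF using fun s =>
    exists_metric_conn D.hq h2 d hd (D.chain s) (D.iso s)
  -- the differences
  let Z : ι → End L V := fun s =>
    { toFun := fun v => n0.δ v - (cs s).δ v
      map_add' := fun u v => by rw [map_add, map_add]; abel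
      map_smul' := fun a v => by
        rw [n0.smul, (cs s).smul, hn0, hcs, RingHom.id_apply, smul_sub]; abel }
  have hZ : ∀ s v, Z s v = n0.δ v - (cs s).δ v := fun s v => rfl
  have hZso : ∀ s, Z s ∈ so q ∅ := by
    intro s
    refine ⟨fun u v => ?_, fun W hW => absurd hW (Finset.notMem_empty W)⟩
    have h3 := n0.metric u v
    have h4 := (cs s).metric u v
    rw [hn0] at h3
    rw [hcs] at h4
    rw [hZ, hZ, map_sub, map_sub, LinearMap.sub_apply]
    linear_combination h4 - h3
  refine ⟨(fun s => ⟨Z s, hZso s⟩, fun l => ⟨(cs (arm l)).δ (t l),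
    D.cnP _ _ (hcF (arm l)) l rfl⟩), fun y => ?_⟩
  -- the variation of the dual vectors
  have hu : ∀ e : Conn q, e.d = d → ∀ l, e.δ (uu Ω t l) = ∑ k, η l k • t k + ∑ k, Ω l k • e.δ (t k) := by
    intro e he l
    rw [uu, map_sum, ← Finset.sum_add_distrib]
    refine Finset.sum_congr rfl fun k _ => ?_
    rw [e.smul, he, hη]
  set x : UUs ι q P := (fun s => ⟨Z s, hZso s⟩, fun l => ⟨(cs (arm l)).δ (t l),
    D.cnP _ _ (hcF (arm l)) l rfl⟩) with hx
  have hdt : ∀ k, dts arm t x k = n0.δ (t k) := by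
    intro k
    show (n0.δ (t k) - (cs (arm k)).δ (t k)) + (cs (arm k)).δ (t k) = _
    abel
  have hE : ∑ l, u l • dts arm t x l + ∑ l, d (u l) • t l = 0 := by
    have h3 := congrArg n0.δ D.ut
    rw [map_zero, map_sum] at h3
    rw [← h3, ← Finset.sum_add_distrib]
    refine Finset.sum_congr rfl fun l _ => ?_
    rw [hdt, n0.smul, hn0, add_comm]
  have hdu : ∀ l, dus arm Ω t x l + ∑ k, η l k • t k = (cs (arm l)).δ (uu Ω t l) := by
    intro l
    have h3 : dus arm Ω t x l =
        ∑ k, Ω l k • n0.δ (t k) - (n0.δ (uu Ω t l) - (cs (arm l)).δ (uu Ω t l)) := by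
      rw [dus]
      congr 1
      refine Finset.sum_congr rfl fun k _ => ?_
      rw [hdt]
    rw [h3, hu n0 hn0]
    abel
  have hEq : q y.2.2 (∑ l, u l • dts arm t x l) + q y.2.2 (∑ l, d (u l) • t l) = 0 := by
    rw [← map_add, hE, map_zero]
  have e0 : PPs arm Ω t u P Q x y + (∑ l, q (wws arm t y l) (∑ k, η l k • t k) +
        q y.2.2 (∑ l, d (u l) • t l)) = ∑ l, (q (wws arm t y l) (dus arm Ω t x l) +
      q ((y.2.1 (arm l) : End L V) (x.2 l)) (uu Ω t l) +
        q (wws arm t y l) (∑ k, η l k • t k)) := by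
    rw [PPs_apply, Finset.sum_add_distrib (g := fun l => q (wws arm t y l) (∑ k, η l k • t k))]
    linear_combination hEq
  rw [e0, ← Finset.sum_fiberwise Finset.univ arm]
  refine Finset.sum_eq_zero fun s _ => ?_
  have h1 := tr_sym_conn D.hq h2 _ _ _ (D.res s) (cs s) (y.2.1 s).2.1
  rw [← h1]
  refine Finset.sum_congr rfl fun l hl => ?_
  have hl' : arm l = s := (Finset.mem_filter.mp hl).2
  subst hl'
  have h5 : q (y.1 l : V) ((cs (arm l)).δ (uu Ω t l)) = 0 := by
    have h6 := (cs (arm l)).metric (y.1 l : V) (uu Ω t l)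
    have h7 : q (y.1 l : V) (uu Ω t l) = 0 := by
      rw [D.hq.symm]; exact D.Qu l _ (y.1 l).2
    have h8 : q ((cs (arm l)).δ (y.1 l : V)) (uu Ω t l) = 0 := by
      rw [D.hq.symm]
      exact D.Qu l _ (D.cnQ _ _ (hcF (arm l)) l rfl _ (y.1 l).2)
    rw [h7, map_zero, h8, zero_add] at h6
    exact h6.symm
  have e1 : (x.2 l : V) = (cs (arm l)).δ (t l) := rfl
  have e2 : q (wws arm t y l) (dus arm Ω t x l) +
      q ((y.2.1 (arm l) : End L V) (x.2 l : V)) (uu Ω t l) +
      q (wws arm t y l) (∑ k, η l k • t k) =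
      q (wws arm t y l) (dus arm Ω t x l + ∑ k, η l k • t k) +
      q ((y.2.1 (arm l) : End L V) ((cs (arm l)).δ (t l))) (uu Ω t l) := by
    rw [map_add (q (wws arm t y l)), e1]; ring
  rw [e2, hdu, wws, map_add, LinearMap.add_apply, h5]
  ring

omit [Fintype ι] [FiniteDimensional L V] [DecidableEq ι] in
/-- two special variations -/
theorem sum_single_sub [DecidableEq J] (w t : J → V) (i j : J) :
    ∑ l, q (w l) (∑ k, (Matrix.single i j 1 - Matrix.single j i 1 : Matrix J J L) l k • t k) =
      q (w i) (t j) - q (w j) (t i) := by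
  have h3 : ∀ l, q (w l) (∑ k, (Matrix.single i j 1 - Matrix.single j i 1 : Matrix J J L) l k • t k) =
      (if l = i then q (w l) (t j) else 0) - (if l = j then q (w l) (t i) else 0) := by
    intro l
    simp only [Matrix.sub_apply, sub_smul, Finset.sum_sub_distrib, map_sub]
    congr 1
    · by_cases h : l = i
      · subst h
        rw [if_pos rfl, Finset.sum_eq_single j]
        · rw [Matrix.single_apply_same, one_smul]
        · intro k _ hk
          rw [Matrix.single_apply_of_ne _ _ _ _ _ (fun h => hk h.2.symm), zero_smul]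
        · intro h; exact absurd (Finset.mem_univ _) h
      · rw [if_neg h, Finset.sum_eq_zero, map_zero]
        intro k _
        rw [Matrix.single_apply_of_ne _ _ _ _ _ (fun h' => h h'.1.symm), zero_smul]
    · by_cases h : l = j
      · subst h
        rw [if_pos rfl, Finset.sum_eq_single i]
        · rw [Matrix.single_apply_same, one_smul]
        · intro k _ hk
          rw [Matrix.single_apply_of_ne _ _ _ _ _ (fun h => hk h.2.symm), zero_smul]
        · intro h; exact absurd (Finset.mem_univ _) h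
      · rw [if_neg h, Finset.sum_eq_zero, map_zero]
        intro k _
        rw [Matrix.single_apply_of_ne _ _ _ _ _ (fun h' => h h'.1.symm), zero_smul]
  rw [Finset.sum_congr rfl fun l _ => h3 l, Finset.sum_sub_distrib,
    Finset.sum_ite_eq' Finset.univ i, Finset.sum_ite_eq' Finset.univ j,
    if_pos (Finset.mem_univ _), if_pos (Finset.mem_univ _)]

omit [Fintype ι] [FiniteDimensional L V] [DecidableEq ι] in
/-- a symmetric family is given by a selfadjoint endomorphism -/
theorem exists_symB [DecidableEq J] (hq : IsForm q) (hsp : Submodule.span L (Set.range t) = ⊤)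
    {w : J → V} (hsym : ∀ i j, q (w i) (t j) = q (w j) (t i)) :
    ∃ B : End L V, IsSA q B ∧ ∀ l, B (t l) = w l := by
  let T : (J → L) →ₗ[L] V := Fintype.linearCombination L t
  let R : (J → L) →ₗ[L] V := Fintype.linearCombination L w
  have hT : ∀ x, T x = ∑ k, x k • t k := fun x => rfl
  have hR : ∀ x, R x = ∑ k, x k • w k := fun x => rfl
  have hTs : LinearMap.range T = ⊤ := by
    rw [Fintype.range_linearCombination, hsp]
  have hker : ∀ x, T x = 0 → R x = 0 := by
    intro x hx
    apply hq.nondeg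
    intro v
    have hv : v ∈ Submodule.span L (Set.range t) := by rw [hsp]; trivial
    induction hv using Submodule.span_induction with
    | mem v hv =>
      obtain ⟨j, rfl⟩ := hv
      have h4 : q (R x) (t j) = q (w j) (T x) := by
        rw [hR, hT, map_sum, map_sum, LinearMap.sum_apply]
        refine Finset.sum_congr rfl fun k _ => ?_
        rw [map_smul, map_smul, LinearMap.smul_apply, hsym]
      rw [h4, hx, map_zero]
    | zero => rw [map_zero]
    | add w w' _ _ h1 h2 => rw [map_add, h1, h2, add_zero]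
    | smul x w _ h1 => rw [map_smul, h1, smul_zero]
  obtain ⟨σ, hσ⟩ := LinearMap.exists_rightInverse_of_surjective T hTs
  let B : End L V := R ∘ₗ σ
  have hBT : ∀ x, B (T x) = R x := by
    intro x
    show R (σ (T x)) = R x
    rw [← sub_eq_zero, ← map_sub]
    apply hker
    rw [map_sub]
    have : T (σ (T x)) = T x := LinearMap.congr_fun hσ (T x)
    rw [this, sub_self]
  have hB : ∀ l, B (t l) = w l := by
    intro l
    have h1 : T (Pi.single l 1) = t l := by
      rw [hT, Finset.sum_eq_single l]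
      · rw [Pi.single_eq_same, one_smul]
      · intro k _ hk
        rw [Pi.single_eq_of_ne hk, zero_smul]
      · intro h; exact absurd (Finset.mem_univ _) h
    have h3 : R (Pi.single l 1) = w l := by
      rw [hR, Finset.sum_eq_single l]
      · rw [Pi.single_eq_same, one_smul]
      · intro k _ hk
        rw [Pi.single_eq_of_ne hk, zero_smul]
      · intro h; exact absurd (Finset.mem_univ _) h
    rw [← h1, hBT, h3]
  refine ⟨B, ?_, hB⟩
  intro u v
  have hu : u ∈ Submodule.span L (Set.range t) := by rw [hsp]; trivial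
  induction hu using Submodule.span_induction with
  | mem u hu =>
    obtain ⟨i, rfl⟩ := hu
    have hv : v ∈ Submodule.span L (Set.range t) := by rw [hsp]; trivial
    induction hv using Submodule.span_induction with
    | mem v hv =>
      obtain ⟨j, rfl⟩ := hv
      rw [hB, hB, hsym, hq.symm]
    | zero => rw [map_zero, map_zero, map_zero]
    | add w w' _ _ h1 h2 => rw [map_add, h1, h2, map_add, map_add]
    | smul x w _ h1 => rw [map_smul, h1, map_smul, map_smul]
  | zero => rw [map_zero, map_zero, LinearMap.zero_apply, LinearMap.zero_apply]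
  | add w w' _ _ h1 h2 => rw [map_add, map_add, LinearMap.add_apply, h1, h2, map_add, LinearMap.add_apply]
  | smul x w _ h1 => rw [map_smul, map_smul, LinearMap.smul_apply, h1, map_smul, LinearMap.smul_apply]

/-- the special skew matrices -/
def SpecEta (η : Matrix J J L) (c0 c1 : J) : Prop := ηᵀ = -η ∧ ∀ l, η c0 l = η c1 l

omit [Fintype ι] [FiniteDimensional L V] [DecidableEq ι] in
/-- **Symmetry from the special relations.** -/
theorem symm_of_spec [DecidableEq J] (h2 : (2 : L) ≠ 0) (nf : NF Ω c0 c1 u) (hg : Ω c0 c1 ≠ 0)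
    {a : Matrix J J L} (ha : ∀ l k, a l k = - a k l)
    (h : ∀ η : Matrix J J L, SpecEta η c0 c1 → ∑ l, ∑ k, η l k * a l k = 0)
    (hu : ∀ l, ∑ k, u k * a l k = 0) : ∀ l k, a l k = 0 := by
  have hne := nf.ne
  have hd : ∀ l, a l l = 0 := by
    intro l
    have h1 := ha l l
    have h3 : 2 * a l l = 0 := by linear_combination h1
    exact (mul_eq_zero.mp h3).resolve_left h2
  -- generic entries
  have hs : ∀ (i j : J) (b : Matrix J J L), ∑ l, ∑ k, (Matrix.single i j 1 : Matrix J J L) l k * b l k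
      = b i j := by
    intro i j b
    rw [Finset.sum_eq_single i, Finset.sum_eq_single j]
    · rw [Matrix.single_apply_same, one_mul]
    · intro k _ hk
      rw [Matrix.single_apply_of_ne _ _ _ _ _ (fun h => hk h.2.symm), zero_mul]
    · intro h; exact absurd (Finset.mem_univ _) h
    · intro l _ hl
      refine Finset.sum_eq_zero fun k _ => ?_
      rw [Matrix.single_apply_of_ne _ _ _ _ _ (fun h => hl h.1.symm), zero_mul]
    · intro h; exact absurd (Finset.mem_univ _) h
  have hgen : ∀ i j, i ≠ c0 → i ≠ c1 → j ≠ c0 → j ≠ c1 → a i j = 0 := by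
    intro i j hi0 hi1 hj0 hj1
    have h1 := h (Matrix.single i j 1 - Matrix.single j i 1) ⟨by
      rw [Matrix.transpose_sub, Matrix.transpose_single, Matrix.transpose_single, neg_sub],
      fun l => by
        simp only [Matrix.sub_apply, Matrix.single_apply]
        simp [hi0, hi1, hj0, hj1]⟩
    simp only [Matrix.sub_apply, sub_mul, Finset.sum_sub_distrib] at h1
    rw [hs, hs, ha j i] at h1
    have h3 : 2 * a i j = 0 := by linear_combination h1
    exact (mul_eq_zero.mp h3).resolve_left h2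
  -- mixed entries
  have hmix : ∀ k, k ≠ c0 → k ≠ c1 → a c0 k + a c1 k = 0 := by
    intro k hk0 hk1
    have h1 := h ((Matrix.single c0 k 1 - Matrix.single k c0 1) +
      (Matrix.single c1 k 1 - Matrix.single k c1 1)) ⟨by
      simp only [Matrix.transpose_add, Matrix.transpose_sub, Matrix.transpose_single]
      abel, fun l => by
        simp only [Matrix.sub_apply, Matrix.add_apply, Matrix.single_apply]
        simp [hk0, hk1, hne, hne.symm]⟩
    simp only [Matrix.sub_apply, Matrix.add_apply, add_mul, sub_mul, Finset.sum_sub_distrib,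
      Finset.sum_add_distrib] at h1
    rw [hs, hs, hs, hs, ha k c0, ha k c1] at h1
    have h3 : 2 * (a c0 k + a c1 k) = 0 := by linear_combination h1
    exact (mul_eq_zero.mp h3).resolve_left h2
  -- the sum over the rows
  have hsum : ∀ l, ∑ k, u k * a l k = u c1 * a l c1 + (u c0 * a l c0 +
      ∑ k ∈ (Finset.univ.erase c1).erase c0, u k * a l k) := by
    intro l
    rw [← Finset.add_sum_erase _ _ (Finset.mem_univ c1),
      ← Finset.add_sum_erase _ _ (Finset.mem_erase.mpr ⟨hne, Finset.mem_univ c0⟩)]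
  have hrow : ∀ k, k ≠ c0 → k ≠ c1 → a c0 k = 0 ∧ a c1 k = 0 := by
    intro k hk0 hk1
    have h1 := hu k
    rw [hsum, Finset.sum_eq_zero, nf.hu c1 hne.symm, nf.hu0, nf.skew c1 c0, add_zero] at h1
    · have h3 : Ω c0 c1 * (a c0 k - a c1 k) = 0 := by
        rw [ha k c1, ha k c0] at h1
        linear_combination h1
      have h4 := (mul_eq_zero.mp h3).resolve_left hg
      have h5 := hmix k hk0 hk1
      have h6 : 2 * a c0 k = 0 := by linear_combination h4 + h5
      have h7 := (mul_eq_zero.mp h6).resolve_left h2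
      refine ⟨h7, ?_⟩
      rw [h7, zero_add] at h5
      exact h5
    · intro l hl
      rw [hgen k l hk0 hk1 (Finset.ne_of_mem_erase hl)
        (Finset.ne_of_mem_erase (Finset.mem_of_mem_erase hl)), mul_zero]
  have h01 : a c0 c1 = 0 := by
    have h1 := hu c0
    rw [hsum, Finset.sum_eq_zero, hd, nf.hu c1 hne.symm, mul_zero, add_zero, add_zero] at h1
    · exact (mul_eq_zero.mp h1).resolve_left hg
    · intro l hl
      rw [(hrow l (Finset.ne_of_mem_erase hl)
        (Finset.ne_of_mem_erase (Finset.mem_of_mem_erase hl))).1, mul_zero]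
  intro l k
  by_cases hl0 : l = c0
  · subst hl0
    by_cases hk0 : k = l
    · subst hk0; exact hd k
    by_cases hk1 : k = c1
    · subst hk1; exact h01
    · exact (hrow k hk0 hk1).1
  by_cases hl1 : l = c1
  · subst hl1
    by_cases hk0 : k = c0
    · subst hk0; rw [ha, h01, neg_zero]
    by_cases hk1 : k = l
    · subst hk1; exact hd k
    · exact (hrow k hk0 hk1).2
  by_cases hk0 : k = c0
  · subst hk0; rw [ha, (hrow l hl0 hl1).1, neg_zero]
  by_cases hk1 : k = c1
  · subst hk1; rw [ha, (hrow l hl0 hl1).2, neg_zero]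
  · exact hgen l k hl0 hl1 hk0 hk1

open Classical in
/-- the first component of the trivial relations -/
noncomputable def yl (D : Sdat arm q Ω t u P Q c0 c1 Fc Gc) (l : J) :
    (∀ s, sy q (Gc s)) →ₗ[L] Q l :=
  if h : l ≠ c0 ∧ l ≠ c1 then
    { toFun := fun C => ⟨(C (arm l) : End L V) (t l), D.syQ _ _ (C (arm l)).2 l rfl h.1 h.2⟩
      map_add' := fun _ _ => Subtype.ext rfl
      map_smul' := fun _ _ => Subtype.ext rfl }
  else 0

omit [Fintype ι] [FiniteDimensional L V] in
theorem yl_apply (D : Sdat arm q Ω t u P Q c0 c1 Fc Gc) {l : J} (h0 : l ≠ c0) (h1 : l ≠ c1)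
    (C : ∀ s, sy q (Gc s)) : (yl D l C : V) = (C (arm l) : End L V) (t l) := by
  rw [yl, dif_pos ⟨h0, h1⟩]
  rfl

/-- the trivial relations -/
noncomputable def Pss (D : Sdat arm q Ω t u P Q c0 c1 Fc Gc) :
    (sy q ∅ × (∀ s, sy q (Gc s))) →ₗ[L] WWs ι q Q where
  toFun := fun z => (fun l => yl D l z.2,
    fun s => ⟨(z.1 : End L V) - (z.2 s : End L V),
      (sy q ∅).sub_mem z.1.2 ⟨(z.2 s).2.1, fun W hW => absurd hW (Finset.notMem_empty W)⟩⟩,
    (z.2 (arm c0) : End L V) (t c0) + (z.2 (arm c1) : End L V) (t c1))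
  map_add' := fun z z' => by
    refine Prod.ext (funext fun l => map_add (yl D l) z.2 z'.2)
      (Prod.ext (funext fun s => Subtype.ext ?_) ?_)
    · show ((z.1 : End L V) + (z'.1 : End L V)) - ((z.2 s : End L V) + (z'.2 s : End L V)) =
        ((z.1 : End L V) - (z.2 s : End L V)) + ((z'.1 : End L V) - (z'.2 s : End L V))
      abel
    · show ((z.2 (arm c0) : End L V) (t c0) + (z'.2 (arm c0) : End L V) (t c0)) +
        ((z.2 (arm c1) : End L V) (t c1) + (z'.2 (arm c1) : End L V) (t c1)) =
        ((z.2 (arm c0) : End L V) (t c0) + (z.2 (arm c1) : End L V) (t c1)) +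
        ((z'.2 (arm c0) : End L V) (t c0) + (z'.2 (arm c1) : End L V) (t c1))
      abel
  map_smul' := fun a z => by
    refine Prod.ext (funext fun l => map_smul (yl D l) a z.2)
      (Prod.ext (funext fun s => Subtype.ext ?_) ?_)
    · show (a • (z.1 : End L V)) - (a • (z.2 s : End L V)) =
        a • ((z.1 : End L V) - (z.2 s : End L V))
      rw [smul_sub]
    · show a • (z.2 (arm c0) : End L V) (t c0) + a • (z.2 (arm c1) : End L V) (t c1) =
        a • ((z.2 (arm c0) : End L V) (t c0) + (z.2 (arm c1) : End L V) (t c1))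
      rw [smul_add]

omit [Fintype ι] [FiniteDimensional L V] [DecidableEq ι] in
/-- the value of the pairing on a variation of one special vector -/
theorem PPs_single [DecidableEq J] (y : WWs ι q Q)
    (m : J) (v : P m) : PPs arm Ω t u P Q ((0 : ι → so q ∅), Pi.single m v) y =
      q (∑ l, Ω l m • wws arm t y l) v + q ((y.2.1 (arm m) : End L V) v) (uu Ω t m) +
        u m * q y.2.2 v := by
  have h1 : ∀ k, dts arm t (((0 : ι → so q ∅), Pi.single m v) : UUs ι q P) k =
      if k = m then (v : V) else 0 := by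
    intro k
    show (0 : V) + ((Pi.single m v : ∀ l, P l) k : V) = _
    rw [zero_add]
    by_cases h : k = m
    · subst h
      rw [Pi.single_eq_same, if_pos rfl]
    · rw [Pi.single_eq_of_ne h, if_neg h, Submodule.coe_zero]
  have h3 : ∀ l, dus arm Ω t (((0 : ι → so q ∅), Pi.single m v) : UUs ι q P) l =
      Ω l m • (v : V) := by
    intro l
    show ∑ k, Ω l k • dts arm t (((0 : ι → so q ∅), Pi.single m v) : UUs ι q P) k - (0 : V) = _
    rw [sub_zero, Finset.sum_eq_single m]
    · rw [h1, if_pos rfl]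
    · intro k _ hk
      rw [h1, if_neg hk, smul_zero]
    · intro h; exact absurd (Finset.mem_univ _) h
  have h4 : ∑ l, u l • dts arm t (((0 : ι → so q ∅), Pi.single m v) : UUs ι q P) l =
      u m • (v : V) := by
    rw [Finset.sum_eq_single m]
    · rw [h1, if_pos rfl]
    · intro k _ hk
      rw [h1, if_neg hk, smul_zero]
    · intro h; exact absurd (Finset.mem_univ _) h
  rw [PPs_apply, h4, map_smul, smul_eq_mul, Finset.sum_add_distrib]
  congr 2
  · rw [map_sum, LinearMap.sum_apply]
    refine Finset.sum_congr rfl fun l _ => ?_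
    rw [h3, map_smul, map_smul, LinearMap.smul_apply]
  · rw [Finset.sum_eq_single m]
    · show q ((y.2.1 (arm m) : End L V) ((Pi.single m v : ∀ l, P l) m : V)) _ = _
      rw [Pi.single_eq_same]
    · intro k _ hk
      show q ((y.2.1 (arm k) : End L V) ((Pi.single m v : ∀ l, P l) k : V)) _ = _
      rw [Pi.single_eq_of_ne hk, Submodule.coe_zero, map_zero, map_zero, LinearMap.zero_apply]
    · intro h; exact absurd (Finset.mem_univ _) h

omit [FiniteDimensional L V] [Fintype ι] in
/-- **The relations of the linearised problem.** -/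
theorem exists_rels (h2 : (2 : L) ≠ 0) (D : Sdat arm q Ω t u P Q c0 c1 Fc Gc) [DecidableEq J]
    {y : WWs ι q Q} (hy0 : ∀ x, PPs arm Ω t u P Q x y = 0)
    (hy : ∀ η : Matrix J J L, SpecEta η c0 c1 → ∑ l, q (wws arm t y l) (∑ k, η l k • t k) +
      q y.2.2 (∑ l, η c0 l • t l) = 0) : y ∈ LinearMap.range (Pss D) := by
  set g := Ω c0 c1 with hg
  set w := wws arm t y with hw
  set Uw := ∑ l, u l • w l with hUw
  set a0 : V := (2 : L)⁻¹ • (y.2.2 + g⁻¹ • Uw) with ha0
  set a1 : V := (2 : L)⁻¹ • (y.2.2 - g⁻¹ • Uw) with ha1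
  have hne := D.nf.ne
  have y0 : (y.1 c0 : V) = 0 := by
    have h1 := (y.1 c0).2
    have h3 : ∀ v ∈ Q c0, v = 0 := by rw [D.Q0]; exact fun v hv => (Submodule.mem_bot L).mp hv
    exact h3 _ h1
  have y1 : (y.1 c1 : V) = 0 := by
    have h1 := (y.1 c1).2
    have h3 : ∀ v ∈ Q c1, v = 0 := by rw [D.Q1]; exact fun v hv => (Submodule.mem_bot L).mp hv
    exact h3 _ h1
  have w0 : w c0 = (y.2.1 (arm c0) : End L V) (t c0) := by
    rw [hw, wws, y0, zero_add]
  have w1 : w c1 = (y.2.1 (arm c1) : End L V) (t c1) := by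
    rw [hw, wws, y1, zero_add]
  have hsum : a0 + a1 = y.2.2 := by
    rw [ha0, ha1, ← smul_add]
    have : y.2.2 + g⁻¹ • Uw + (y.2.2 - g⁻¹ • Uw) = (2 : L) • y.2.2 := by
      rw [two_smul]; abel
    rw [this, smul_smul, inv_mul_cancel₀ h2, one_smul]
  have hdif : g • (a0 - a1) = Uw := by
    rw [ha0, ha1, ← smul_sub]
    have : y.2.2 + g⁻¹ • Uw - (y.2.2 - g⁻¹ • Uw) = (2 : L) • (g⁻¹ • Uw) := by
      rw [two_smul]; abel
    rw [this, smul_smul (2 : L)⁻¹, inv_mul_cancel₀ h2, one_smul, smul_smul,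
      mul_inv_cancel₀ D.ne, one_smul]
  have uc0 : u c0 = - g := by rw [D.nf.hu0, D.nf.skew c1 c0]
  have uc1 : u c1 = g := D.nf.hu c1 hne.symm
  -- the corrected family
  let ρ : J → V := fun l => w l + (if l = c0 then a0 else if l = c1 then a1 else 0)
  have ρ0 : ρ c0 = w c0 + a0 := by
    show w c0 + (if c0 = c0 then a0 else if c0 = c1 then a1 else 0) = _
    rw [if_pos rfl]
  have ρ1 : ρ c1 = w c1 + a1 := by
    show w c1 + (if c1 = c0 then a0 else if c1 = c1 then a1 else 0) = _
    rw [if_neg hne.symm, if_pos rfl]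
  have ρl : ∀ l, l ≠ c0 → l ≠ c1 → ρ l = w l := by
    intro l h0 h1
    show w l + (if l = c0 then a0 else if l = c1 then a1 else 0) = _
    rw [if_neg h0, if_neg h1, add_zero]
  have split : ∀ f : J → V → L, (∀ l x y, f l (x + y) = f l x + f l y) →
      ∑ l, f l (ρ l) = ∑ l, f l (w l) + (f c0 a0 + f c1 a1) := by
    intro f hf
    have hf0 : ∀ l, f l 0 = 0 := by
      intro l
      have := hf l 0 0
      rw [add_zero] at this
      exact left_eq_add.mp this
    have h1 : ∀ l, f l (ρ l) = f l (w l) + ((if l = c0 then f l a0 else 0) +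
        (if l = c1 then f l a1 else 0)) := by
      intro l
      show f l (w l + (if l = c0 then a0 else if l = c1 then a1 else 0)) = _
      rw [hf]
      congr 1
      by_cases h : l = c0
      · subst h
        rw [if_pos rfl, if_pos rfl, if_neg hne, add_zero]
      · rw [if_neg h, if_neg h, zero_add]
        split_ifs
        · rfl
        · exact hf0 l
    rw [Finset.sum_congr rfl fun l _ => h1 l, Finset.sum_add_distrib, Finset.sum_add_distrib,
      Finset.sum_ite_eq' Finset.univ c0, Finset.sum_ite_eq' Finset.univ c1,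
      if_pos (Finset.mem_univ _), if_pos (Finset.mem_univ _)]
  have hρu : ∀ v, q (∑ l, u l • ρ l) v = 0 := by
    intro v
    have h1 := split (fun l x => q (u l • x) v) (fun l x y => by
      simp only [smul_add, map_add, LinearMap.add_apply])
    have e1 : q (∑ l, u l • ρ l) v = ∑ l, q (u l • ρ l) v := by
      rw [map_sum, LinearMap.sum_apply]
    have e2 : ∑ l, q (u l • w l) v = q Uw v := by
      rw [hUw, map_sum, LinearMap.sum_apply]
    rw [e1]
    refine h1.trans ?_
    rw [e2, ← hdif, uc0, uc1]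
    simp only [map_smul, map_sub, LinearMap.smul_apply, LinearMap.sub_apply, smul_eq_mul]
    ring
  -- symmetry
  have hsym : ∀ i j, q (ρ i) (t j) = q (ρ j) (t i) := by
    have key := symm_of_spec (a := Matrix.of fun i j => q (ρ i) (t j) - q (ρ j) (t i)) h2 D.nf
      D.ne (fun l k => by rw [Matrix.of_apply, Matrix.of_apply]; ring) ?_ ?_
    · intro i j
      have := key i j
      rw [Matrix.of_apply] at this
      exact sub_eq_zero.mp this
    · intro η hη
      have h1 : ∀ l k, η l k = - η k l := by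
        intro l k
        have := congrFun (congrFun hη.1 k) l
        rwa [Matrix.transpose_apply, Matrix.neg_apply] at this
      have h3 : ∑ l, ∑ k, η l k * q (ρ l) (t k) = 0 := by
        have h4 := split (fun l x => q x (∑ k, η l k • t k)) (fun l x y => by
          rw [map_add, LinearMap.add_apply])
        have h5 : ∀ l, q (ρ l) (∑ k, η l k • t k) = ∑ k, η l k * q (ρ l) (t k) := by
          intro l
          rw [map_sum]
          exact Finset.sum_congr rfl fun k _ => by rw [map_smul, smul_eq_mul]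
        simp only [h5] at h4
        have h6 : ∑ k, η c1 k • t k = ∑ k, η c0 k • t k :=
          Finset.sum_congr rfl fun k _ => by rw [hη.2 k]
        rw [h4, h6, ← LinearMap.add_apply, ← map_add, hsum]
        exact hy η hη
      have h4 : ∑ l, ∑ k, η l k * q (ρ k) (t l) = 0 := by
        rw [Finset.sum_comm, ← neg_eq_zero, ← h3, ← Finset.sum_neg_distrib]
        refine Finset.sum_congr rfl fun l _ => ?_
        rw [← Finset.sum_neg_distrib]
        refine Finset.sum_congr rfl fun k _ => ?_
        rw [h1 k l]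
        ring
      have h5 : ∑ l, ∑ k, η l k * q (ρ l) (t k) - ∑ l, ∑ k, η l k * q (ρ k) (t l) = 0 := by
        rw [h3, h4, sub_zero]
      rw [← h5, ← Finset.sum_sub_distrib]
      refine Finset.sum_congr rfl fun l _ => ?_
      rw [← Finset.sum_sub_distrib]
      refine Finset.sum_congr rfl fun k _ => ?_
      rw [Matrix.of_apply]
      ring
    · intro l
      have h1 : ∑ k, u k * q (ρ l) (t k) = 0 := by
        have h3 : q (ρ l) (∑ k, u k • t k) = 0 := by rw [D.ut, map_zero]
        rw [map_sum] at h3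
        rw [← h3]
        exact Finset.sum_congr rfl fun k _ => by rw [map_smul, smul_eq_mul]
      have h3 : ∑ k, u k * q (ρ k) (t l) = 0 := by
        have h4 := hρu (t l)
        rw [map_sum, LinearMap.sum_apply] at h4
        rw [← h4]
        exact Finset.sum_congr rfl fun k _ => by
          rw [map_smul, LinearMap.smul_apply, smul_eq_mul]
      have h5 : ∑ k, u k * q (ρ l) (t k) - ∑ k, u k * q (ρ k) (t l) = 0 := by
        rw [h1, h3, sub_zero]
      rw [← h5, ← Finset.sum_sub_distrib]
      refine Finset.sum_congr rfl fun k _ => ?_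
      rw [Matrix.of_apply]
      ring
  obtain ⟨B, hB, hBt⟩ := exists_symB D.hq D.span hsym
  -- the two special conditions
  have hsa : ∀ s, IsSA q (B - (y.2.1 s : End L V)) := by
    intro s u v
    rw [LinearMap.sub_apply, LinearMap.sub_apply, map_sub, map_sub, LinearMap.sub_apply, hB,
      (y.2.1 s).2.1]
  have B0 : (B - (y.2.1 (arm c0) : End L V)) (t c0) = a0 := by
    rw [LinearMap.sub_apply, hBt, ρ0, w0]
    abel
  have B1 : (B - (y.2.1 (arm c1) : End L V)) (t c1) = a1 := by
    rw [LinearMap.sub_apply, hBt, ρ1, w1]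
    abel
  have cond0 : ∀ v ∈ P c0, q a0 v = 0 := by
    intro v hv
    have h1 := hy0 ((0 : ι → so q ∅), Pi.single c0 ⟨v, hv⟩)
    rw [PPs_single] at h1
    have h3 : ∑ l, Ω l c0 • w l = -(Uw + g • w c0) := by
      have h4 := D.nf.uM0 h2 w
      rw [uM_apply] at h4
      rw [hUw, h4, sub_add_cancel, ← Finset.sum_neg_distrib]
      exact Finset.sum_congr rfl fun l _ => by rw [D.nf.skew l c0, neg_smul]
    have h4 : uu Ω t c0 = g • t c0 := by
      have h5 := D.nf.uM0 h2 t
      rw [uM_apply, D.ut] at h5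
      rw [uu, ← sub_eq_zero]
      exact h5.symm
    rw [h3, h4, uc0] at h1
    have h5 : q ((y.2.1 (arm c0) : End L V) v) (t c0) = q (w c0) v := by
      rw [(y.2.1 (arm c0)).2.1, ← w0, D.hq.symm]
    have h6 : 2 * g * q a0 v = 0 := by
      have h7 : q a0 v = (2 : L)⁻¹ * (q y.2.2 v + g⁻¹ * q Uw v) := by
        rw [ha0, map_smul, LinearMap.smul_apply, map_add, LinearMap.add_apply, map_smul,
          LinearMap.smul_apply, smul_eq_mul, smul_eq_mul]
      rw [h7]
      simp only [map_neg, map_add, LinearMap.neg_apply, LinearMap.add_apply, map_smul,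
        LinearMap.smul_apply, smul_eq_mul] at h1
      rw [h5] at h1
      linear_combination (-1 : L) * h1 + (g * q y.2.2 v + g * g⁻¹ * q Uw v) * mul_inv_cancel₀ h2 +
        q Uw v * mul_inv_cancel₀ D.ne
    exact (mul_eq_zero.mp h6).resolve_left (mul_ne_zero h2 D.ne)
  have cond1 : ∀ v ∈ P c1, q a1 v = 0 := by
    intro v hv
    have h1 := hy0 ((0 : ι → so q ∅), Pi.single c1 ⟨v, hv⟩)
    rw [PPs_single] at h1
    have h3 : ∑ l, Ω l c1 • w l = -(Uw - g • w c1) := by
      have h4 := D.nf.uM1 h2 w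
      rw [uM_apply] at h4
      rw [hUw, h4, add_sub_cancel_right, ← Finset.sum_neg_distrib]
      exact Finset.sum_congr rfl fun l _ => by rw [D.nf.skew l c1, neg_smul]
    have h4 : uu Ω t c1 = -(g • t c1) := by
      have h5 := D.nf.uM1 h2 t
      rw [uM_apply, D.ut] at h5
      rw [uu, eq_neg_iff_add_eq_zero]
      exact h5.symm
    rw [h3, h4, uc1] at h1
    have h5 : q ((y.2.1 (arm c1) : End L V) v) (t c1) = q (w c1) v := by
      rw [(y.2.1 (arm c1)).2.1, ← w1, D.hq.symm]
    have h6 : 2 * g * q a1 v = 0 := by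
      have h7 : q a1 v = (2 : L)⁻¹ * (q y.2.2 v - g⁻¹ * q Uw v) := by
        rw [ha1, map_smul, LinearMap.smul_apply, map_sub, LinearMap.sub_apply, map_smul,
          LinearMap.smul_apply, smul_eq_mul, smul_eq_mul]
      rw [h7]
      simp only [map_neg, map_sub, LinearMap.neg_apply, LinearMap.sub_apply, map_smul,
        LinearMap.smul_apply, smul_eq_mul] at h1
      rw [h5] at h1
      linear_combination h1 + (g * q y.2.2 v - g * g⁻¹ * q Uw v) * mul_inv_cancel₀ h2 -
        q Uw v * mul_inv_cancel₀ D.ne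
    exact (mul_eq_zero.mp h6).resolve_left (mul_ne_zero h2 D.ne)
  have hB' : ∀ s, B - (y.2.1 s : End L V) ∈ sy q (Gc s) := by
    intro s
    refine D.syG s _ (hsa s) ?_ ?_ ?_
    · rintro l rfl h0 h1
      rw [LinearMap.sub_apply, hBt, ρl l h0 h1, hw, wws, add_sub_cancel_right]
      exact (y.1 l).2
    · rintro rfl v hv
      rw [B0]
      exact cond0 v hv
    · rintro rfl v hv
      rw [B1]
      exact cond1 v hv
  refine ⟨(⟨B, hB, fun W hW => absurd hW (Finset.notMem_empty W)⟩, fun s => ⟨_, hB' s⟩), ?_⟩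
  refine Prod.ext (funext fun l => Subtype.ext ?_) (Prod.ext (funext fun s => Subtype.ext ?_) ?_)
  · show (yl D l _ : V) = (y.1 l : V)
    by_cases h0 : l = c0
    · subst h0
      have h3 : ∀ v ∈ Q l, v = 0 := by rw [D.Q0]; exact fun v hv => (Submodule.mem_bot L).mp hv
      rw [h3 _ (yl D l _).2, h3 _ (y.1 l).2]
    by_cases h1 : l = c1
    · subst h1
      have h3 : ∀ v ∈ Q l, v = 0 := by rw [D.Q1]; exact fun v hv => (Submodule.mem_bot L).mp hv
      rw [h3 _ (yl D l _).2, h3 _ (y.1 l).2]
    rw [yl_apply D h0 h1]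
    show (B - (y.2.1 (arm l) : End L V)) (t l) = (y.1 l : V)
    rw [LinearMap.sub_apply, hBt, ρl l h0 h1, hw, wws, add_sub_cancel_right]
  · show B - (B - (y.2.1 s : End L V)) = (y.2.1 s : End L V)
    abel
  · show (B - (y.2.1 (arm c0) : End L V)) (t c0) + (B - (y.2.1 (arm c1) : End L V)) (t c1) = y.2.2
    rw [B0, B1, hsum]

/-- the special derivations -/
def SVDer (Ω : Matrix J J L) (c0 c1 : J) : Prop := ∀ η : Matrix J J L, SpecEta η c0 c1 →
  ∃ d : L →+ L, (∀ a b, d (a * b) = d a * b + a * d b) ∧ ∀ i j, d (Ω i j) = η i j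

/-- **The count.** -/
theorem Sdat.finrank_eq_zero (h2 : (2 : L) ≠ 0) (D : Sdat arm q Ω t u P Q c0 c1 Fc Gc)
    (hΩ : SVDer Ω c0 c1) (hPQ : ∀ l, l ≠ c0 → l ≠ c1 → finrank L (P l) ≤ finrank L (Q l))
    (harm : arm c0 ≠ arm c1) (R : ι → ℕ) (hR0 : finrank L (P c0) ≤ R (arm c0))
    (hR1 : finrank L (P c1) ≤ R (arm c1))
    (hR : ∀ s, finrank L (sy q (Gc s)) + R s ≤ finrank L (so q (Fc s)) + finrank L V) :
    finrank L V = 0 := by
  classical
  by_contra hr
  have hr' : 0 < finrank L V := Nat.pos_of_ne_zero hr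
  set F : UUs ι q P →ₗ[L] WWs ι q Q →ₗ[L] L := PPs arm Ω t u P Q with hF
  -- the kernel
  have h1 : finrank L (so q ∅) + ((∑ s, finrank L (so q (Fc s))) + 1) ≤
      finrank L (LinearMap.ker F) := by
    have h3 := LinearMap.finrank_range_of_inj (Ths_injective h2 D hr')
    rw [Module.finrank_prod, Module.finrank_prod, Module.finrank_pi_fintype, Module.finrank_self] at h3
    rw [← h3]
    apply Submodule.finrank_mono
    rintro _ ⟨z, rfl⟩
    rw [LinearMap.mem_ker]
    exact LinearMap.ext fun y => PPs_Ths h2 D z y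
  -- the cokernel
  have h3 : finrank L (LinearMap.ker F.flip) ≤
      finrank L (sy q ∅) + ∑ s, finrank L (sy q (Gc s)) := by
    have h4 := LinearMap.finrank_range_le (Pss D)
    rw [Module.finrank_prod, Module.finrank_pi_fintype] at h4
    refine le_trans (Submodule.finrank_mono ?_) h4
    intro y hy
    have h6 : ∀ x, F x y = 0 := fun x => LinearMap.congr_fun (LinearMap.mem_ker.mp hy) x
    apply exists_rels h2 D h6
    intro η hη
    obtain ⟨d, hd, hdη⟩ := hΩ η hη
    obtain ⟨x, hx⟩ := exists_reals h2 D d hd hdη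
    have h5 := hx y
    rw [← hF, h6 x, zero_add] at h5
    rw [← h5]
    congr 2
    refine Finset.sum_congr rfl fun l _ => ?_
    by_cases hl : l = c0
    · subst hl
      rw [D.nf.hu0, hdη, hη.2]
    · rw [D.nf.hu l hl, hdη]
  -- the ranks
  have h4 : finrank L (LinearMap.range F.flip) ≤ finrank L (LinearMap.range F) := by
    have h5 := LinearMap.finrank_range_dualMap_eq_finrank_range F
    rw [← h5]
    apply Submodule.finrank_mono
    rintro _ ⟨y, rfl⟩
    exact ⟨Module.Dual.eval L _ y, rfl⟩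
  have h5 := LinearMap.finrank_range_add_finrank_ker F
  have h6 := LinearMap.finrank_range_add_finrank_ker F.flip
  rw [Module.finrank_prod, Module.finrank_pi_fintype (R := L) (M := fun _ : ι => so q ∅),
    Finset.sum_const, Finset.card_univ, smul_eq_mul, Module.finrank_pi_fintype] at h5
  rw [Module.finrank_prod, Module.finrank_prod,
    Module.finrank_pi_fintype (R := L) (M := fun _ : ι => sy q ∅),
    Finset.sum_const, Finset.card_univ, smul_eq_mul, Module.finrank_pi_fintype] at h6
  have h7 := finrank_so_add_le D.hq h2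
  have h9 := Finset.sum_le_sum fun s (_ : s ∈ (Finset.univ : Finset ι)) => hR s
  rw [Finset.sum_add_distrib, Finset.sum_add_distrib, Finset.sum_const, Finset.card_univ,
    smul_eq_mul] at h9
  -- the two special vectors
  have h10 : ∑ l, finrank L (P l) ≤ ∑ l, finrank L (Q l) + (R (arm c0) + R (arm c1)) := by
    have e1 : ∀ f : J → ℕ, ∑ l, f l =
        f c1 + (f c0 + ∑ l ∈ (Finset.univ.erase c1).erase c0, f l) := by
      intro f
      rw [← Finset.add_sum_erase _ _ (Finset.mem_univ c1),
        ← Finset.add_sum_erase _ _ (Finset.mem_erase.mpr ⟨D.nf.ne, Finset.mem_univ c0⟩)]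
    rw [e1, e1 fun l => finrank L (Q l)]
    have e2 : ∑ l ∈ (Finset.univ.erase c1).erase c0, finrank L (P l) ≤
        ∑ l ∈ (Finset.univ.erase c1).erase c0, finrank L (Q l) :=
      Finset.sum_le_sum fun l hl => hPQ l (Finset.ne_of_mem_erase hl)
        (Finset.ne_of_mem_erase (Finset.mem_of_mem_erase hl))
    omega
  have h12 : R (arm c0) + R (arm c1) ≤ ∑ s, R s := by
    rw [← Finset.add_sum_erase _ _ (Finset.mem_univ (arm c0)),
      ← Finset.add_sum_erase _ _ (Finset.mem_erase.mpr ⟨harm.symm, Finset.mem_univ (arm c1)⟩)]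
    omega
  have h11 : 0 < Fintype.card ι := Fintype.card_pos_iff.mpr ⟨arm c0⟩
  obtain ⟨M, hM⟩ := Nat.exists_eq_add_of_lt h11
  rw [hM] at h5 h6 h9
  have h13 := Nat.mul_le_mul_left M h7
  generalize finrank L (so q ∅) = dso at *
  generalize finrank L (sy q ∅) = dsy at *
  generalize finrank L V = r at *
  generalize (∑ s, finrank L (so q (Fc s))) = sp at *
  generalize (∑ s, finrank L (sy q (Gc s))) = sg at *
  generalize (∑ s, R s) = sR at *
  generalize (∑ l, finrank L (P l)) = sP at *
  generalize (∑ l, finrank L (Q l)) = sQ at *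
  nlinarith

end main

end Vale.Agent.P182.H338
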