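import Vale.Agent.P182.H338.SN1
import Vale.Agent.P182.H338.SDefs

/-!
# The square-zero vanishing lemma for special configurations
-/

set_option linter.unusedSectionVars false

namespace Vale.Agent.P182.H338

open Module Matrix Vale.Agent.P182.H533 Vale.Agent.P182.H922

section flags

variable {L V J ι α : Type*} [Field L] [AddCommGroup V] [Module L V]
  [Fintype J] [DecidableEq J] [DecidableEq ι] [LinearOrder α]

/-- the columns which are not special -/
abbrev Jn (c0 c1 : J) : Type _ := {l : J // l ≠ c0 ∧ l ≠ c1}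

variable (L) in
/-- the spaces of the ordinary columns -/
noncomputable def Fsn (arm : J → ι) (c : J → α) (c0 c1 : J) (t : J → V) (l : Jn c0 c1) :
    Submodule L V := Fsp L (fun l : Jn c0 c1 => arm l) (fun l => c l) (fun l => t l) l

variable (L) in
/-- the top space of the ordinary columns -/
noncomputable def Asn (arm : J → ι) (c0 c1 : J) (t : J → V) (s : ι) :
    Submodule L V := Asp L (fun l : Jn c0 c1 => arm l) (fun l => t l) s

variable (L) in
/-- the chain of the ordinary columns -/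
noncomputable def Fcn (arm : J → ι) (c : J → α) (c0 c1 : J) (t : J → V) (s : ι) :
    Finset (Submodule L V) :=
  Fch L (fun l : Jn c0 c1 => arm l) (fun l => c l) (fun l => t l) s

open Classical in
/-- the space of the variations of a special vector -/
noncomputable def Rs (q : V →ₗ[L] V →ₗ[L] L) (arm : J → ι) (c0 c1 : J) (t : J → V) (s : ι) :
    Submodule L V :=
  if Asp L arm t s ≤ Asn L arm c0 c1 t s then Asp L arm t s else perp q (Asp L arm t s)

/-- the spaces of the unknowns -/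
noncomputable def Pn (q : V →ₗ[L] V →ₗ[L] L) (arm : J → ι) (c : J → α) (c0 c1 : J) (t : J → V)
    (l : J) : Submodule L V :=
  if h : l ≠ c0 ∧ l ≠ c1 then Fsn L arm c c0 c1 t ⟨l, h⟩ else Rs q arm c0 c1 t (arm l)

variable (L) in
/-- the spaces of the test vectors -/
noncomputable def Qn (arm : J → ι) (c : J → α) (c0 c1 : J) (t : J → V)
    (l : J) : Submodule L V :=
  if h : l ≠ c0 ∧ l ≠ c1 then Fsn L arm c c0 c1 t ⟨l, h⟩ else ⊥

variable (L) in
open Classical in
/-- the full chain -/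
noncomputable def Gcn (arm : J → ι) (c : J → α) (c0 c1 : J) (t : J → V) (s : ι) :
    Finset (Submodule L V) := insert (Asp L arm t s) (Fcn L arm c c0 c1 t s)

variable {arm : J → ι} {c : J → α} {c0 c1 : J} {t : J → V} {q : V →ₗ[L] V →ₗ[L] L}

theorem Pn_ne {l : J} (h0 : l ≠ c0) (h1 : l ≠ c1) :
    Pn q arm c c0 c1 t l = Fsn L arm c c0 c1 t ⟨l, h0, h1⟩ := dif_pos ⟨h0, h1⟩

theorem Pn_c0 : Pn q arm c c0 c1 t c0 = Rs q arm c0 c1 t (arm c0) :=
  dif_neg fun h => h.1 rfl

theorem Pn_c1 : Pn q arm c c0 c1 t c1 = Rs q arm c0 c1 t (arm c1) :=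
  dif_neg fun h => h.2 rfl

theorem Qn_ne {l : J} (h0 : l ≠ c0) (h1 : l ≠ c1) :
    Qn L arm c c0 c1 t l = Fsn L arm c c0 c1 t ⟨l, h0, h1⟩ := dif_pos ⟨h0, h1⟩

theorem Qn_c0 : Qn L arm c c0 c1 t c0 = ⊥ := dif_neg fun h => h.1 rfl

theorem Qn_c1 : Qn L arm c c0 c1 t c1 = ⊥ := dif_neg fun h => h.2 rfl

theorem Asn_le (s : ι) : Asn L arm c0 c1 t s ≤ Asp L arm t s := by
  apply Submodule.span_mono
  rintro _ ⟨j, h1, rfl⟩
  exact ⟨j, h1, rfl⟩

theorem Fcn_le {s : ι} {W : Submodule L V} (hW : W ∈ Fcn L arm c c0 c1 t s) :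
    W ≤ Asn L arm c0 c1 t s := le_Asp hW

theorem Gcn_le {s : ι} {W : Submodule L V} (hW : W ∈ Gcn L arm c c0 c1 t s) :
    W ≤ Asp L arm t s := by
  classical
  rcases Finset.mem_insert.mp hW with rfl | h
  · exact le_rfl
  · exact (Fcn_le h).trans (Asn_le s)

theorem Asp_mem_Gcn (s : ι) : Asp L arm t s ∈ Gcn L arm c c0 c1 t s := by
  classical
  exact Finset.mem_insert_self _ _

theorem Fcn_sub_Gcn {s : ι} {W : Submodule L V} (hW : W ∈ Fcn L arm c c0 c1 t s) :
    W ∈ Gcn L arm c c0 c1 t s := by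
  classical
  exact Finset.mem_insert_of_mem hW

theorem Asn_mem_Fcn (s : ι) : Asn L arm c0 c1 t s ∈ Fcn L arm c c0 c1 t s := Asp_mem _ _ _ _

theorem Fsn_mem_Fcn (l : Jn c0 c1) :
    Fsn L arm c c0 c1 t l ∈ Fcn L arm c c0 c1 t (arm l) := Fsp_mem _ _ _ _

theorem t_mem_Fsn (l : Jn c0 c1) : t l ∈ Fsn L arm c c0 c1 t l :=
  t_mem_Fsp (fun l : Jn c0 c1 => arm l) (fun l => c l) (fun l => t l) l

theorem t_mem_Asp (l : J) : t l ∈ Asp L arm t (arm l) := Submodule.subset_span ⟨l, rfl, rfl⟩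

theorem chain_Gcn (s : ι) : IsChain (· ≤ ·) (Gcn L arm c c0 c1 t s : Set (Submodule L V)) := by
  classical
  rw [Gcn, Finset.coe_insert]
  refine IsChain.insert (chain_Fch _ _ _ _) fun W hW _ => Or.inr ?_
  exact (Fcn_le hW).trans (Asn_le s)

variable (iso : ∀ l k, arm l = arm k → q (t l) (t k) = 0)

include iso in
theorem iso_Asp {s : ι} {v w : V} (hv : v ∈ Asp L arm t s)
    (hw : w ∈ Asp L arm t s) : q v w = 0 := by
  induction hv using Submodule.span_induction with
  | mem v hv =>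
    obtain ⟨k, hk, rfl⟩ := hv
    induction hw using Submodule.span_induction with
    | mem w hw =>
      obtain ⟨j, hj, rfl⟩ := hw
      exact iso k j (hk.trans hj.symm)
    | zero => rw [map_zero]
    | add w w' _ _ h1 h2 => rw [map_add, h1, h2, add_zero]
    | smul x w _ h1 => rw [map_smul, h1, smul_zero]
  | zero => rw [map_zero, LinearMap.zero_apply]
  | add v v' _ _ h1 h2 => rw [map_add, LinearMap.add_apply, h1, h2, add_zero]
  | smul x v _ h1 => rw [map_smul, LinearMap.smul_apply, h1, smul_zero]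

include iso in
theorem Asp_le_Rs (s : ι) : Asp L arm t s ≤ Rs q arm c0 c1 t s := by
  rw [Rs]
  split_ifs
  · exact le_rfl
  · exact fun v hv w hw => iso_Asp iso hv hw

include iso in
theorem iso_Gcn (s : ι) : ∀ W ∈ Gcn L arm c c0 c1 t s, ∀ W' ∈ Gcn L arm c c0 c1 t s,
    ∀ w ∈ W, ∀ w' ∈ W', q w w' = 0 :=
  fun _ hW _ hW' _ hw _ hw' => iso_Asp iso (Gcn_le hW hw) (Gcn_le hW' hw')

/-- an endomorphism which preserves the ordinary vectors preserves the ordinary chain -/
theorem pres_Fcn {s : ι} {X : End L V}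
    (h : ∀ k : Jn c0 c1, arm k = s → X (t k) ∈ Fsn L arm c c0 c1 t k) :
    ∀ W ∈ Fcn L arm c c0 c1 t s, ∀ w ∈ W, X w ∈ W :=
  pres_of (arm := fun l : Jn c0 c1 => arm l) (c := fun l => c l) (t := fun l => t l) h

/-- a special column of the arm, and the ordinary ones -/
theorem spec_cases (harm : arm c0 ≠ arm c1) {m : J} (hm : m = c0 ∨ m = c1) {k : J}
    (hk : arm k = arm m) : k = m ∨ (k ≠ c0 ∧ k ≠ c1) := by
  by_cases h : k = m
  · exact Or.inl h
  · right
    rcases hm with rfl | rfl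
    · exact ⟨h, by rintro rfl; exact harm hk.symm⟩
    · exact ⟨by rintro rfl; exact harm hk, h⟩

include iso in
/-- skew endomorphisms which preserve the ordinary chain -/
theorem so_Rs (hq : IsForm q) (h2 : (2 : L) ≠ 0) (harm : arm c0 ≠ arm c1) {m : J}
    (hm : m = c0 ∨ m = c1) {X : End L V} (hX : X ∈ so q (Fcn L arm c c0 c1 t (arm m))) :
    X (t m) ∈ Rs q arm c0 c1 t (arm m) := by
  rw [Rs]
  split_ifs with h
  · exact Asn_le _ (hX.2 _ (Asn_mem_Fcn _) _ (h (t_mem_Asp m)))
  · intro w hw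
    induction hw using Submodule.span_induction with
    | mem w hw =>
      obtain ⟨k, hk, rfl⟩ := hw
      rw [hX.1, neg_eq_zero]
      rcases spec_cases harm hm hk with rfl | h'
      · have h3 := hX.1 (t k) (t k)
        rw [hq.symm] at h3
        have h4 : 2 * q (t k) (X (t k)) = 0 := by linear_combination h3
        exact (mul_eq_zero.mp h4).resolve_left h2
      · have h3 : X (t k) ∈ Asn L arm c0 c1 t (arm m) :=
          hX.2 _ (Asn_mem_Fcn _) _ (Submodule.subset_span ⟨⟨k, h'⟩, hk, rfl⟩)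
        exact iso_Asp iso (t_mem_Asp m) (Asn_le _ h3)
    | zero => rw [map_zero]
    | add w w' _ _ h1 h2 => rw [map_add, h1, h2, add_zero]
    | smul x w _ h1 => rw [map_smul, h1, smul_zero]

include iso in
theorem Asp_le_perp (s : ι) : Asp L arm t s ≤ perp q (Asp L arm t s) :=
  fun _ hv _ hw => iso_Asp iso hv hw

omit iso in
/-- dropping the top space of a chain -/
theorem so_drop [FiniteDimensional L V] (hq : IsForm q) {F G : Finset (Submodule L V)}
    {A B : Submodule L V} {x : V} (hFG : so q G ≤ so q F) (hA : A ∈ G) (hAp : A ≤ perp q A)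
    (hx : x ∈ A) (hB : ∀ W ∈ F, W ≤ B) (hBA : B ≤ A) (hxB : x ∉ B) :
    finrank L (so q G) + finrank L (perp q A) ≤ finrank L (so q F) + finrank L A := by
  -- a dual vector
  obtain ⟨f, hf, hfm⟩ : ∃ f ∈ perp q B, q f x ≠ 0 := by
    by_contra hcon
    push Not at hcon
    apply hxB
    apply perp_perp_le hq
    intro w hw
    rw [hq.symm]
    exact hcon w hw
  obtain ⟨φ, hφ⟩ : ∃ φ : so q F →ₗ[L] V ⧸ A, ∀ X, φ X = A.mkQ ((X : End L V) x) :=
    ⟨A.mkQ ∘ₗ (LinearMap.applyₗ x) ∘ₗ (so q F).subtype, fun X => rfl⟩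
  have h4 := LinearMap.finrank_range_add_finrank_ker φ
  have h5 : finrank L (so q G) ≤ finrank L (LinearMap.ker φ) := by
    have h7 : ∀ X : so q G, Submodule.inclusion hFG X ∈ LinearMap.ker φ := by
      intro X
      rw [LinearMap.mem_ker, hφ]
      exact (Submodule.Quotient.mk_eq_zero A).mpr (X.2.2 _ hA _ hx)
    have h8 := LinearMap.finrank_le_finrank_of_injective
      (f := (Submodule.inclusion hFG).codRestrict _ h7) (by
        rw [LinearMap.injective_codRestrict_iff]
        exact Submodule.inclusion_injective hFG)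
    exact h8
  have h6 : (perp q A).map A.mkQ ≤ LinearMap.range φ := by
    rintro _ ⟨w, hw, rfl⟩
    obtain ⟨X, hX⟩ : ∃ X : End L V, X = (q f x)⁻¹ • H62.wdg q f w := ⟨_, rfl⟩
    have hXv : ∀ v, X v = (q f x)⁻¹ • (q f v • w - q w v • f) := fun v => by rw [hX]; rfl
    have hkill : ∀ v ∈ B, X v = 0 := by
      intro v hv
      rw [hXv, hf v hv, hw v (hBA hv), zero_smul, zero_smul, sub_zero, smul_zero]
    refine ⟨⟨X, ?_, fun W hW v hv => ?_⟩, ?_⟩
    · intro a b
      have := H62.wdg_skew hq f w a b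
      rw [hX, LinearMap.smul_apply, LinearMap.smul_apply, map_smul, map_smul,
        LinearMap.smul_apply, this, smul_neg]
    · rw [hkill v (hB W hW hv)]
      exact W.zero_mem
    · rw [hφ]
      congr 1
      show X x = w
      rw [hXv, hw _ hx, zero_smul, sub_zero, smul_smul, inv_mul_cancel₀ hfm, one_smul]
  have h7 := Submodule.finrank_mono h6
  have h9 := H887.finrank_map_add A.mkQ (perp q A)
  rw [Submodule.ker_mkQ, inf_eq_right.mpr hAp] at h9
  omega

include iso in
/-- the count, one arm -/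
theorem count_arm [FiniteDimensional L V] (hq : IsForm q) (s : ι) :
    finrank L (sy q (Gcn L arm c c0 c1 t s)) + finrank L (Rs q arm c0 c1 t s) ≤
      finrank L (so q (Fcn L arm c c0 c1 t s)) + finrank L V := by
  have h1 := finrank_sy_add_le hq (chain_Gcn (L := L) (arm := arm) (c := c) (c0 := c0) (c1 := c1)
    (t := t) s) (iso_Gcn iso s) (Asp_mem_Gcn s)
  have h3 : so q (Gcn L arm c c0 c1 t s) ≤ so q (Fcn L arm c c0 c1 t s) :=
    fun X hX => ⟨hX.1, fun W hW => hX.2 W (Fcn_sub_Gcn hW)⟩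
  by_cases h : Asp L arm t s ≤ Asn L arm c0 c1 t s
  · rw [Rs, if_pos h]
    have := Submodule.finrank_mono h3
    omega
  rw [Rs, if_neg h]
  -- the special column
  obtain ⟨m, hms, hmA⟩ : ∃ m, arm m = s ∧ t m ∉ Asn L arm c0 c1 t s := by
    by_contra hcon
    push Not at hcon
    apply h
    rw [Asp, Submodule.span_le]
    rintro _ ⟨k, hk, rfl⟩
    exact hcon k hk
  have hm : t m ∈ Asp L arm t s := by
    rw [← hms]
    exact t_mem_Asp m
  have h4 := so_drop hq h3 (Asp_mem_Gcn s) (Asp_le_perp iso s) hm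
    (fun W hW => Fcn_le hW) (Asn_le s) hmA
  omega

/-- **the data of the count** -/
theorem sdat [FiniteDimensional L V] {Ω : Matrix J J L} {u : J → L} (hq : IsForm q)
    (h2 : (2 : L) ≠ 0)
    (hspan : Submodule.span L (Set.range t) = ⊤) (nf : NF Ω c0 c1 u) (hne : Ω c0 c1 ≠ 0)
    (harm : arm c0 ≠ arm c1) (ut : ∑ l, u l • t l = 0)
    (iso : ∀ l k, arm l = arm k → q (t l) (t k) = 0)
    (ort : ∀ l k, l ≠ c0 → l ≠ c1 → k ≠ c0 → k ≠ c1 → arm l = arm k → c k ≤ c l →
      q (uu Ω t l) (t k) = 0)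
    (res : ∀ s v, ∑ l with arm l = s, (q (uu Ω t l) v • t l + q (t l) v • uu Ω t l) = 0) :
    Sdat arm q Ω t u (Pn q arm c c0 c1 t) (Qn L arm c c0 c1 t) c0 c1
      (Fcn L arm c c0 c1 t) (Gcn L arm c c0 c1 t) := by
  have hcase : ∀ l : J, (l = c0 ∨ l = c1) ∨ (l ≠ c0 ∧ l ≠ c1) := fun l => by
    by_cases h0 : l = c0
    · exact Or.inl (Or.inl h0)
    · by_cases h1 : l = c1
      · exact Or.inl (Or.inr h1)
      · exact Or.inr ⟨h0, h1⟩
  have hP : ∀ l, (l = c0 ∨ l = c1) → Pn q arm c c0 c1 t l = Rs q arm c0 c1 t (arm l) := by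
    rintro l (rfl | rfl)
    · exact Pn_c0
    · exact Pn_c1
  have hQ : ∀ l, (l = c0 ∨ l = c1) → Qn L arm c c0 c1 t l = ⊥ := by
    rintro l (rfl | rfl)
    · exact Qn_c0
    · exact Qn_c1
  refine ⟨hq, hspan, nf, hne, ut, res, Qn_c0, Qn_c1, ?_, ?_, ?_, ?_, chain_Gcn, iso_Gcn iso,
    ?_, ?_, ?_, ?_⟩
  · -- Qu
    intro l v hv
    rcases hcase l with h | h
    · rw [hQ l h, Submodule.mem_bot] at hv
      rw [hv, map_zero]
    · rw [Qn_ne h.1 h.2] at hv
      induction hv using Submodule.span_induction with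
      | mem v hv =>
        obtain ⟨k, ⟨hk, hc⟩, rfl⟩ := hv
        exact ort l k h.1 h.2 k.2.1 k.2.2 hk.symm hc
      | zero => rw [map_zero]
      | add w w' _ _ h1 h2 => rw [map_add, h1, h2, add_zero]
      | smul x w _ h1 => rw [map_smul, h1, smul_zero]
  · -- tP
    intro l
    rcases hcase l with h | h
    · rw [hP l h]
      exact Asp_le_Rs iso _ (t_mem_Asp l)
    · rw [Pn_ne h.1 h.2]
      exact t_mem_Fsn ⟨l, h⟩
  · -- soP
    rintro s X hX l rfl
    rcases hcase l with h | h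
    · rw [hP l h]
      exact so_Rs iso hq h2 harm h hX
    · rw [Pn_ne h.1 h.2]
      exact hX.2 _ (Fsn_mem_Fcn ⟨l, h⟩) _ (t_mem_Fsn ⟨l, h⟩)
  · -- soQ
    rintro s X hX l rfl v hv
    rcases hcase l with h | h
    · rw [hQ l h, Submodule.mem_bot] at hv ⊢
      rw [hv, map_zero]
    · rw [Qn_ne h.1 h.2] at hv ⊢
      exact hX.2 _ (Fsn_mem_Fcn ⟨l, h⟩) _ hv
  · -- cnP
    rintro s n hn l rfl
    rcases hcase l with h | h
    · rw [hP l h]
      exact Asp_le_Rs iso _ (hn _ (Asp_mem_Gcn _) _ (t_mem_Asp l))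
    · rw [Pn_ne h.1 h.2]
      exact hn _ (Fcn_sub_Gcn (Fsn_mem_Fcn ⟨l, h⟩)) _ (t_mem_Fsn ⟨l, h⟩)
  · -- cnQ
    rintro s n hn l rfl v hv
    rcases hcase l with h | h
    · rw [hQ l h, Submodule.mem_bot] at hv ⊢
      rw [hv, map_zero]
    · rw [Qn_ne h.1 h.2] at hv ⊢
      exact hn _ (Fcn_sub_Gcn (Fsn_mem_Fcn ⟨l, h⟩)) _ hv
  · -- syG
    intro s X hX hXl hX0 hX1
    have hsp : ∀ m, (m = c0 ∨ m = c1) → arm m = s →
        ∀ v ∈ Rs q arm c0 c1 t s, q (X (t m)) v = 0 := by
      rintro m (rfl | rfl) hms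
      · intro v hv
        exact hX0 hms v (by rw [Pn_c0, hms]; exact hv)
      · intro v hv
        exact hX1 hms v (by rw [Pn_c1, hms]; exact hv)
    have hF : ∀ W ∈ Fcn L arm c c0 c1 t s, ∀ w ∈ W, X w ∈ W := by
      refine pres_Fcn ?_
      intro k hk
      have := hXl k hk k.2.1 k.2.2
      rwa [Qn_ne k.2.1 k.2.2] at this
    refine ⟨hX, fun W hW => ?_⟩
    classical
    rcases Finset.mem_insert.mp hW with rfl | hW
    · intro w hw
      induction hw using Submodule.span_induction with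
      | mem w hw =>
        obtain ⟨k, hk, rfl⟩ := hw
        rcases hcase k with h | h
        · by_cases hle : Asp L arm t s ≤ Asn L arm c0 c1 t s
          · refine Asn_le _ (hF _ (Asn_mem_Fcn s) _ (hle ?_))
            have := t_mem_Asp (L := L) (arm := arm) (t := t) k
            rwa [hk] at this
          · apply perp_perp_le hq
            intro v hv
            apply hsp k h hk
            rw [Rs, if_neg hle]
            exact hv
        · exact Asn_le _ (hF _ (Asn_mem_Fcn s) _ (Submodule.subset_span ⟨⟨k, h⟩, hk, rfl⟩))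
      | zero => rw [map_zero]; exact Submodule.zero_mem _
      | add w w' _ _ h1 h2 => rw [map_add]; exact Submodule.add_mem _ h1 h2
      | smul x w _ h1 => rw [map_smul]; exact Submodule.smul_mem _ _ h1
    · exact hF W hW
  · -- syQ
    rintro s X hX l rfl h0 h1
    rw [Qn_ne h0 h1]
    exact hX.2 _ (Fcn_sub_Gcn (Fsn_mem_Fcn ⟨l, h0, h1⟩)) _ (t_mem_Fsn ⟨l, h0, h1⟩)

end flags

section final

variable {L J ι α : Type*} [Field L] [Fintype J] [DecidableEq J] [Fintype ι] [DecidableEq ι]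
  [LinearOrder α]

/-- **The square-zero vanishing lemma for special matrices.** -/
theorem n1sq_s (h2 : (2 : L) ≠ 0) (arm : J → ι) (c : J → α) {Ω : Matrix J J L} (hΩ : Ωᵀ = -Ω)
    {c0 c1 : J} {u : J → L} (nf : NF Ω c0 c1 u) (hne : Ω c0 c1 ≠ 0) (harm : arm c0 ≠ arm c1)
    (hV : SVDer Ω c0 c1) {C : Matrix J J L} (hC : Cᵀ = C) (hu : C *ᵥ u = 0)
    (h0 : ∀ l k, arm l = arm k → C l k = 0)
    (h1 : ∀ l k, l ≠ c0 → l ≠ c1 → k ≠ c0 → k ≠ c1 → arm l = arm k → c l ≤ c k →
      (C * Ω) l k = 0)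
    (hG : ∀ s, C * Gm arm Ω s * C = 0) : C = 0 := by
  classical
  have hsymm : ∀ x y : J → L, x ⬝ᵥ (C *ᵥ y) = (C *ᵥ x) ⬝ᵥ y := by
    intro x y
    rw [dotProduct_mulVec, ← Matrix.mulVec_transpose, hC]
  set K : Submodule L (J → L) := LinearMap.ker C.mulVecLin with hK
  have hKm : ∀ x, x ∈ K ↔ C *ᵥ x = 0 := fun x => by rw [hK, LinearMap.mem_ker, mulVecLin_apply]
  obtain ⟨W, hW⟩ := exists_isCompl K
  let T : (J → L) →ₗ[L] W := W.projectionOnto K hW.symm
  have hTK : ∀ x ∈ K, T x = 0 := fun x hx =>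
    (Submodule.projectionOnto_apply_eq_zero_iff hW.symm).mpr hx
  have hTW : ∀ w : W, T w = w := fun w => Submodule.projectionOnto_apply_left hW.symm w
  have hT : ∀ x, C *ᵥ (T x : J → L) = C *ᵥ x := by
    intro x
    have h3 : x - T x ∈ K := by
      rw [← Submodule.projectionOnto_apply_eq_zero_iff hW.symm]
      show T (x - T x) = 0
      rw [map_sub, hTW, sub_self]
    rw [hKm, Matrix.mulVec_sub, sub_eq_zero] at h3
    exact h3.symm
  let q : W →ₗ[L] W →ₗ[L] L := (Matrix.toLinearMap₂' L C).domRestrict₁₂ W W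
  have hq : ∀ u v : W, q u v = (u : J → L) ⬝ᵥ (C *ᵥ (v : J → L)) := fun u v =>
    Matrix.toLinearMap₂'_apply' C _ _
  have hq1 : ∀ u : W, ∀ y, q u (T y) = (u : J → L) ⬝ᵥ (C *ᵥ y) := fun u y => by rw [hq, hT]
  have hq2 : ∀ x, ∀ v : W, q (T x) v = x ⬝ᵥ (C *ᵥ (v : J → L)) := fun x v => by
    rw [hq, hsymm, hT, hsymm]
  have hq12 : ∀ x y, q (T x) (T y) = x ⬝ᵥ (C *ᵥ y) := fun x y => by rw [hq2, hT]
  have hform : IsForm q := by
    refine ⟨fun u v => by rw [hq, hq, hsymm, dotProduct_comm], fun u hu => ?_⟩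
    have h3 : (u : J → L) ∈ K := by
      rw [hKm]
      funext i
      have h4 := hu (T (Pi.single i 1))
      rw [hq1, hsymm] at h4
      simpa using h4
    exact (Submodule.disjoint_def.mp hW.disjoint) _ h3 u.2 |> fun h => Subtype.ext h
  let t : J → W := fun l => T (Pi.single l 1)
  have hTsum : ∀ x : J → L, T x = ∑ k, x k • t k := by
    intro x
    conv_lhs => rw [pi_eq_sum_univ' x]
    rw [map_sum]
    refine Finset.sum_congr rfl fun k _ => ?_
    rw [map_smul]
  have hu' : ∀ l, uu Ω t l = T (Ω l) := fun l => (hTsum _).symm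
  have hspan : Submodule.span L (Set.range t) = ⊤ := by
    rw [eq_top_iff]
    intro v _
    rw [← hTW v, hTsum]
    exact Submodule.sum_mem _ fun k _ => Submodule.smul_mem _ _ (Submodule.subset_span ⟨k, rfl⟩)
  have hiso : ∀ l k, arm l = arm k → q (t l) (t k) = 0 := by
    intro l k hlk
    show q (T _) (T _) = 0
    rw [hq12]
    simpa using h0 l k hlk
  have hort : ∀ l k, l ≠ c0 → l ≠ c1 → k ≠ c0 → k ≠ c1 → arm l = arm k → c k ≤ c l →
      q (uu Ω t l) (t k) = 0 := by
    intro l k hl0 hl1 hk0 hk1 hlk hc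
    rw [hu']
    show q (T _) (T _) = 0
    rw [hq12, Matrix.mulVec_single_one]
    have h3 : Ω l ⬝ᵥ C.col k = (Ω * C) l k := rfl
    have h4 : Ω * C = -(C * Ω)ᵀ := by
      rw [Matrix.transpose_mul, hC, hΩ, Matrix.neg_mul, neg_neg]
    rw [h3, h4, Matrix.neg_apply, Matrix.transpose_apply, h1 k l hk0 hk1 hl0 hl1 hlk.symm hc,
      neg_zero]
  have hres : ∀ s v, ∑ l with arm l = s, (q (uu Ω t l) v • t l + q (t l) v • uu Ω t l) = 0 := by
    intro s v
    have h3 : T (Gm arm Ω s *ᵥ (C *ᵥ (v : J → L))) = 0 := by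
      apply hTK
      rw [hKm, Matrix.mulVec_mulVec, Matrix.mulVec_mulVec, hG, Matrix.zero_mulVec]
    rw [← h3]
    set z := C *ᵥ (v : J → L) with hz
    have h4 : ∀ l, q (uu Ω t l) v • t l + q (t l) v • uu Ω t l =
        T ((Ω l ⬝ᵥ z) • Pi.single l 1 + z l • Ω l) := by
      intro l
      rw [map_add, map_smul, map_smul, hu', hq2, ← hz]
      have h5 : q (t l) v = z l := by
        show q (T _) v = _
        rw [hq2, ← hz, single_one_dotProduct]
      rw [h5]
    rw [Finset.sum_congr rfl fun l _ => h4 l, ← map_sum]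
    congr 1
    funext k
    have h5 : (Gm arm Ω s *ᵥ z) k = ∑ j, ((if arm k = s then Ω k j * z j else 0) -
        (if arm j = s then Ω k j * z j else 0)) := by
      show ∑ j, Gm arm Ω s k j * z j = _
      refine Finset.sum_congr rfl fun j _ => ?_
      rw [Gm_apply]
      split_ifs <;> ring
    rw [h5, Finset.sum_sub_distrib, Finset.sum_apply]
    simp only [Pi.add_apply, Pi.smul_apply, smul_eq_mul, Pi.single_apply]
    rw [Finset.sum_add_distrib, Finset.sum_filter, Finset.sum_filter, sub_eq_add_neg,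
      ← Finset.sum_neg_distrib]
    congr 1
    · rw [Finset.sum_eq_single k]
      · by_cases hk : arm k = s
        · simp only [hk, if_true, mul_one]; rfl
        · simp only [hk, if_false]; rw [Finset.sum_const_zero]
      · intro j _ hj
        rw [if_neg (Ne.symm hj), mul_zero, ite_self]
      · intro h; exact absurd (Finset.mem_univ _) h
    · refine Finset.sum_congr rfl fun j _ => ?_
      by_cases hj : arm j = s
      · rw [if_pos hj, if_pos hj]
        have : Ω j k = - Ω k j := by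
          have := congrFun (congrFun hΩ k) j
          simpa using this
        rw [this]; ring
      · rw [if_neg hj, if_neg hj, neg_zero]
  have hut : ∑ l, u l • t l = 0 := by
    rw [← hTsum]
    exact hTK u ((hKm u).mpr hu)
  have D := sdat (c := c) (arm := arm) hform h2 hspan nf hne harm hut hiso hort hres
  have h3 : finrank L W = 0 := by
    refine D.finrank_eq_zero h2 hV (fun l hl0 hl1 => ?_) harm
      (fun s => finrank L (Rs q arm c0 c1 t s)) ?_ ?_ (count_arm hiso hform)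
    · rw [Pn_ne hl0 hl1, Qn_ne hl0 hl1]
    · rw [Pn_c0]
    · rw [Pn_c1]
  have h4 : W = ⊥ := Submodule.finrank_eq_zero.mp h3
  have h5 : K = ⊤ := by
    have := hW.sup_eq_top
    rwa [h4, sup_bot_eq] at this
  ext i j
  have h6 : (Pi.single j 1 : J → L) ∈ K := by rw [h5]; trivial
  rw [hKm] at h6
  have := congrFun h6 i
  simpa using this

end final

end Vale.Agent.P182.H338
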