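import Vale.Agent.P182.H588.SProd2
import Vale.Agent.P182.H532.SHyp
import Vale.Agent.P182.H258.Prod4
import Vale.Agent.P182.H338.SAsm

/-!
# T-SPIN: the fields of the special input (H), but the last one
-/

namespace Vale.Agent.P182.H588.SP

open Module Matrix TensorProduct Vale.Agent.P182.H533 Vale.Agent.P182.B1 Vale.Agent.P182.H62
open Vale.Agent.P182.H96 (ofCfg toCfg pp pp_eq om Rd)
open Vale.Agent.P182.H338 (SpinC SpinC1 SVersal uz uzM ExtZeroS UStrictS IHSs thetaS)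
open Vale.Agent.P182.H258 (SkC kerV SkF skc_of_skf skf_of_eps epsC epsC_apply epsC_indep
  exists_lift exists_ct)
open Vale.Agent.P182.H388.S (thS kapS)

universe u w

section conv

variable {L : Type u} {V : Type u} {J : Type w} [Field L] [AddCommGroup V] [Module L V]
  {𝒟 : Cfg L V J} {c0 c1 : J} [Fintype J] [DecidableEq J] [FiniteDimensional L V]

omit [FiniteDimensional L V] in
/-- the coordinates of the elements of the special kernel of the subquotient -/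
theorem mem_Ks_sq_lift (g : 𝒟.Good) (h2 : (2 : L) ≠ 0) (hs : SpinC1 𝒟 c0 c1)
    {S : Submodule L V} {t : J → SQ 𝒟.q S}
    (ht : t ∈ H338.Ks (sq 𝒟 g S) c0 c1) : ∃ u : J → V, ∃ hu : ∀ l, u l ∈ perp 𝒟.q S,
      (∀ l, t l = SQmk S ⟨u l, hu l⟩) ∧ UM (ofCfg 𝒟) c0 c1 u ∈ S ∧
        u ∈ Esh (ofCfg 𝒟) c0 c1 (pp (ofCfg 𝒟).q S) ⊓
          (ofCfg 𝒟).perp (Esh (ofCfg 𝒟) c0 c1 (pp (ofCfg 𝒟).q S)) := by
  classical
  have g' : (ofCfg 𝒟).Good := H96.good_ofCfg g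
  have hs' : Spc (ofCfg 𝒟) c0 c1 := spc_ofCfg g hs
  have h1 : ∀ l, ∃ v : ↥(perp 𝒟.q S), (v : V) ∈ 𝒟.C l ∧ SQmk S v = t l := fun l =>
    (mem_SQim S).mp (ht.1.1 l)
  choose v hv1 hv2 using h1
  have hE : (fun l => (v l : V)) ∈ (ofCfg 𝒟).E (pp (ofCfg 𝒟).q S) := by
    refine H96.Cf.mem_E.mpr fun l => ⟨hv1 l, ?_⟩
    show (v l : V) ∈ pp 𝒟.q S
    rw [pp_eq g.form]
    exact (v l).2
  have hU : UM (ofCfg 𝒟) c0 c1 (fun l => (v l : V)) ∈ S := by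
    have e1 := (H338.mem_Ks.mp ht).2
    have e2 : ∑ l, uz (sq 𝒟 g S) c0 c1 l • t l = SQmk S (∑ l, uz 𝒟 c0 c1 l • v l) := by
      rw [map_sum]
      refine Finset.sum_congr rfl fun l _ => ?_
      rw [map_smul, hv2]
      rfl
    rw [e2, SQmk_eq_zero, Submodule.coe_sum] at e1
    exact e1
  refine ⟨fun l => v l, fun l => (v l).2, fun l => (hv2 l).symm, hU, E_le_Esh _ hE,
    H96.Cf.mem_perp.mpr ⟨hv1, fun w hw => ?_⟩⟩
  -- the individual pairings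
  have hpair : ∀ l, w l ∈ perp 𝒟.q S → 𝒟.q (𝒟.om (fun l => (v l : V)) l) (w l) = 0 := by
    intro l hw2'
    have hom : 𝒟.om (fun l => (v l : V)) l ∈ perp 𝒟.q S :=
      Submodule.sum_mem _ fun k _ => Submodule.smul_mem _ _ (v k).2
    have e1 : (sq 𝒟 g S).om t l = SQmk S ⟨𝒟.om (fun l => (v l : V)) l, hom⟩ := by
      have e3 : (⟨𝒟.om (fun l => (v l : V)) l, hom⟩ : ↥(perp 𝒟.q S)) =
          ∑ k, 𝒟.Ω l k • v k := by
        apply Subtype.ext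
        rw [Submodule.coe_sum]
        rfl
      rw [e3, map_sum, Cfg.om]
      refine Finset.sum_congr rfl fun k _ => ?_
      rw [map_smul, hv2]
      rfl
    have e2 := ht.1.2 l
    rw [e1] at e2
    exact e2 (SQmk S ⟨w l, hw2'⟩) (SQmk_mem_SQim S (hw.1 l))
  have hform := g.form
  rw [H96.Cf.M_apply, ← Finset.add_sum_erase _ _ (Finset.mem_univ c0),
    ← Finset.add_sum_erase _ _ (Finset.mem_erase.mpr ⟨hs'.ne.symm, Finset.mem_univ c1⟩),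
    Finset.sum_eq_zero, add_zero, om_c0 hs' g' h2, om_c1 hs' g' h2, map_add, map_sub]
  · have e1 : (ofCfg 𝒟).q (w c0) (v c0 : V) = 0 := by
      rw [g'.form.symm]
      exact g'.iso c0 (hw.1 c0) _ (hv1 c0)
    have e2 : (ofCfg 𝒟).q (w c1) (v c1 : V) = 0 := by
      rw [g'.form.symm]
      exact g'.iso c1 (hw.1 c1) _ (hv1 c1)
    have e3 := hw.2.2 _ hU
    rw [g'.form.symm, map_add, LinearMap.add_apply] at e3
    rw [e1, e2, add_zero, sub_zero]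
    exact e3
  · intro l hl
    have h3 := Finset.ne_of_mem_erase hl
    have h4 := Finset.ne_of_mem_erase (Finset.mem_of_mem_erase hl)
    rw [g'.form.symm]
    refine hpair l ?_
    rw [← pp_eq g.form]
    exact hw.2.1 l h4 h3

omit [FiniteDimensional L V] in
/-- elements of the special kernel in `S^⊥` give elements of the special kernel of the
subquotient -/
theorem mem_Ks_sq (g : 𝒟.Good) {S : Submodule L V} [FiniteDimensional L V] (hS : 𝒟.Iso S) {y : J → V}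
    (hy : y ∈ H338.Ks 𝒟 c0 c1)
    (hyp : ∀ l, y l ∈ perp 𝒟.q S) :
    (fun l => SQmk S ⟨y l, hyp l⟩) ∈ H338.Ks (sq 𝒟 g S) c0 c1 := by
  refine ⟨H258.mem_K_sq g hS hy.1 hyp, ?_⟩
  have e2 : ∑ l, uz (sq 𝒟 g S) c0 c1 l • SQmk S ⟨y l, hyp l⟩ =
      SQmk S (∑ l, uz 𝒟 c0 c1 l • ⟨y l, hyp l⟩) := by
    rw [map_sum]
    refine Finset.sum_congr rfl fun l _ => ?_
    rw [map_smul]
    rfl
  show ∑ l, uz (sq 𝒟 g S) c0 c1 l • SQmk S ⟨y l, hyp l⟩ = 0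
  rw [e2, SQmk_eq_zero, Submodule.coe_sum]
  have e3 : ∑ l, uz 𝒟 c0 c1 l • y l = 0 := (H338.mem_Ks.mp hy).2
  have e4 : ∑ i, ((uz 𝒟 c0 c1 i • (⟨y i, hyp i⟩ : ↥(perp 𝒟.q S)) : ↥(perp 𝒟.q S)) : V) =
      ∑ l, uz 𝒟 c0 c1 l • y l := rfl
  rw [e4, e3]
  exact S.zero_mem

/-- `Ext(S, M) = 0`, if all constant forms come from movements -/
theorem ext_zero_s (g : 𝒟.Good) (h2 : (2 : L) ≠ 0) (hs : SpinC1 𝒟 c0 c1)
    (hV : SVersal 𝒟 c0 c1) {S : Submodule L V}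
    (hS : 𝒟.Iso S)
    (hC : ∀ d ∈ SkF 𝒟 S, ∃ b : Fin 3 → End L V, (ofCfg 𝒟).Eps S b ∧
      ∀ u v : ↥S, d u v = 𝒟.q (b 0 u) v)
    (Y : Fin 3 → (↥S →ₗ[L] SQ 𝒟.q S)) :
    ∃ (a : ↥S →ₗ[L] SQ 𝒟.q S) (b : Fin 3 → (↥S →ₗ[L] SQ 𝒟.q S)), (∀ s, Y s = a + b s) ∧
      (∀ s i (v : ↥S), (v : V) ∈ 𝒟.F s i → b s v ∈ (sq 𝒟 g S).F s i) ∧
        ∀ s i (v : ↥S), (v : V) ∈ perp 𝒟.q (𝒟.F s i) →
          b s v ∈ perp (sq 𝒟 g S).q ((sq 𝒟 g S).F s i) := by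
  exact H258.ext_zero (𝒟 := H338.st 𝒟 c1) (H338.st_good g c1) h2 (hV.st hs.c_ne) hS
    (fun d hd => by
      obtain ⟨b, hb, hb'⟩ := hC d hd
      exact ⟨b, ⟨hb.sk, hb.presF, hb.comp⟩, hb'⟩) Y

end conv

section main

variable {J : Type w} [Fintype J] [DecidableEq J]
  {L : Type u} [Field L] [CharZero L] {V : Type u} [AddCommGroup V] [Module L V]
  [FiniteDimensional L V] {𝒟 : Cfg L V J} {c0 c1 : J}

omit [CharZero L] [FiniteDimensional L V] [DecidableEq J] in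
theorem B2S.iso {g : 𝒟.Good} {x y : J → V} {S : Submodule L V} (b : B2S 𝒟 g c0 c1 x y S) :
    𝒟.Iso S := by
  have := b.dat.iso
  rw [Cfg.Iso, ← pp_eq g.form]
  exact this

omit [CharZero L] [DecidableEq J] in
theorem thS_ofCfg [DecidableEq J] (g : 𝒟.Good) (S : Submodule L V) :
    thS (ofCfg 𝒟) c0 c1 S = thetaS 𝒟 c0 c1 S := by
  rw [thS, thetaS, H96.θ_ofCfg g]
  rfl

/-- **all fields of (H) but the last one** -/
theorem HypS.pre (h : HypS 𝒟 c0 c1) {x y : J → V} {S₀ : Submodule L V}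
    (b : B2S 𝒟 h.good c0 c1 x y S₀) :
    ∃ (S : Submodule L V) (x' : J → ↥S) (hy : ∀ l, y l ∈ perp 𝒟.q S), S ≤ S₀ ∧
      HPreS 𝒟 h.good c0 c1 S x' fun l => SQmk S ⟨y l, hy l⟩ := by
  have g' := h.good'
  have hs' := h.spc
  have hV' := h.versal'
  have h2 := h.two
  have hxR : ∀ l, x l ∈ Submodule.span L (Set.range x) := fun l =>
    Submodule.subset_span ⟨l, rfl⟩
  have D₀ : DatS (ofCfg 𝒟) c0 c1 (Submodule.span L (Set.range x)) S₀ := b.dat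
  have hKR : (ofCfg 𝒟).K ≤ Esh (ofCfg 𝒟) c0 c1
      (pp (ofCfg 𝒟).q (Submodule.span L (Set.range x))) :=
    K_le_Esh hs' g' h2 ((h.K_perp b.xK b.xx).trans (E_le_Esh _))
  have hrad₀ := rad_le_s (𝒟 := 𝒟) (S := S₀) (m := 1) h.good h2 h.spin b.iso b.dimK.le
  obtain ⟨S, hSS₀, D, hθ, hmin⟩ := exists_min_s hs' g' h2 D₀ hKR
  have hrad := rad_small_s hs' g' h2 D₀ D hSS₀ hθ hKR hrad₀
  -- the kernel is contained in `Esh (S^⊥)`
  have hKS : (ofCfg 𝒟).K ≤ Esh (ofCfg 𝒟) c0 c1 (pp (ofCfg 𝒟).q S) := fun t ht =>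
    D.ext ⟨hKR ht, H96.Cf.K_le_perp _ (H96.Cf.E_le_top _) ht⟩
  have hxS : ∀ l, x l ∈ S := fun l => D.le (hxR l)
  have hxK : x ∈ Ks (ofCfg 𝒟) c0 c1 := by rw [Ks_ofCfg h.good]; exact b.xK
  have hyK : y ∈ Ks (ofCfg 𝒟) c0 c1 := by rw [Ks_ofCfg h.good]; exact b.yK
  have hynS : ¬ ∀ l, y l ∈ S := fun hall => b.yn fun l => hSS₀ (hall l)
  have hyS : y ∉ (ofCfg 𝒟).E S := fun hy => hynS fun l => (H96.Cf.mem_E.mp hy l).2
  have hradeq := rad_eq_s hs' g' h2 D.iso hKS hyK hyS hrad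
  have hS : 𝒟.Iso S := by
    have := D.iso
    rw [Cfg.Iso, ← pp_eq h.good.form]
    exact this
  have hθS : thetaS 𝒟 c0 c1 S ≤ -1 := by
    rw [← thS_ofCfg h.good, hθ, thS_ofCfg h.good]
    refine H338.uStrictS_self h.strict b.iso fun h0 => b.x0 ?_
    funext l
    have h1 := b.dat.le (hxR l)
    rw [h0, Submodule.mem_bot] at h1
    exact h1
  have hyx : ∀ c : L, y ≠ c • x := by
    rintro c rfl
    exact hynS fun l => S.smul_mem c (hxS l)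
  have hyp : ∀ l, y l ∈ perp 𝒟.q S := fun l => perp_anti hSS₀ (b.yS l)
  have hx' := H96.Cf.mem_K.mp (Ks_le hxK)
  have hxu : ∑ l, uz 𝒟 c0 c1 l • x l = 0 := (H338.mem_Ks.mp b.xK).2
  -- `ε x` up to `S^⊥`
  have heps : ∀ z ∈ (ofCfg 𝒟).perp ((ofCfg 𝒟).E S), UM (ofCfg 𝒟) c0 c1 z ∈ pp (ofCfg 𝒟).q S →
      ∃ e : Fin 3 → End L V, (ofCfg 𝒟).Eps S e ∧
      epsC (ofCfg 𝒟) S (e 0) ∈ SkF 𝒟 S ∧
        ∀ l (s : ↥S), 𝒟.q (z l) s = epsC (ofCfg 𝒟) S (e 0) ⟨x l, hxS l⟩ s := by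
    intro z hz hU
    obtain ⟨e, he, hze⟩ := exists_eps_s hs' g' h2 hV' h.n1s hxK D hKS hradeq hz hU
    refine ⟨e, he, skf_of_eps h.good hS he 0, fun l s => ?_⟩
    rw [epsC_indep D.iso he g' 0 (𝒟.arm l)]
    have h1 : 𝒟.q (s : V) (z l - e (𝒟.arm l) (x l)) = 0 := hze l s s.2
    rw [h.good.form.symm, map_sub, LinearMap.sub_apply, sub_eq_zero] at h1
    exact h1
  have hinj : ∀ d ∈ SkF 𝒟 S, (∀ l k, d ⟨x l, hxS l⟩ ⟨x k, hxS k⟩ = 0) → d = 0 := fun d hd h0 =>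
    skc_inj_s hs' g' h2 hxK D hxS hmin (skc_of_skf h.good hd) h0
  -- `UM z ∈ S^⊥`
  have hUM : ∀ (z : J → V), (∀ s : ↥S, ∑ l, uz 𝒟 c0 c1 l * 𝒟.q (z l) s = 0) →
      UM (ofCfg 𝒟) c0 c1 z ∈ pp (ofCfg 𝒟).q S := by
    intro z hz s hs
    have h1 := hz ⟨s, hs⟩
    show 𝒟.q s (∑ l, uz 𝒟 c0 c1 l • z l) = 0
    rw [map_sum, ← h1]
    refine Finset.sum_congr rfl fun l _ => ?_
    rw [map_smul, smul_eq_mul, h.good.form.symm]
  -- the surjectivity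
  have hsurj : ∀ z ∈ H887.HomD 𝒟.Ω (objA 𝒟 S) (objB 𝒟 S), ∑ l, uz 𝒟 c0 c1 l • z l = 0 →
      ∃ d ∈ SkF 𝒟 S, ∀ l, z l = d ⟨x l, hxS l⟩ := by
    intro z hz hzu
    rw [H887.mem_HomD] at hz
    have h1 : ∀ l, ∃ t ∈ 𝒟.C l, ∀ s : ↥S, 𝒟.q t s = z l s := fun l =>
      exists_lift h.good.form S (𝒟.C l) (z l) fun w hw => hz.1 l w (by
        rw [pp_eq h.good.form] at hw
        exact hw)
    choose t ht1 ht2 using h1
    obtain ⟨e, he, heF, hze⟩ := heps t (H96.Cf.mem_perp.mpr ⟨ht1, fun w hw => by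
      have hw' := H96.Cf.mem_E.mp hw
      rw [H96.Cf.M_eq]
      refine Finset.sum_eq_zero fun l _ => ?_
      have h3 := hz.2 l ⟨w l, (hw' l).2⟩ (hw' l).1
      rw [H887.om_dual_apply] at h3
      rw [← h3]
      refine Finset.sum_congr rfl fun k _ => ?_
      rw [← ht2 k]
      show 𝒟.Ω l k * 𝒟.q (w l) (t k) = _
      rw [h.good.form.symm]⟩) (hUM t fun s => by
        have h3 := LinearMap.congr_fun hzu s
        rw [LinearMap.sum_apply, LinearMap.zero_apply] at h3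
        rw [← h3]
        refine Finset.sum_congr rfl fun l _ => ?_
        rw [LinearMap.smul_apply, smul_eq_mul, ht2])
    refine ⟨_, heF, fun l => LinearMap.ext fun s => ?_⟩
    rw [← ht2 l, hze l s]
  have hxN : (fun l => (⟨x l, hxS l⟩ : ↥S)) ∈ H887.HomN 𝒟.Ω (objA 𝒟 S) (objB 𝒟 S) := by
    rw [H887.mem_HomN]
    refine ⟨fun l => b.xK.1.1 l, fun l => ?_⟩
    show ((H887.omM 𝒟.Ω (fun l => (⟨x l, hxS l⟩ : ↥S)) l : ↥S) : V) ∈ perp 𝒟.q (𝒟.C l)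
    rw [H887.omM_apply, Submodule.coe_sum]
    exact b.xK.1.2 l
  have hxu' : ∑ l, uz 𝒟 c0 c1 l • (⟨x l, hxS l⟩ : ↥S) = 0 := by
    apply Subtype.ext
    rw [Submodule.coe_sum]
    exact hxu
  refine ⟨S, fun l => ⟨x l, hxS l⟩, hyp, hSS₀, hS, hxN, hxu', ?_, ?_, ?_, ?_, hsurj, hinj⟩
  · -- φK
    exact mem_Ks_sq h.good hS b.yK hyp
  · -- φ_span
    intro t ht
    obtain ⟨u, hu, htu, huU, huX⟩ := mem_Ks_sq_lift h.good h2 h.spin ht
    rw [hradeq] at huX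
    obtain ⟨s, hs, k, hk, hsk⟩ := Submodule.mem_sup.mp huX
    obtain ⟨k', hk', v, hv0, hv1, hkv⟩ := K_decomp hs' g' h2 hk
    obtain ⟨α, β, hαβ⟩ := H96.exists_coord h.dim' hxK hyK b.x0 hyx k' hk'
    have hvS : v ∈ S := by
      have e1 : UM (ofCfg 𝒟) c0 c1 u = UM (ofCfg 𝒟) c0 c1 s + -(2 : L) • v := by
        rw [← hsk, hkv, map_add, map_add, (mem_Ks.mp hk').2, UM_kap hs' g', zero_add]
      have e2 : UM (ofCfg 𝒟) c0 c1 s ∈ S := by
        rw [UM_apply]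
        exact S.sum_mem fun l _ => S.smul_mem _ (H96.Cf.mem_E.mp hs l).2
      have e3 : -(2 : L) • v ∈ S := by
        have := S.sub_mem huU e2
        rwa [e1, add_sub_cancel_left] at this
      exact (S.smul_mem_iff (neg_ne_zero.mpr h2)).mp e3
    have hkap : ∀ l, kap (L := L) c0 c1 v l ∈ S := by
      intro l
      by_cases hl0 : l = c0
      · subst hl0; rw [kap_c0 hs'.ne]; exact hvS
      · by_cases hl1 : l = c1
        · subst hl1; rw [kap_c1 hs'.ne]; exact S.neg_mem hvS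
        · rw [kap_ne hl0 hl1]; exact S.zero_mem
    refine ⟨β, funext fun l => ?_⟩
    rw [htu l, Pi.smul_apply, ← map_smul, ← sub_eq_zero, ← map_sub, SQmk_eq_zero]
    show u l - β • y l ∈ S
    have h1 : u l - β • y l = s l + α • x l + kap (L := L) c0 c1 v l := by
      rw [← hsk, hkv, hαβ]
      simp only [Pi.add_apply, Pi.smul_apply]
      abel
    rw [h1]
    exact S.add_mem (S.add_mem (H96.Cf.mem_E.mp hs l).2 (S.smul_mem _ (hxS l))) (hkap l)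
  · -- ext
    refine ext_zero_s h.good h2 h.spin h.versal hS fun d hd => ?_
    have hdC := skc_of_skf h.good hd
    obtain ⟨z, hz, hz2⟩ := exists_ct g' hdC (t := x) hxS hx'.1 (fun k w hw hwC => by
      rw [hdC.sk, neg_eq_zero]
      exact hdC.col k _ _ hwC (fun v hv => hx'.2 k v hv))
    obtain ⟨e, he, heF, hze⟩ := heps z hz (hUM z fun s => by
      have h3 : d (∑ l, uz 𝒟 c0 c1 l • (⟨x l, hxS l⟩ : ↥S)) s = 0 := by
        rw [hxu', map_zero, LinearMap.zero_apply]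
      rw [map_sum, LinearMap.sum_apply] at h3
      rw [← h3]
      refine Finset.sum_congr rfl fun l _ => ?_
      rw [map_smul, LinearMap.smul_apply, smul_eq_mul]
      congr 1
      exact hz2 l s)
    refine ⟨e, he, ?_⟩
    have h1 : d + (-1 : L) • epsC (ofCfg 𝒟) S (e 0) = 0 := by
      refine hinj _ ((SkF 𝒟 S).add_mem hd ((SkF 𝒟 S).smul_mem (-1) heF)) fun l k => ?_
      rw [LinearMap.add_apply, LinearMap.add_apply, LinearMap.smul_apply, LinearMap.smul_apply,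
        ← hze, neg_one_smul, ← sub_eq_add_neg, sub_eq_zero]
      exact (hz2 l ⟨x k, hxS k⟩).symm
    intro u v
    have h2 := LinearMap.congr_fun (LinearMap.congr_fun h1 u) v
    rw [LinearMap.add_apply, LinearMap.add_apply, LinearMap.smul_apply, LinearMap.smul_apply,
      neg_one_smul, ← sub_eq_add_neg, LinearMap.zero_apply, LinearMap.zero_apply,
      sub_eq_zero] at h2
    exact h2
  · -- c_ne
    have hA0 : objA 𝒟 S c0 = objB 𝒟 S c0 := by rw [objA, objB, h.spin.lag0]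
    have hA1 : objA 𝒟 S c1 = objB 𝒟 S c1 := by rw [objA, objB, h.spin.lag1]
    have hrr := H338.rr_s (h.spin.toSpinC.nf h.good) h.spin.ne hA0 hA1 h2
    rw [H338.thetaS_top] at hrr
    have h3 : 1 ≤ finrank L (H338.HomNu 𝒟.Ω (uz 𝒟 c0 c1) (objA 𝒟 S) (objB 𝒟 S)) := by
      rw [Nat.one_le_iff_ne_zero]
      intro h0
      have h4 := Submodule.finrank_eq_zero.mp h0
      have h5 : (fun l => (⟨x l, hxS l⟩ : ↥S)) ∈
          H338.HomNu 𝒟.Ω (uz 𝒟 c0 c1) (objA 𝒟 S) (objB 𝒟 S) := ⟨hxN, hxu'⟩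
      rw [h4, Submodule.mem_bot] at h5
      apply b.x0
      funext l
      exact congrArg Subtype.val (congrFun h5 l)
    have h4 : 1 ≤ finrank L (H338.HomDu 𝒟.Ω (uz 𝒟 c0 c1) (objA 𝒟 S) (objB 𝒟 S)) := by
      omega
    have hne : H338.HomDu 𝒟.Ω (uz 𝒟 c0 c1) (objA 𝒟 S) (objB 𝒟 S) ≠ ⊥ := by
      intro h0
      rw [h0, finrank_bot] at h4
      omega
    obtain ⟨z, hz, hz0⟩ := (Submodule.ne_bot_iff _).mp hne
    obtain ⟨d, hd, hzd⟩ := hsurj z hz.1 hz.2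
    refine ⟨d, hd, fun h0 => hz0 ?_⟩
    funext l
    rw [hzd l, h0, LinearMap.zero_apply]
    rfl

end main

end Vale.Agent.P182.H588.SP
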