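import Vale.Agent.P182.H338.SExt2
import Vale.Agent.P182.H716.CIso1

/-!
# The structured form of `T` for special configurations
-/

namespace Vale.Agent.P182.H338

open Module Matrix TensorProduct Vale.Agent.P182.H533 Vale.Agent.P182.B1 Vale.Agent.P182.H62
open Vale.Agent.P182.H716

universe u v w

section ext

variable {L : Type u} {J : Type w} [Field L] {V : Type u} [AddCommGroup V] [Module L V]
  [Fintype J] {D : Cfg L V J} {c0 c1 : J} {L' : Type u} [Field L'] [Algebra L L']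

/-- base change of `Ext(N_s, S) = 0` -/
theorem extZeroS_bc {S : Submodule L V} (h : ExtZeroS D c0 c1 S) :
    ExtZeroS (bcC D L') c0 c1 (S.baseChange L') := by
  rw [extZeroS_iff] at h ⊢
  intro y h1 h2 h2'
  have hm : ∀ s : ↥S, (1 : L') ⊗ₜ[L] (s : V) ∈ S.baseChange L' := fun s =>
    Submodule.tmul_mem_baseChange_of_mem 1 s.2
  have h3 : ∀ (f : L' →ₗ[L] L) (l : J) (s : ↥S), f (y l ⟨1 ⊗ₜ s, hm s⟩) = 0 := by
    intro f
    let z : J → Dual L ↥S := fun l =>
      { toFun := fun s => f (y l ⟨1 ⊗ₜ s, hm s⟩)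
        map_add' := fun a b => by
          have : (⟨1 ⊗ₜ ((a + b : ↥S) : V), hm (a + b)⟩ : ↥(S.baseChange L')) =
              ⟨1 ⊗ₜ a, hm a⟩ + ⟨1 ⊗ₜ b, hm b⟩ := Subtype.ext (TensorProduct.tmul_add _ _ _)
          rw [this, map_add, map_add]
        map_smul' := fun c a => by
          have : (⟨1 ⊗ₜ ((c • a : ↥S) : V), hm (c • a)⟩ : ↥(S.baseChange L')) =
              (algebraMap L L' c) • ⟨1 ⊗ₜ a, hm a⟩ := Subtype.ext (by
            show (1 : L') ⊗ₜ[L] (c • (a : V)) = (algebraMap L L' c) • ((1 : L') ⊗ₜ[L] (a : V))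
            rw [TensorProduct.tmul_smul, algebraMap_smul])
          rw [this, map_smul, RingHom.id_apply, smul_eq_mul, ← Algebra.smul_def, map_smul] }
    have hz : z = 0 := by
      refine h z (fun l v hv => ?_) (fun l v hv => ?_) fun v => ?_
      · show f (y l _) = 0
        rw [h1 l ⟨1 ⊗ₜ v, hm v⟩ (by
          rw [perp_bcC_C]
          exact Submodule.tmul_mem_baseChange_of_mem 1 hv), map_zero]
      · have h4 := h2 l ⟨1 ⊗ₜ v, hm v⟩ (Submodule.tmul_mem_baseChange_of_mem 1 hv)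
        have h5 : ∑ k, D.Ω l k * z k v =
            f (∑ k, (bcC D L').Ω l k * y k ⟨1 ⊗ₜ v, hm v⟩) := by
          rw [map_sum]
          refine Finset.sum_congr rfl fun k _ => ?_
          show D.Ω l k * f (y k ⟨1 ⊗ₜ v, hm v⟩) =
            f (algebraMap L L' (D.Ω l k) * y k ⟨1 ⊗ₜ v, hm v⟩)
          rw [← Algebra.smul_def, map_smul, smul_eq_mul]
        rw [h5, h4, map_zero]
      · have h4 := h2' ⟨1 ⊗ₜ v, hm v⟩
        have h5 : ∑ l, uz D c0 c1 l * z l v =
            f (∑ l, uz (bcC D L') c0 c1 l * y l ⟨1 ⊗ₜ v, hm v⟩) := by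
          rw [map_sum]
          refine Finset.sum_congr rfl fun k _ => ?_
          rw [uz_bcC]
          show uz D c0 c1 k * f (y k ⟨1 ⊗ₜ v, hm v⟩) = _
          rw [← Algebra.smul_def, map_smul, smul_eq_mul]
        rw [h5, h4, map_zero]
    intro l s
    exact LinearMap.congr_fun (congrFun hz l) s
  have h4 : ∀ (l : J) (s : ↥S), y l ⟨1 ⊗ₜ s, hm s⟩ = 0 := fun l s => fun_sep fun f => h3 f l s
  funext l
  refine LinearMap.ext ?_
  rintro ⟨x, hx⟩
  have h5 : Submodule.span L' ((S.map (TensorProduct.mk L L' V 1) : Submodule L (L' ⊗[L] V)) :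
      Set (L' ⊗[L] V)) ≤ (LinearMap.ker (y l)).map (S.baseChange L').subtype := by
    rw [Submodule.span_le]
    rintro _ ⟨s, hs, rfl⟩
    exact ⟨⟨1 ⊗ₜ s, hm ⟨s, hs⟩⟩, LinearMap.mem_ker.mpr (h4 l ⟨s, hs⟩), rfl⟩
  have hx' := hx
  rw [Submodule.baseChange_eq_span] at hx'
  obtain ⟨z, hz, h6⟩ := h5 hx'
  have h7 : z = ⟨x, hx⟩ := Subtype.ext h6
  rw [← h7]
  exact LinearMap.mem_ker.mp hz

/-- `Ext(N_s, -) = 0` for an extension -/
theorem extZeroS_SQpre [FiniteDimensional L V] (g : D.Good) {S : Submodule L V} (hS : D.Iso S)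
    {T : Submodule L (SQ D.q S)} (h1 : ExtZeroS D c0 c1 S) (h2 : ExtZeroS (sq D g S) c0 c1 T) :
    ExtZeroS D c0 c1 (SQpre S T) := by
  rw [extZeroS_iff] at h1 h2 ⊢
  intro y h3 h4 h4'
  have hle := le_SQpre (q := D.q) S hS T
  -- `y` vanishes on `S`
  have h5 : ∀ l, ∀ s : ↥S, y l ⟨s, hle s.2⟩ = 0 := by
    have h6 := h1 (fun l => y l ∘ₗ Submodule.inclusion hle) (fun l v hv => h3 l _ hv)
      (fun l v hv => h4 l _ hv) (fun v => h4' _)
    intro l s
    exact LinearMap.congr_fun (congrFun h6 l) s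
  -- the induced functionals
  have hsurj : ∀ t : ↥T, ∃ w : ↥(SQpre S T), ∃ h : (w : V) ∈ perp D.q S,
      SQmk S ⟨w, h⟩ = t := by
    intro t
    obtain ⟨u, hu⟩ := SQmk_surjective S (t : SQ D.q S)
    exact ⟨⟨u, (mem_SQpre S).mpr ⟨u.2, by rw [show SQmk S ⟨(u : V), u.2⟩ = SQmk S u from rfl, hu]
                                          exact t.2⟩⟩, u.2, hu⟩
  choose w hw hwt using hsurj
  have key : ∀ l (t : ↥T) (v : ↥(SQpre S T)) (h : (v : V) ∈ perp D.q S),
      SQmk S ⟨v, h⟩ = t → y l (w t) = y l v := by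
    intro l t v h hv
    have h6 : SQmk S (⟨w t, hw t⟩ - ⟨v, h⟩) = 0 := by rw [map_sub, hwt, hv, sub_self]
    rw [SQmk_eq_zero] at h6
    have h7 := h5 l ⟨_, h6⟩
    rw [← sub_eq_zero, ← map_sub]
    exact h7
  let z : J → Dual L ↥T := fun l =>
    { toFun := fun t => y l (w t)
      map_add' := fun a b => by
        rw [← map_add]
        exact key l _ _ (Submodule.add_mem _ (hw a) (hw b))
          (congrArg₂ (fun x y => x + y) (hwt a) (hwt b) :
            SQmk S ⟨w a, hw a⟩ + SQmk S ⟨w b, hw b⟩ = (a : SQ D.q S) + b)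
      map_smul' := fun c a => by
        rw [RingHom.id_apply, ← map_smul]
        exact key l _ _ (Submodule.smul_mem _ c (hw a))
          (congrArg (fun x => c • x) (hwt a) : c • SQmk S ⟨w a, hw a⟩ = c • (a : SQ D.q S)) }
  have hz : z = 0 := by
    refine h2 z (fun l t ht => ?_) (fun l t ht => ?_) fun t => ?_
    · rw [perp_sq_C g hS] at ht
      obtain ⟨v, hv, hvt⟩ := (mem_SQim S).mp ht
      have hv' : (v : V) ∈ SQpre S T := (mem_SQpre S).mpr ⟨v.2, by
        rw [show SQmk S ⟨(v : V), v.2⟩ = SQmk S v from rfl, hvt]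
        exact t.2⟩
      show y l (w t) = 0
      rw [key l t ⟨v, hv'⟩ v.2 hvt]
      exact h3 l _ hv
    · obtain ⟨v, hv, hvt⟩ := (mem_SQim S).mp ht
      have hv' : (v : V) ∈ SQpre S T := (mem_SQpre S).mpr ⟨v.2, by
        rw [show SQmk S ⟨(v : V), v.2⟩ = SQmk S v from rfl, hvt]
        exact t.2⟩
      show ∑ k, D.Ω l k * y k (w t) = 0
      have h8 : ∀ k, y k (w t) = y k ⟨v, hv'⟩ := fun k => key k t ⟨v, hv'⟩ v.2 hvt
      simp_rw [h8]
      exact h4 l _ hv
    · exact h4' (w t)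
  funext l
  refine LinearMap.ext fun v => ?_
  obtain ⟨h8, h9⟩ := (mem_SQpre S).mp v.2
  rw [← key l ⟨_, h9⟩ v h8 rfl]
  exact LinearMap.congr_fun (congrFun hz l) ⟨_, h9⟩

variable {V' : Type u} [AddCommGroup V'] [Module L V'] {D' : Cfg L V' J}

/-- transport of `Ext(N_s, S) = 0` -/
theorem cIso_extZeroS (i : CIso D D') {S : Submodule L V} (h : ExtZeroS D c0 c1 S) :
    ExtZeroS D' c0 c1 (S.map i.e.toLinearMap) := by
  rw [extZeroS_iff] at h ⊢
  intro y h1 h2 h2'
  let ε : ↥S ≃ₗ[L] ↥(S.map i.e.toLinearMap) := i.e.submoduleMap S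
  have hε : ∀ v : ↥S, ((ε v : ↥(S.map i.e.toLinearMap)) : V') = i.e v := fun v => rfl
  have h3 := h (fun l => y l ∘ₗ ε.toLinearMap) (fun l v hv => by
      refine h1 l (ε v) ?_
      rw [hε, ciso_C' i, cIso_perp]
      exact ⟨v, hv, rfl⟩)
    (fun l v hv => by
      have h4 := h2 l (ε v) (by
        rw [hε, ciso_C' i]
        exact ⟨v, hv, rfl⟩)
      rw [i.Ω] at h4
      exact h4)
    (fun v => by
      have h4 := h2' (ε v)
      simp only [uz_ciso i] at h4
      exact h4)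
  funext l
  refine LinearMap.ext fun v => ?_
  obtain ⟨u, rfl⟩ := ε.surjective v
  exact LinearMap.congr_fun (congrFun h3 l) u

end ext

section str

variable {L : Type u} {J : Type w} [Field L] {V : Type u} [AddCommGroup V] [Module L V]
  {V' : Type u} [AddCommGroup V'] [Module L V'] [Fintype J] {D : Cfg L V J} {D' : Cfg L V' J}
  {c0 c1 : J}

/-- strict semistability over every extension field -/
def UStrictS (D : Cfg L V J) (c0 c1 : J) : Prop := ∀ (L' : Type u) [Field L'] [Algebra L L'],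
  ∀ S : Submodule L' (L' ⊗[L] V), (bcC D L').Iso S → S ≠ ⊥ → thetaS (bcC D L') c0 c1 S ≤ -1

theorem cIso_uStrictS (i : CIso D D') (h : UStrictS D c0 c1) : UStrictS D' c0 c1 := by
  intro L' _ _ S hS h0
  have j := cIsoBC (cIsoSymm i) L'
  have h1 := h L' (S.map j.e.toLinearMap) ((cIso_iso j).mpr hS) (map_ne_bot j h0)
  rwa [thetaS_ciso] at h1

theorem uStrictS_bc (h : UStrictS D c0 c1) (L' : Type u) [Field L'] [Algebra L L'] :
    UStrictS (bcC D L') c0 c1 := by
  intro L'' _ _ S hS h0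
  let _ : Algebra L L'' := ((algebraMap L' L'').comp (algebraMap L L')).toAlgebra
  have _ : IsScalarTower L L' L'' := IsScalarTower.of_algebraMap_eq' rfl
  have j := H716.cIsoTower (L' := L') (L'' := L'') D
  have h1 := h L'' (S.map j.e.toLinearMap) ((cIso_iso j).mpr hS) (map_ne_bot j h0)
  rwa [thetaS_ciso] at h1

/-- the structured form over the given field -/
def ResS (D : Cfg L V J) (g : D.Good) (c0 c1 : J) : Prop :=
  ∃ S : Submodule L V, D.Iso S ∧ ExtZeroS D c0 c1 S ∧ SVersal (sq D g S) c0 c1 ∧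
    UStrictS (sq D g S) c0 c1 ∧ finrank L (Ks (sq D g S) c0 c1) ≤ 1

/-- the structured form of `T` for special configurations -/
def STRS (D : Cfg L V J) (g : D.Good) (c0 c1 : J) : Prop :=
  ∃ (L' : Type u) (_ : Field L') (_ : Algebra L L'), ResS (bcC D L') (good_bcC g) c0 c1

/-- the numerical form of `T` for special configurations -/
def T1uS (D : Cfg L V J) (c0 c1 : J) : Prop :=
  ∃ (L' : Type u) (_ : Field L') (_ : Algebra L L') (S : Submodule L' (L' ⊗[L] V)),
    (bcC D L').Iso S ∧ (finrank L (Ks D c0 c1) : ℤ) ≤ thetaS (bcC D L') c0 c1 S + 1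

theorem T1uS_of_STRS [FiniteDimensional L V] [CharZero L] (g : D.Good) (hs : SpinC D c0 c1)
    (h : STRS D g c0 c1) : T1uS D c0 c1 := by
  obtain ⟨L', _, _, S, hS, hE, -, -, hK⟩ := h
  have : CharZero L' := charZero_ext L L'
  refine ⟨L', _, _, S, hS, ?_⟩
  have h1 := finrank_Ks_le (good_bcC g (L' := L')) (spin_bcC hs) two_ne_zero hS hE
  rw [finrank_Ks_bcC] at h1
  have h2 : (finrank L' (Ks (sq (bcC D L') (good_bcC g) S) c0 c1) : ℤ) ≤ 1 := by exact_mod_cast hK
  linarith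

theorem cIso_ResS [FiniteDimensional L V] [FiniteDimensional L V'] [CharZero L] (i : CIso D D')
    {g : D.Good} (g' : D'.Good) (hs : SpinC1 D c0 c1) (h : ResS D g c0 c1) :
    ResS D' g' c0 c1 := by
  obtain ⟨S, hS, hE, hV, hU, hK⟩ := h
  obtain ⟨e⟩ := exists_cIsoSQmap i g g' S
  have hS' : D'.Iso (S.map i.e.toLinearMap) := (cIso_iso i).mpr hS
  exact ⟨S.map i.e.toLinearMap, hS', cIso_extZeroS i hE,
    sversal_ciso e (good_sq g' hS') two_ne_zero (spin1_sq g hS hs) hV,
    cIso_uStrictS e hU, (ciso_finrank_Ks e).trans_le hK⟩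

theorem ResS_of_sq [FiniteDimensional L V] [CharZero L] {g : D.Good} {S : Submodule L V}
    (hs : SpinC1 D c0 c1) (hS : D.Iso S)
    (hE : ExtZeroS D c0 c1 S) {g' : (sq D g S).Good} (h : ResS (sq D g S) g' c0 c1) :
    ResS D g c0 c1 := by
  obtain ⟨T, hT, hET, hV, hU, hK⟩ := h
  obtain ⟨e⟩ := exists_cIsoIter g hS g' T
  have hS' : D.Iso (SQpre S T) := iso_SQpre g hS hT
  exact ⟨SQpre S T, hS', extZeroS_SQpre g hS hE hET,
    sversal_ciso e (good_sq g hS') two_ne_zero (spin1_sq g' hT (spin1_sq g hS hs)) hV,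
    cIso_uStrictS e hU, (ciso_finrank_Ks e).trans_le hK⟩

theorem STRS_of_ResS [FiniteDimensional L V] [CharZero L] {g : D.Good} (hs : SpinC1 D c0 c1)
    (h : ResS D g c0 c1) : STRS D g c0 c1 :=
  ⟨L, inferInstance, inferInstance, cIso_ResS (cIsoSymm (H716.cIsoSelf D)) _ hs h⟩

/-- transport of the structured form -/
theorem cIso_STRS [FiniteDimensional L V] [FiniteDimensional L V'] [CharZero L] (i : CIso D D')
    {g : D.Good} (g' : D'.Good) (hs : SpinC1 D c0 c1) (h : STRS D g c0 c1) :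
    STRS D' g' c0 c1 := by
  obtain ⟨L', _, _, h⟩ := h
  have : CharZero L' := charZero_ext L L'
  exact ⟨L', inferInstance, inferInstance, cIso_ResS (cIsoBC i L') _ (spin1_bcC hs) h⟩

/-- the structured form over an extension -/
theorem STRS_of_bc [FiniteDimensional L V] [CharZero L] {L' : Type u} [Field L'] [Algebra L L']
    {g : D.Good} (hs : SpinC1 D c0 c1) (h : STRS (bcC D L') (good_bcC g) c0 c1) :
    STRS D g c0 c1 := by
  obtain ⟨L'', _, _, h⟩ := h
  let _ : Algebra L L'' := ((algebraMap L' L'').comp (algebraMap L L')).toAlgebra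
  have _ : IsScalarTower L L' L'' := IsScalarTower.of_algebraMap_eq' rfl
  have : CharZero L'' := charZero_ext L L''
  exact ⟨L'', inferInstance, inferInstance,
    cIso_ResS (H716.cIsoTower (L' := L') (L'' := L'') D) _ (spin1_bcC (spin1_bcC hs)) h⟩

/-- **the structured form of a subquotient** -/
theorem STRS_of_sq [FiniteDimensional L V] [CharZero L] {g : D.Good} {S : Submodule L V}
    (hs : SpinC1 D c0 c1) (hS : D.Iso S) (hE : ExtZeroS D c0 c1 S) {g' : (sq D g S).Good}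
    (h : STRS (sq D g S) g' c0 c1) : STRS D g c0 c1 := by
  obtain ⟨L', _, _, h⟩ := h
  have : CharZero L' := charZero_ext L L'
  obtain ⟨i⟩ := exists_cIsoBC (L' := L') g S
  have gS : (sq (bcC D L') (good_bcC g) (S.baseChange L')).Good := good_sq _ (iso_bcC hS)
  exact ⟨L', inferInstance, inferInstance,
    ResS_of_sq (spin1_bcC hs) (iso_bcC hS) (extZeroS_bc hE)
      (cIso_ResS i gS (spin1_bcC (spin1_sq g hS hs)) h)⟩

end str

end Vale.Agent.P182.H338
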