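import Vale.Agent.P182.H163.Square
import Vale.Agent.P182.H163.BridgeB
import Vale.Agent.P182.H338.Wick

/-!
# Clifford multiplication, pure spinors and the invariant bilinear form on the Fock space
-/

namespace Vale.Agent.P182.H338

open scoped InnerProductSpace ComplexConjugate TensorProduct
open LieAlgebra.Orthogonal

attribute [local instance 100] LieRing.ofAssociativeRing

variable {n : ℕ}

/-- vectors -/
abbrev Vec (n : ℕ) := Fin n ⊕ Fin n → ℂ

/-- Clifford multiplication by a vector. -/
noncomputable def gam (v : Vec n) : Module.End ℂ (Fock n) := ∑ b, v b • cl b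

theorem gam_add (u v : Vec n) : gam (u + v) = gam u + gam v := by
  simp only [gam, Pi.add_apply, add_smul, Finset.sum_add_distrib]

theorem gam_smul (s : ℂ) (v : Vec n) : gam (s • v) = s • gam v := by
  simp only [gam, Pi.smul_apply, smul_eq_mul, mul_smul, Finset.smul_sum]

/-- as a linear map -/
noncomputable def gamL (n : ℕ) : Vec n →ₗ[ℂ] Module.End ℂ (Fock n) where
  toFun := gam
  map_add' := gam_add
  map_smul' := gam_smul

theorem gam_zero : gam (0 : Vec n) = 0 := (gamL n).map_zero

theorem gam_sub (u v : Vec n) : gam (u - v) = gam u - gam v := (gamL n).map_sub u v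

theorem JD_eq (b b' : Fin n ⊕ Fin n) : JD (Fin n) ℂ b b' = if b' = b.swap then 1 else 0 := by
  rcases b with b | b <;> rcases b' with b' | b' <;> simp [JD, Matrix.one_apply, eq_comm]

theorem gam_anti (u v : Vec n) :
    gam u * gam v + gam v * gam u = algebraMap ℂ (Module.End ℂ (Fock n)) (qf u v) := by
  rw [Algebra.algebraMap_eq_smul_one]
  have h1 : gam u * gam v = ∑ b, ∑ b', (u b * v b') • (cl b * cl b') := by
    rw [gam, gam, Finset.sum_mul_sum]
    refine Finset.sum_congr rfl fun b _ => Finset.sum_congr rfl fun b' _ => ?_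
    rw [smul_mul_smul_comm]
  have h2 : gam v * gam u = ∑ b, ∑ b', (u b * v b') • (cl b' * cl b) := by
    rw [gam, gam, Finset.sum_mul_sum, Finset.sum_comm]
    refine Finset.sum_congr rfl fun b _ => Finset.sum_congr rfl fun b' _ => ?_
    rw [smul_mul_smul_comm, mul_comm (v b')]
  rw [h1, h2, ← Finset.sum_add_distrib, qf, Finset.sum_smul]
  refine Finset.sum_congr rfl fun b _ => ?_
  rw [← Finset.sum_add_distrib, Finset.sum_smul]
  refine Finset.sum_congr rfl fun b' _ => ?_
  rw [← smul_add, cl_car b b', JD_eq]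
  split_ifs <;> simp

theorem gam_sq (u : Vec n) : (2 : ℂ) • (gam u * gam u) = qf u u • (1 : Module.End ℂ (Fock n)) := by
  rw [two_smul, gam_anti, Algebra.algebraMap_eq_smul_one]

/-- equivariance -/
theorem rho_gam (x : so n) (v : Vec n) :
    rho cl x.1 * gam v - gam v * rho cl x.1 = gam (x.1.mulVec v) := by
  rw [gam, Finset.mul_sum, Finset.sum_mul, ← Finset.sum_sub_distrib]
  have h1 : ∀ d : Fin n ⊕ Fin n, rho cl x.1 * v d • cl d - v d • cl d * rho cl x.1 =
      ∑ b', (v d * x.1 b' d) • (cl b' : Module.End ℂ (Fock n)) := by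
    intro d
    rw [mul_smul_comm, smul_mul_assoc, ← smul_sub, cl_car.comm_rho, Finset.smul_sum]
    exact Finset.sum_congr rfl fun b _ => by rw [smul_smul]
  rw [Finset.sum_congr rfl fun d _ => h1 d, Finset.sum_comm, gam]
  refine Finset.sum_congr rfl fun b' _ => ?_
  rw [← Finset.sum_smul, Matrix.mulVec, dotProduct]
  congr 1
  exact Finset.sum_congr rfl fun d _ => mul_comm _ _

/-! ### spin lifts -/

/-- `G` is a spin lift of `g`. -/
inductive Lift (n : ℕ) : Matrix (Fin n ⊕ Fin n) (Fin n ⊕ Fin n) ℂ → Module.End ℂ (Fock n) → Prop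
  | one : Lift n 1 1
  | mul (x : so n) (hx : x ∈ rootSet n) (s : ℂ) (g : Matrix (Fin n ⊕ Fin n) (Fin n ⊕ Fin n) ℂ)
      (G : Module.End ℂ (Fock n)) (hg : Lift n g G) :
      Lift n ((1 + s • x.1) * g) (ex (s • LieModule.toEnd ℂ (so n) (Fock n) x) * G)

theorem exists_lift {g : Matrix (Fin n ⊕ Fin n) (Fin n ⊕ Fin n) ℂ} (hg : InE n g) :
    ∃ G, Lift n g G := by
  induction hg with
  | one => exact ⟨1, Lift.one⟩
  | mul x hx s g _ ih =>
    obtain ⟨G, hG⟩ := ih
    exact ⟨_, Lift.mul x hx s g G hG⟩

theorem ex_root {x : so n} (hx : x ∈ rootSet n) (s : ℂ) :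
    ex (s • LieModule.toEnd ℂ (so n) (Fock n) x) = 1 + s • rho cl x.1 := by
  rw [toEnd_fock, ex_eq_sum (k := 2)]
  · simp [Finset.sum_range_succ]
  · rw [pow_two, smul_mul_smul_comm, rho_root cl_car hx, smul_zero]

theorem root_gam_zero {x : so n} (hx : x ∈ rootSet n) (w : Vec n) :
    gam (x.1.mulVec w) * rho cl x.1 = 0 := by
  set R : Module.End ℂ (Fock n) := rho cl x.1 with hR
  have h0 : R * R = 0 := rho_root cl_car hx
  have h1 : R * gam w - gam w * R = gam (x.1.mulVec w) := rho_gam x w
  have h2 : R * gam (x.1.mulVec w) - gam (x.1.mulVec w) * R = 0 := by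
    rw [hR, rho_gam, Matrix.mulVec_mulVec, rootSet_sq hx, Matrix.zero_mulVec, gam_zero]
  have h3 : R * gam (x.1.mulVec w) + gam (x.1.mulVec w) * R = 0 := by
    rw [← h1]
    calc R * (R * gam w - gam w * R) + (R * gam w - gam w * R) * R =
        (R * R) * gam w - gam w * (R * R) := by noncomm_ring
      _ = 0 := by rw [h0]; simp
  have h4 : (2 : ℂ) • (gam (x.1.mulVec w) * R) = 0 := by
    rw [two_smul]
    calc gam (x.1.mulVec w) * R + gam (x.1.mulVec w) * R =
        (R * gam (x.1.mulVec w) + gam (x.1.mulVec w) * R) -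
          (R * gam (x.1.mulVec w) - gam (x.1.mulVec w) * R) := by noncomm_ring
      _ = 0 := by rw [h2, h3, sub_zero]
  exact (smul_eq_zero.mp h4).resolve_left two_ne_zero

theorem Lift.conj {g : Matrix (Fin n ⊕ Fin n) (Fin n ⊕ Fin n) ℂ} {G : Module.End ℂ (Fock n)}
    (h : Lift n g G) (v : Vec n) : G * gam v = gam (g.mulVec v) * G := by
  induction h with
  | one => rw [Matrix.one_mulVec, one_mul, mul_one]
  | mul x hx s g G _ ih =>
    set w := g.mulVec v with hw
    rw [mul_assoc, ih, ← mul_assoc, ← mul_assoc, ex_root hx]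
    congr 1
    rw [← Matrix.mulVec_mulVec, ← hw, Matrix.add_mulVec, Matrix.one_mulVec, Matrix.smul_mulVec,
      gam_add, gam_smul]
    have h1 := rho_gam x w
    have h2 := root_gam_zero hx w
    set R : Module.End ℂ (Fock n) := rho cl x.1 with hR
    rw [← h1] at h2 ⊢
    have h3 : (1 + s • R) * gam w = gam w + s • (R * gam w) := by
      rw [add_mul, one_mul, smul_mul_assoc]
    have h4 : (gam w + s • (R * gam w - gam w * R)) * (1 + s • R) =
        gam w + s • (R * gam w - gam w * R) + s • (gam w * R) +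
          (s * s) • ((R * gam w - gam w * R) * R) := by
      rw [add_mul, mul_add, mul_one, mul_add, mul_one, mul_smul_comm, smul_mul_smul_comm]
      abel
    rw [h3, h4, h2, smul_zero, add_zero, smul_sub]
    abel

theorem Lift.isUnit {g : Matrix (Fin n ⊕ Fin n) (Fin n ⊕ Fin n) ℂ} {G : Module.End ℂ (Fock n)}
    (h : Lift n g G) : ∃ G' : Module.End ℂ (Fock n), G * G' = 1 ∧ G' * G = 1 := by
  induction h with
  | one => exact ⟨1, one_mul 1, one_mul 1⟩
  | mul x hx s g G _ ih =>
    obtain ⟨G', h1, h2⟩ := ih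
    have h0 : rho cl x.1 * rho cl x.1 = (0 : Module.End ℂ (Fock n)) := rho_root cl_car hx
    refine ⟨G' * (1 - s • rho cl x.1), ?_, ?_⟩
    · rw [ex_root hx]
      calc (1 + s • rho cl x.1) * G * (G' * (1 - s • rho cl x.1)) =
          (1 + s • rho cl x.1) * (G * G') * (1 - s • rho cl x.1) := by noncomm_ring
        _ = 1 := by
          rw [h1, mul_one, add_mul, one_mul, mul_sub, mul_one, smul_mul_smul_comm, h0]
          simp
    · rw [ex_root hx]
      calc G' * (1 - s • rho cl x.1) * ((1 + s • rho cl x.1) * G) =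
          G' * ((1 - s • rho cl x.1) * (1 + s • rho cl x.1)) * G := by noncomm_ring
        _ = 1 := by
          have : ((1 : Module.End ℂ (Fock n)) - s • rho cl x.1) * (1 + s • rho cl x.1) = 1 := by
            rw [sub_mul, one_mul, mul_add, mul_one, smul_mul_smul_comm, h0]
            simp
          rw [this, mul_one, h2]

/-- The Fock orbit. -/
theorem Lift.orb {g : Matrix (Fin n ⊕ Fin n) (Fin n ⊕ Fin n) ℂ} {G : Module.End ℂ (Fock n)}
    (h : Lift n g G) (lam : Fin n → ℤ) (f : Fock n) :
    Orb (rootSet n) (asymM lam 1 ⊗ₜ[ℂ] f) (asymM lam g ⊗ₜ[ℂ] G f) := by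
  induction h with
  | one => exact Orb.base
  | mul x hx s g G _ ih =>
    rw [← ex_asymM lam hx, Module.End.mul_apply, ← ex_tensor (tf_nilp hx) (fock_nilp hx)]
    exact Orb.step x hx s _ ih

/-! ### pure spinors -/

/-- the standard isotropic frame attached to `S` -/
def frS (S : Finset (Fin n)) (i : Fin n) : Fin n ⊕ Fin n :=
  if i ∈ S then Sum.inl i else Sum.inr i

theorem cl_frS (S : Finset (Fin n)) (i : Fin n) : cl (frS S i) (fv S) = 0 := by
  rw [frS]
  split_ifs with h
  · exact cr_fv_mem h
  · exact an_fv_notMem h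

theorem gam_single (b : Fin n ⊕ Fin n) :
    gam (fun b' => (1 : Matrix (Fin n ⊕ Fin n) (Fin n ⊕ Fin n) ℂ) b' b) = cl b := by
  rw [gam, Finset.sum_eq_single b]
  · rw [Matrix.one_apply_eq, one_smul]
  · intro b' _ hb
    rw [Matrix.one_apply_ne hb, zero_smul]
  · intro h; exact absurd (Finset.mem_univ _) h

/-- The frame vectors kill the translated spinor. -/
theorem Lift.pure {g : Matrix (Fin n ⊕ Fin n) (Fin n ⊕ Fin n) ℂ} {G : Module.End ℂ (Fock n)}
    (h : Lift n g G) (S : Finset (Fin n)) (i : Fin n) :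
    gam (fun b => g b (frS S i)) (G (fv S)) = 0 := by
  have h1 := h.conj (fun b' => (1 : Matrix (Fin n ⊕ Fin n) (Fin n ⊕ Fin n) ℂ) b' (frS S i))
  have h2 : g.mulVec (fun b' => (1 : Matrix (Fin n ⊕ Fin n) (Fin n ⊕ Fin n) ℂ) b' (frS S i)) =
      fun b => g b (frS S i) := by
    funext b
    rw [Matrix.mulVec, dotProduct, Finset.sum_eq_single (frS S i)]
    · rw [Matrix.one_apply_eq, mul_one]
    · intro b' _ hb
      rw [Matrix.one_apply_ne hb, mul_zero]
    · intro h; exact absurd (Finset.mem_univ _) h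
  rw [gam_single, h2] at h1
  have h3 := congrArg (fun T => T (fv S)) h1
  simp only [Module.End.mul_apply] at h3
  rw [← h3, cl_frS, map_zero]

theorem Lift.ne_zero {g : Matrix (Fin n ⊕ Fin n) (Fin n ⊕ Fin n) ℂ} {G : Module.End ℂ (Fock n)}
    (h : Lift n g G) (S : Finset (Fin n)) : G (fv S) ≠ 0 := by
  obtain ⟨G', _, h2⟩ := h.isUnit
  intro h0
  apply fv_ne_zero S
  have := congrArg (fun T : Module.End ℂ (Fock n) => T (fv S)) h2
  simp only [Module.End.mul_apply, Module.End.one_apply] at this
  rw [← this, h0, map_zero]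

/-! ### cyclicity -/

theorem fock_expand (f : Fock n) : f = ∑ S, f S • fv S := by
  apply fock_ext
  intro T
  rw [WithLp.ofLp_sum, Finset.sum_apply, Finset.sum_eq_single T]
  · rw [WithLp.ofLp_smul, Pi.smul_apply, fv_apply, if_pos rfl, smul_eq_mul, mul_one]
  · intro S _ hS
    rw [WithLp.ofLp_smul, Pi.smul_apply, fv_apply, if_neg (Ne.symm hS), smul_zero]
  · intro h
    exact absurd (Finset.mem_univ _) h

theorem cyclic_fv {N : Submodule ℂ (Fock n)} (hN : ∀ b, ∀ f ∈ N, cl b f ∈ N)
    {S : Finset (Fin n)} (hS : fv S ∈ N) : N = ⊤ := by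
  have h1 : ∀ T U : Finset (Fin n), fv (T ∪ U) ∈ N → fv T ∈ N := by
    intro T U
    induction U using Finset.induction_on generalizing T with
    | empty => intro h; rwa [Finset.union_empty] at h
    | insert i U hi ih =>
      intro h
      by_cases hT : i ∈ T
      · apply ih
        rwa [Finset.union_insert, Finset.insert_eq_self.mpr (Finset.mem_union_left _ hT)] at h
      · apply ih
        rw [Finset.union_insert] at h
        have hi' : i ∉ T ∪ U := by simp [hT, hi]
        have h2 := hN (Sum.inr i) _ h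
        change an i (fv (insert i (T ∪ U))) ∈ N at h2
        rw [an_fv (Finset.mem_insert_self _ _), Finset.erase_insert hi'] at h2
        have h3 := N.smul_mem (sg i (insert i (T ∪ U))) h2
        rwa [smul_smul, sg_sq, one_smul] at h3
  have h2 : ∀ T : Finset (Fin n), fv T ∈ N := by
    intro T
    have h0 : fv (∅ : Finset (Fin n)) ∈ N := by
      apply h1 ∅ S
      rwa [Finset.empty_union]
    induction T using Finset.induction_on with
    | empty => exact h0
    | insert i T hi ih =>
      have h3 := hN (Sum.inl i) _ ih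
      change cr i (fv T) ∈ N at h3
      rw [cr_fv hi] at h3
      have h4 := N.smul_mem (sg i T) h3
      rwa [smul_smul, sg_sq, one_smul] at h4
  rw [eq_top_iff]
  intro f _
  rw [fock_expand f]
  exact Submodule.sum_mem _ fun T _ => N.smul_mem _ (h2 T)

/-- A submodule stable under Clifford multiplication which contains a translated pure spinor is
everything. -/
theorem Lift.cyclic {g : Matrix (Fin n ⊕ Fin n) (Fin n ⊕ Fin n) ℂ} {G : Module.End ℂ (Fock n)}
    (h : Lift n g G) {N : Submodule ℂ (Fock n)} (hN : ∀ v : Vec n, ∀ f ∈ N, gam v f ∈ N)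
    {S : Finset (Fin n)} (hS : G (fv S) ∈ N) : N = ⊤ := by
  obtain ⟨G', h1, h2⟩ := h.isUnit
  have h3 : N.comap G = ⊤ := by
    refine cyclic_fv (S := S) ?_ hS
    intro b f hf
    show G (cl b f) ∈ N
    have h4 := h.conj (fun b' => (1 : Matrix (Fin n ⊕ Fin n) (Fin n ⊕ Fin n) ℂ) b' b)
    rw [gam_single] at h4
    have h5 := congrArg (fun T => T f) h4
    simp only [Module.End.mul_apply] at h5
    rw [h5]
    exact hN _ _ hf
  rw [eq_top_iff]
  intro f _
  have h4 : G' f ∈ N.comap G := by rw [h3]; trivial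
  have h5 : G (G' f) = f := by
    have := congrArg (fun T : Module.End ℂ (Fock n) => T f) h1
    simpa using this
  rw [← h5]
  exact h4

/-! ### the invariant bilinear form -/

/-- signs -/
def eps (S : Finset (Fin n)) : ℂ := ∏ j ∈ S, (-1 : ℂ) ^ (j : ℕ)

theorem eps_ne_zero (S : Finset (Fin n)) : eps S ≠ 0 :=
  Finset.prod_ne_zero_iff.mpr fun _ _ => pow_ne_zero _ (by norm_num)

/-- The invariant bilinear form. -/
noncomputable def BF (n : ℕ) : Fock n →ₗ[ℂ] Fock n →ₗ[ℂ] ℂ :=
  LinearMap.mk₂ ℂ (fun f g => ∑ S, eps S * (f S * g Sᶜ))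
    (by
      intro f f' g
      rw [← Finset.sum_add_distrib]
      exact Finset.sum_congr rfl fun S _ => by rw [PiLp.add_apply]; ring)
    (by
      intro c f g
      rw [smul_eq_mul, Finset.mul_sum]
      exact Finset.sum_congr rfl fun S _ => by rw [PiLp.smul_apply, smul_eq_mul]; ring)
    (by
      intro f g g'
      rw [← Finset.sum_add_distrib]
      exact Finset.sum_congr rfl fun S _ => by rw [PiLp.add_apply]; ring)
    (by
      intro c f g
      rw [smul_eq_mul, Finset.mul_sum]
      exact Finset.sum_congr rfl fun S _ => by rw [PiLp.smul_apply, smul_eq_mul]; ring)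

theorem BF_apply (f g : Fock n) : BF n f g = ∑ S, eps S * (f S * g Sᶜ) := rfl

theorem sg_compl {i : Fin n} {S : Finset (Fin n)} (h : i ∉ S) :
    sg i S * sg i (insert i S)ᶜ = (-1 : ℂ) ^ (i : ℕ) := by
  have h1 : sg i S * sg i Sᶜ = ∏ j : Fin n, (if j < i then (-1 : ℂ) else 1) := by
    rw [sg, sg, ← Finset.prod_union disjoint_compl_right, Finset.union_compl]
  have h2 : Sᶜ = insert i (insert i S)ᶜ := by
    ext j
    simp only [Finset.mem_compl, Finset.mem_insert, not_or]
    by_cases hj : j = i
    · subst hj; simp [h]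
    · simp [hj]
  have h3 : sg i Sᶜ = sg i (insert i S)ᶜ := by
    conv_lhs => rw [h2]
    exact sg_insert_self (by simp)
  rw [← h3, h1, Finset.prod_ite, Finset.prod_const, Finset.prod_const_one, mul_one]
  congr 1
  have : (Finset.univ.filter fun j : Fin n => j < i) = Finset.Iio i := by
    ext j; simp
  rw [this, Fin.card_Iio]

theorem BF_cr (i : Fin n) (f g : Fock n) : BF n (cr i f) g = BF n f (cr i g) := by
  rw [BF_apply, BF_apply]
  simp only [cr_apply]
  rw [← Finset.sum_filter_add_sum_filter_not Finset.univ (fun S => i ∈ S)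
      (fun S => eps S * ((if i ∈ S then sg i S * f (S.erase i) else 0) * g Sᶜ)),
    ← Finset.sum_filter_add_sum_filter_not Finset.univ (fun S => i ∉ S)
      (fun S => eps S * (f S * if i ∈ Sᶜ then sg i Sᶜ * g (Sᶜ.erase i) else 0))]
  congr 1
  · refine Finset.sum_nbij' (fun S => S.erase i) (fun S => insert i S) ?_ ?_ ?_ ?_ ?_
    · intro S _; simp
    · intro S _; simp
    · intro S hS
      exact Finset.insert_erase (Finset.mem_filter.mp hS).2
    · intro S hS
      exact Finset.erase_insert (Finset.mem_filter.mp hS).2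
    · intro S hS
      have hS' := (Finset.mem_filter.mp hS).2
      obtain ⟨T, hT, rfl⟩ : ∃ T : Finset (Fin n), i ∉ T ∧ S = insert i T :=
        ⟨S.erase i, Finset.notMem_erase _ _, (Finset.insert_erase hS').symm⟩
      have hc : Tᶜ.erase i = (insert i T)ᶜ := by
        ext j; simp
      have hic : i ∈ Tᶜ := by simpa using hT
      have e1 : eps (insert i T) = (-1 : ℂ) ^ (i : ℕ) * eps T := Finset.prod_insert hT
      have e2 := sg_compl hT
      have e3 : sg i Tᶜ = sg i (insert i T)ᶜ := by rw [← hc, sg_erase_self hic]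
      have e4 := sg_sq i T
      rw [if_pos hS', Finset.erase_insert hT, if_pos hic, hc, e1, sg_insert_self hT, e3, ← e2]
      linear_combination (eps T * f T * sg i (insert i T)ᶜ * g (insert i T)ᶜ) * e4
  · rw [Finset.sum_eq_zero, Finset.sum_eq_zero]
    · intro S hS
      have hS' : i ∈ S := not_not.mp (Finset.mem_filter.mp hS).2
      rw [if_neg (by simpa using hS'), mul_zero, mul_zero]
    · intro S hS
      rw [if_neg (Finset.mem_filter.mp hS).2, zero_mul, mul_zero]

theorem BF_an (i : Fin n) (f g : Fock n) : BF n (an i f) g = BF n f (an i g) := by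
  rw [BF_apply, BF_apply]
  simp only [an_apply]
  rw [← Finset.sum_filter_add_sum_filter_not Finset.univ (fun S => i ∉ S)
      (fun S => eps S * ((if i ∈ S then 0 else sg i S * f (insert i S)) * g Sᶜ)),
    ← Finset.sum_filter_add_sum_filter_not Finset.univ (fun S => i ∈ S)
      (fun S => eps S * (f S * if i ∈ Sᶜ then 0 else sg i Sᶜ * g (insert i Sᶜ)))]
  congr 1
  · refine Finset.sum_nbij' (fun S => insert i S) (fun S => S.erase i) ?_ ?_ ?_ ?_ ?_
    · intro S _; simp
    · intro S _; simp
    · intro S hS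
      exact Finset.erase_insert (Finset.mem_filter.mp hS).2
    · intro S hS
      exact Finset.insert_erase (Finset.mem_filter.mp hS).2
    · intro T hT
      have hT : i ∉ T := (Finset.mem_filter.mp hT).2
      have hc : insert i (insert i T)ᶜ = Tᶜ := by
        ext j
        simp only [Finset.mem_compl, Finset.mem_insert, not_or]
        by_cases hj : j = i
        · subst hj; simp [hT]
        · simp [hj]
      have hic : i ∉ (insert i T)ᶜ := by simp
      have e1 : eps (insert i T) = (-1 : ℂ) ^ (i : ℕ) * eps T := Finset.prod_insert hT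
      have e2 := sg_compl hT
      have e5 := sg_sq i (insert i T)ᶜ
      rw [if_neg hT, if_neg hic, hc, e1, ← e2]
      linear_combination (-(eps T * sg i T * f (insert i T) * g Tᶜ)) * e5
  · rw [Finset.sum_eq_zero, Finset.sum_eq_zero]
    · intro S hS
      have hS' : i ∉ S := (Finset.mem_filter.mp hS).2
      rw [if_pos (by simpa using hS'), mul_zero, mul_zero]
    · intro S hS
      have hS' : i ∈ S := not_not.mp (Finset.mem_filter.mp hS).2
      rw [if_pos hS', zero_mul, mul_zero]

theorem BF_cl (b : Fin n ⊕ Fin n) (f g : Fock n) : BF n (cl b f) g = BF n f (cl b g) := by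
  rcases b with i | i
  · exact BF_cr i f g
  · exact BF_an i f g

theorem BF_gam (v : Vec n) (f g : Fock n) : BF n (gam v f) g = BF n f (gam v g) := by
  simp only [gam, LinearMap.sum_apply, LinearMap.smul_apply, map_sum, map_smul, BF_cl]

/-- invariance -/
theorem BF_inv (x : so n) (f g : Fock n) :
    BF n (rho cl x.1 f) g + BF n f (rho cl x.1 g) = 0 := by
  have h1 : BF n (rho cl x.1 f) g = (2⁻¹ : ℂ) * ∑ b', ∑ b, x.1 b' b * BF n f (cl b.swap (cl b' g)) := by
    simp only [rho, quad, LinearMap.smul_apply, LinearMap.sum_apply, map_sum, map_smul,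
      Module.End.mul_apply, BF_cl, smul_eq_mul]
  have h2 : BF n f (rho cl x.1 g) = (2⁻¹ : ℂ) * ∑ b', ∑ b, x.1 b' b * BF n f (cl b' (cl b.swap g)) := by
    simp only [rho, quad, LinearMap.smul_apply, LinearMap.sum_apply, map_sum, map_smul,
      Module.End.mul_apply, smul_eq_mul]
  rw [h1, h2, ← mul_add, ← Finset.sum_add_distrib]
  have h3 : ∀ b' b : Fin n ⊕ Fin n, x.1 b' b * BF n f (cl b.swap (cl b' g)) +
      x.1 b' b * BF n f (cl b' (cl b.swap g)) = if b' = b then x.1 b' b * BF n f g else 0 := by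
    intro b' b
    have h4 := congrArg (fun T : Module.End ℂ (Fock n) => BF n f (T g)) (cl_car b' b.swap)
    simp only [LinearMap.add_apply, Module.End.mul_apply, map_add] at h4
    rw [← mul_add, add_comm, h4]
    by_cases h : b' = b
    · subst h; simp
    · rw [if_neg h, if_neg]
      · simp
      · intro e
        apply h
        have := congrArg Sum.swap e
        rw [Sum.swap_swap, Sum.swap_swap] at this
        exact this.symm
  have h5 : ∀ b' : Fin n ⊕ Fin n, (∑ b, x.1 b' b * BF n f (cl b.swap (cl b' g))) +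
      ∑ b, x.1 b' b * BF n f (cl b' (cl b.swap g)) = x.1 b' b' * BF n f g := by
    intro b'
    rw [← Finset.sum_add_distrib, Finset.sum_congr rfl fun b _ => h3 b' b]
    simp
  rw [Finset.sum_congr rfl fun b' _ => h5 b', ← Finset.sum_mul]
  have h6 : ∑ b' : Fin n ⊕ Fin n, x.1 b' b' = 0 := by
    rw [Fintype.sum_sum_type, ← Finset.sum_add_distrib]
    refine Finset.sum_eq_zero fun i _ => ?_
    rw [((mem_so_iff x.1).mp x.2 i i).1]
    ring
  rw [h6, zero_mul, mul_zero]

theorem BF_nondeg {f : Fock n} (h : ∀ g, BF n f g = 0) : f = 0 := by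
  apply fock_ext
  intro S
  have h1 := h (fv Sᶜ)
  rw [BF_apply, Finset.sum_eq_single S] at h1
  · rw [fv_apply, if_pos rfl, mul_one] at h1
    exact (mul_eq_zero.mp h1).resolve_left (eps_ne_zero S)
  · intro T _ hT
    rw [fv_apply, if_neg (fun e => hT (compl_injective e)), mul_zero, mul_zero]
  · intro h; exact absurd (Finset.mem_univ _) h

end Vale.Agent.P182.H338
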