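import Vale.Agent.P182.H338.TopInt
import Vale.Agent.P182.H338.SFin
import Vale.Agent.P182.H588.Full

/-!
# The saturation property of `Spin(2n)` from the glued null case
-/

namespace Vale.Agent.P182.H338

open Module Matrix TensorProduct Vale.Agent.P182.H533 Vale.Agent.P182.B1 Vale.Agent.P182.H62

universe u w

/-- the spin core -/
theorem coreSpinU_of_glueAll (h : GlueAll) {n : ℕ} (hn : 2 ≤ n) : H588.CoreSpinU n :=
  coreSpinU_of_nullU hn fun J _ L _ _ _ _ => nullU_of_glueAll h J L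

section

open Vale.Agent.P182

variable {n : ℕ}

/-- **The saturation property of `Spin(2n)`**, from the glued null case. -/
theorem saturation_of_glueAll (hG : GlueAll) (hn : 2 ≤ n) {lam : Fin 3 → Fin n → ℚ}
    (hl : ∀ s, IsDominant (lam s)) (hQ : InRootLattice (lam 0 + lam 1 + lam 2))
    {N : ℕ} (hN : 0 < N)
    {V₀ V₁ V₂ W₀ W₁ W₂ : Type*} [AddCommGroup V₀] [Module ℂ V₀]
    [LieRingModule (so n) V₀] [LieModule ℂ (so n) V₀] [AddCommGroup V₁] [Module ℂ V₁]
    [LieRingModule (so n) V₁] [LieModule ℂ (so n) V₁] [AddCommGroup V₂] [Module ℂ V₂]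
    [LieRingModule (so n) V₂] [LieModule ℂ (so n) V₂] [AddCommGroup W₀] [Module ℂ W₀]
    [LieRingModule (so n) W₀] [LieModule ℂ (so n) W₀] [AddCommGroup W₁] [Module ℂ W₁]
    [LieRingModule (so n) W₁] [LieModule ℂ (so n) W₁] [AddCommGroup W₂] [Module ℂ W₂]
    [LieRingModule (so n) W₂] [LieModule ℂ (so n) W₂]
    [LieModule.IsIrreducible ℂ (so n) V₀] [LieModule.IsIrreducible ℂ (so n) V₁]
    [LieModule.IsIrreducible ℂ (so n) V₂] [LieModule.IsIrreducible ℂ (so n) W₀]
    [LieModule.IsIrreducible ℂ (so n) W₁] [LieModule.IsIrreducible ℂ (so n) W₂]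
    (v₀ : HasHighestWeight (lam 0) V₀) (v₁ : HasHighestWeight (lam 1) V₁)
    (v₂ : HasHighestWeight (lam 2) V₂)
    (w₀ : HasHighestWeight (fun i => N * lam 0 i) W₀)
    (w₁ : HasHighestWeight (fun i => N * lam 1 i) W₁)
    (w₂ : HasHighestWeight (fun i => N * lam 2 i) W₂)
    (h : HasInvariants (n := n) W₀ W₁ W₂) : HasInvariants (n := n) V₀ V₁ V₂ :=
  H588.saturation_of_T (tSemi_of_glueAll hG) (coreSpinU_of_glueAll hG hn) hn hl hQ hN v₀ v₁ v₂
    w₀ w₁ w₂ h

end

end Vale.Agent.P182.H338
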